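import Mathlib
import Vale.Agent.P028.Count

/-!
# The patterns which are not killed

`patSet γ y N` consists of the pairs `(s, t)` with a large maximum, with `γ (t - s)` close to an
integer and without an explanation by one good approximation of `γ`.  Its logarithmic measure is
small.
-/

namespace Vale.Agent.P028.ExtraLog

open Finset

/-- A good approximation of `γ` explains the patterns of size `X` at scale `y`. -/
def Structured (γ y X : ℝ) : Prop :=
  ∃ (A : ℤ) (B : ℕ), 0 < B ∧ IsCoprime A (B : ℤ) ∧ (B : ℝ) ≤ y ^ (-(1 / 10) : ℝ) ∧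
    |(B : ℝ) * γ - A| < 4 * y ∧ 4 * X * |(B : ℝ) * γ - A| ≤ 1

open Classical in
/-- The patterns which are not killed. -/
noncomputable def patSet (γ y : ℝ) (N : ℕ) : Finset (ℕ × ℕ) :=
  (Finset.Icc 1 N ×ˢ Finset.Icc 1 N).filter fun q =>
    y ^ (-(1 / 5) : ℝ) < max (q.1 : ℝ) q.2 ∧
      (∃ k : ℤ, |(k : ℝ) + γ * ((q.2 : ℝ) - q.1)| < 2 * y) ∧
      ¬ Structured γ y (max (q.1 : ℝ) q.2)

lemma patSet_subset (γ y : ℝ) (N : ℕ) : patSet γ y N ⊆ Finset.Icc 1 N ×ˢ Finset.Icc 1 N := by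
  classical
  exact filter_subset _ _

lemma card_spaced (U : Finset ℤ) {x T d : ℝ} (hd : 0 < d) (hT : 0 ≤ T)
    (hU : ∀ u ∈ U, x ≤ u ∧ (u : ℝ) ≤ x + T)
    (hsp : ∀ u ∈ U, ∀ u' ∈ U, u ≠ u' → d ≤ |(u : ℝ) - u'|) : (U.card : ℝ) ≤ T / d + 1 := by
  have hinj : Set.InjOn (fun u : ℤ => ⌊((u : ℝ) - x) / d⌋₊) U := by
    intro u hu u' hu' h
    by_contra hne
    have h1 := hsp u hu u' hu' hne
    have a0 : 0 ≤ ((u : ℝ) - x) / d := div_nonneg (by linarith [(hU u hu).1]) hd.le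
    have b0 : 0 ≤ ((u' : ℝ) - x) / d := div_nonneg (by linarith [(hU u' hu').1]) hd.le
    have a1 := Nat.floor_le a0
    have a2 := Nat.lt_floor_add_one (((u : ℝ) - x) / d)
    have b1 := Nat.floor_le b0
    have b2 := Nat.lt_floor_add_one (((u' : ℝ) - x) / d)
    simp only at h
    rw [h] at a1 a2
    have : |((u : ℝ) - x) / d - ((u' : ℝ) - x) / d| < 1 := abs_lt.2 ⟨by linarith, by linarith⟩
    rw [← sub_div, abs_div, abs_of_pos hd, div_lt_one hd, sub_sub_sub_cancel_right] at this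
    linarith
  have hsub : U.image (fun u : ℤ => ⌊((u : ℝ) - x) / d⌋₊) ⊆ range (⌊T / d⌋₊ + 1) := by
    intro n hn
    obtain ⟨u, hu, rfl⟩ := mem_image.1 hn
    refine mem_range.2 (Nat.lt_succ_of_le (Nat.floor_le_floor ?_))
    exact div_le_div_of_nonneg_right (by linarith [(hU u hu).2]) hd.le
  have hc := card_le_card hsub
  rw [card_image_of_injOn hinj, card_range] at hc
  have : (U.card : ℝ) ≤ (⌊T / d⌋₊ : ℝ) + 1 := by exact_mod_cast hc
  linarith [Nat.floor_le (show 0 ≤ T / d by positivity)]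

lemma card_intIoo_le {x y : ℝ} (hxy : x ≤ y) :
    ((intIoo x y).card : ℝ) ≤ y - x + 1 := by
  linarith [(abs_le.1 (card_intIoo hxy)).2]

lemma card_near_residues (U : Finset ℤ) (γ y x T : ℝ) (A : ℤ) (B : ℕ) (hB : 0 < B) (hy : 0 < y)
    (hy4 : y ≤ 1 / 4) (hT : 0 ≤ T) (hη : |(B : ℝ) * γ - A| < 4 * y)
    (hη0 : 0 < |(B : ℝ) * γ - A|)
    (hU : ∀ u ∈ U, (x ≤ u ∧ (u : ℝ) ≤ x + T) ∧ ∃ k : ℤ, |(k : ℝ) + γ * u| < 2 * y) :
    (U.card : ℝ) ≤ 8 * y * T + 16 * B * y / |(B : ℝ) * γ - A| := by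
  classical
  set e := (B : ℝ) * γ - A with he
  set η := |e| with hηdef
  have hB' : (0 : ℝ) < B := by exact_mod_cast hB
  -- the images of the parameter interval
  set a : ℤ → ℝ := fun r => min (((x - r) / B) * e) (((x + T - r) / B) * e) with ha
  set M : ℤ → Finset ℤ := fun r =>
    intIoo (-γ * r - a r - T * η / B - 2 * y) (-γ * r - a r + 2 * y) with hM
  set J : ℤ → ℤ → Finset ℤ := fun r m =>
    intIoo ((-(m : ℝ) - γ * r) / e - 2 * y / η) ((-(m : ℝ) - γ * r) / e + 2 * y / η) with hJ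
  have hsub : U ⊆ (Finset.Ico (0 : ℤ) B).biUnion fun r => (M r).biUnion fun m =>
      (J r m).image fun j => r + (B : ℤ) * j := by
    intro u hu
    obtain ⟨⟨hu1, hu2⟩, k, hk⟩ := hU u hu
    set r := u % (B : ℤ) with hr
    set j := u / (B : ℤ) with hj
    have hBz : (0 : ℤ) < B := by exact_mod_cast hB
    have hu' : u = r + (B : ℤ) * j := (Int.emod_add_mul_ediv u B).symm
    have huR : (u : ℝ) = (r : ℝ) + B * j := by exact_mod_cast hu'
    refine mem_biUnion.2 ⟨r, mem_Ico.2 ⟨Int.emod_nonneg _ hBz.ne', Int.emod_lt_of_pos _ hBz⟩,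
      mem_biUnion.2 ⟨k + j * A, ?_, mem_image.2 ⟨j, ?_, hu'.symm⟩⟩⟩
    · have hj1 : (x - r) / B ≤ j := by rw [div_le_iff₀ hB']; linarith
      have hj2 : (j : ℝ) ≤ (x + T - r) / B := by rw [le_div_iff₀ hB']; linarith
      obtain ⟨k1, k2⟩ := abs_lt.1 hk
      have key : ((k + j * A : ℤ) : ℝ) + γ * r + j * e = k + γ * u := by
        rw [huR, he]; push_cast; ring
      have hw : |((x + T - r) / B) * e - ((x - r) / B) * e| = T * η / B := by
        rw [← sub_mul, ← sub_div, abs_mul, abs_div, abs_of_pos hB',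
          show x + T - r - (x - r) = T by ring, abs_of_nonneg hT, hηdef]
        ring
      have hje : a r ≤ j * e ∧ (j : ℝ) * e ≤ a r + T * η / B := by
        rcases le_total 0 e with h0 | h0
        · have l1 := mul_le_mul_of_nonneg_right hj1 h0
          have l2 := mul_le_mul_of_nonneg_right hj2 h0
          rw [abs_of_nonneg (by linarith)] at hw
          simp only [ha, min_eq_left (le_trans l1 l2)]
          constructor <;> linarith
        · have l1 := mul_le_mul_of_nonpos_right hj1 h0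
          have l2 := mul_le_mul_of_nonpos_right hj2 h0
          rw [abs_of_nonpos (by linarith)] at hw
          simp only [ha, min_eq_right (le_trans l2 l1)]
          constructor <;> linarith
      rw [hM, mem_intIoo]
      constructor <;> linarith [hje.1, hje.2]
    · obtain ⟨k1, k2⟩ := abs_lt.1 hk
      have key : ((k + j * A : ℤ) : ℝ) + γ * r + j * e = k + γ * u := by
        rw [huR, he]; push_cast; ring
      have hd : |(j : ℝ) - (-((k + j * A : ℤ) : ℝ) - γ * r) / e| < 2 * y / η := by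
        have hne : e ≠ 0 := abs_pos.1 hη0
        rw [show (j : ℝ) - (-((k + j * A : ℤ) : ℝ) - γ * r) / e
          = ((k : ℝ) + γ * u) / e by rw [← key]; field_simp; ring, abs_div, hηdef]
        exact div_lt_div_of_pos_right hk hη0
      obtain ⟨d1, d2⟩ := abs_lt.1 hd
      rw [hJ, mem_intIoo]
      constructor <;> linarith
  have hMc : ∀ r, ((M r).card : ℝ) ≤ T * η / B + 2 := by
    intro r
    refine (card_intIoo_le ?_).trans ?_
    · have : 0 ≤ T * η / B := by positivity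
      linarith
    · linarith
  have hJc : ∀ r m, ((J r m).card : ℝ) ≤ 8 * y / η := by
    intro r m
    refine (card_intIoo_le ?_).trans ?_
    · have : 0 ≤ 2 * y / η := by positivity
      linarith
    · have h1 : 1 ≤ 4 * y / η := by rw [le_div_iff₀ hη0]; linarith
      have e8 : 8 * y / η = 2 * (4 * y / η) := by ring
      have e4 : 4 * y / η = 2 * (2 * y / η) := by ring
      linarith
  calc (U.card : ℝ)
      ≤ ∑ r ∈ Finset.Ico (0 : ℤ) B, ∑ m ∈ M r, ((J r m).card : ℝ) := by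
        have h := (card_le_card hsub).trans (card_biUnion_le.trans (sum_le_sum fun r _ =>
          card_biUnion_le.trans (sum_le_sum fun m _ => card_image_le)))
        exact_mod_cast h
    _ ≤ ∑ _r ∈ Finset.Ico (0 : ℤ) B, (T * η / B + 2) * (8 * y / η) := by
        refine sum_le_sum fun r _ => (sum_le_sum fun m _ => hJc r m).trans ?_
        rw [sum_const, nsmul_eq_mul]
        exact mul_le_mul_of_nonneg_right (hMc r) (by positivity)
    _ = 8 * y * T + 16 * B * y / η := by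
        rw [sum_const, Int.card_Ico, nsmul_eq_mul]
        simp
        field_simp
        ring

/-- The count in one dyadic range of the larger coordinate. -/
lemma card_band_near (γ y : ℝ) (hy : 0 < y) (hy4 : y ≤ 1 / 4) (T : ℕ) (s : ℝ) (S : Finset ℕ)
    (hS : ∀ t ∈ S, T < t ∧ t ≤ 2 * T ∧ y ^ (-(1 / 5) : ℝ) < (t : ℝ) ∧
      (∃ k : ℤ, |(k : ℝ) + γ * ((t : ℝ) - s)| < 2 * y) ∧ ¬ Structured γ y (t : ℝ))
    (hs : ∃ z : ℤ, (z : ℝ) = s) :
    (S.card : ℝ) ≤ 136 * (T : ℝ) * y ^ (1 / 10 : ℝ) := by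
  classical
  obtain ⟨z, rfl⟩ := hs
  rcases S.eq_empty_or_nonempty with rfl | ⟨t₀, ht₀⟩
  · simp; positivity
  set U : Finset ℤ := S.image fun t : ℕ => (t : ℤ) - z with hUdef
  have hcard : U.card = S.card := card_image_of_injective _ fun a c h => by
    have h' : (a : ℤ) - z = c - z := h
    omega
  rw [← hcard]
  have hU : ∀ u ∈ U, ((T : ℝ) - z ≤ u ∧ (u : ℝ) ≤ (T : ℝ) - z + T) ∧
      ∃ k : ℤ, |(k : ℝ) + γ * u| < 2 * y := by
    intro u hu
    obtain ⟨t, ht, rfl⟩ := mem_image.1 hu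
    obtain ⟨h1, h2, -, hk, -⟩ := hS t ht
    have h1' : (T : ℝ) ≤ t := by exact_mod_cast h1.le
    have h2' : (t : ℝ) ≤ 2 * T := by exact_mod_cast h2
    push_cast
    exact ⟨⟨by linarith, by linarith⟩, hk⟩
  have hpow : (0 : ℝ) < y ^ (1 / 10 : ℝ) := Real.rpow_pos_of_pos hy _
  by_cases hex : ∃ d : ℕ, 0 < d ∧ (d : ℝ) ≤ y ^ (-(1 / 10) : ℝ) ∧
      ∃ A : ℤ, |(d : ℝ) * γ - A| < 4 * y
  · set d := Nat.find hex with hd
    obtain ⟨hd0, hd1, A, hA⟩ := Nat.find_spec hex
    rw [← hd] at hd0 hd1 hA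
    have hcop : IsCoprime A (d : ℤ) := by
      rw [Int.isCoprime_iff_gcd_eq_one]
      by_contra hne
      set g := Int.gcd A d with hg
      have hgd : g ∣ d := Int.natCast_dvd_natCast.1 (Int.gcd_dvd_right A d)
      have hgA : (g : ℤ) ∣ A := Int.gcd_dvd_left A d
      have hg0 : 0 < g := Int.gcd_pos_of_ne_zero_right _ (by exact_mod_cast hd0.ne')
      obtain ⟨d', hd'⟩ := hgd
      obtain ⟨A', hA'⟩ := hgA
      have hg2 : 2 ≤ g := by omega
      have hd'0 : 0 < d' := Nat.pos_of_ne_zero fun h => by rw [h, mul_zero] at hd'; omega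
      have hlt : d' < d := by
        rw [hd']
        exact lt_mul_of_one_lt_left hd'0 hg2
      refine Nat.find_min hex (hd ▸ hlt) ⟨hd'0, le_trans (by exact_mod_cast hlt.le) hd1, A', ?_⟩
      have e : (d : ℝ) * γ - A = g * ((d' : ℝ) * γ - A') := by
        rw [hd', hA']; push_cast; ring
      rw [e, abs_mul, Nat.abs_cast] at hA
      refine lt_of_le_of_lt (le_mul_of_one_le_left (abs_nonneg _) ?_) hA
      exact_mod_cast hg0
    obtain ⟨-, ht2, -, -, hst⟩ := hS t₀ ht₀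
    set η := |(d : ℝ) * γ - A| with hη
    have h8 : 1 < 8 * (T : ℝ) * η := by
      have h4 : 1 < 4 * (t₀ : ℝ) * η := by
        by_contra h
        exact hst ⟨A, d, hd0, hcop, hd1, hA, not_lt.1 h⟩
      have : 4 * (t₀ : ℝ) * η ≤ 4 * (2 * T) * η := by
        refine mul_le_mul_of_nonneg_right ?_ (abs_nonneg _)
        have : (t₀ : ℝ) ≤ 2 * T := by exact_mod_cast ht2
        linarith
      linarith
    have hη0 : 0 < η := by
      rcases (abs_nonneg ((d : ℝ) * γ - A)).eq_or_lt with h | h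
      · rw [hη, ← h] at h8; norm_num at h8
      · exact h
    refine (card_near_residues U γ y ((T : ℝ) - z) T A d hd0 hy hy4 (Nat.cast_nonneg T) hA hη0
      hU).trans ?_
    have h16 : 16 * (d : ℝ) * y / η ≤ 128 * T * (d * y) := by
      rw [div_le_iff₀ hη0]
      have : (0 : ℝ) ≤ 16 * d * y := by positivity
      nlinarith
    have hdy : (d : ℝ) * y ≤ y ^ (1 / 10 : ℝ) := by
      calc (d : ℝ) * y ≤ y ^ (-(1 / 10) : ℝ) * y ^ (1 : ℝ) := by
            rw [Real.rpow_one]; exact mul_le_mul_of_nonneg_right hd1 hy.le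
        _ = y ^ (-(1 / 10) + 1 : ℝ) := (Real.rpow_add hy _ _).symm
        _ ≤ y ^ (1 / 10 : ℝ) :=
            Real.rpow_le_rpow_of_exponent_ge hy (by linarith) (by norm_num)
    have hy' : y ≤ y ^ (1 / 10 : ℝ) := by
      calc y = y ^ (1 : ℝ) := (Real.rpow_one y).symm
        _ ≤ _ := Real.rpow_le_rpow_of_exponent_ge hy (by linarith) (by norm_num)
    have hT0 : (0 : ℝ) ≤ T := Nat.cast_nonneg T
    have := mul_le_mul_of_nonneg_left hdy (by positivity : (0 : ℝ) ≤ 128 * T)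
    have := mul_le_mul_of_nonneg_left hy' (by positivity : (0 : ℝ) ≤ 8 * T)
    linarith
  · push Not at hex
    set Dm := y ^ (-(1 / 10) : ℝ) with hDm
    have hDm0 : 0 < Dm := Real.rpow_pos_of_pos hy _
    refine (card_spaced U hDm0 (Nat.cast_nonneg T) (fun u hu => (hU u hu).1) ?_).trans ?_
    · intro u hu u' hu' hne
      by_contra hlt
      rw [not_le] at hlt
      obtain ⟨k, hk⟩ := (hU u hu).2
      obtain ⟨k', hk'⟩ := (hU u' hu').2
      obtain ⟨a1, a2⟩ := abs_lt.1 hk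
      obtain ⟨b1, b2⟩ := abs_lt.1 hk'
      have hd0 : 0 < (u - u').natAbs := Int.natAbs_pos.2 (sub_ne_zero.2 hne)
      have hdR : ((u - u').natAbs : ℝ) = |(u : ℝ) - u'| := by
        rw [Nat.cast_natAbs, Int.cast_abs]; push_cast; ring_nf
      rcases le_total 0 ((u : ℝ) - u') with h0 | h0
      · have := hex _ hd0 (by rw [hdR]; exact hlt.le) (k' - k)
        rw [hdR, abs_of_nonneg h0] at this
        push_cast at this
        exact absurd (abs_lt.2 ⟨by linarith, by linarith⟩) (not_lt.2 this)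
      · have := hex _ hd0 (by rw [hdR]; exact hlt.le) (k - k')
        rw [hdR, abs_of_nonpos h0] at this
        push_cast at this
        exact absurd (abs_lt.2 ⟨by linarith, by linarith⟩) (not_lt.2 this)
    · obtain ⟨-, ht2, ht3, -, -⟩ := hS t₀ ht₀
      have h5 : 1 ≤ 2 * (T : ℝ) * y ^ (1 / 10 : ℝ) := by
        have h2 : (t₀ : ℝ) ≤ 2 * T := by exact_mod_cast ht2
        calc (1 : ℝ) = y ^ (-(1 / 5) : ℝ) * y ^ (1 / 5 : ℝ) := by
              rw [← Real.rpow_add hy]; simp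
          _ ≤ (2 * T) * y ^ (1 / 10 : ℝ) :=
              mul_le_mul (ht3.le.trans h2) (Real.rpow_le_rpow_of_exponent_ge hy (by linarith)
                (by norm_num)) (Real.rpow_nonneg hy.le _) (by positivity)
      have e : (T : ℝ) / Dm = T * y ^ (1 / 10 : ℝ) := by
        rw [hDm, Real.rpow_neg hy.le, div_inv_eq_mul]
      have : (0 : ℝ) ≤ T * y ^ (1 / 10 : ℝ) := by positivity
      rw [e]
      linarith

lemma sum_half_le (γ y : ℝ) (hy : 0 < y) (hy4 : y ≤ 1 / 4) (b : ℕ) (hb : 0 < b)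
    (Q : Finset (ℕ × ℕ)) (hQ : Q ⊆ Finset.Icc 1 (2 ^ b) ×ˢ Finset.Icc 1 (2 ^ b))
    (h : ∀ q ∈ Q, y ^ (-(1 / 5) : ℝ) < (q.2 : ℝ) ∧
      (∃ k : ℤ, |(k : ℝ) + γ * ((q.2 : ℝ) - q.1)| < 2 * y) ∧ ¬ Structured γ y (q.2 : ℝ)) :
    ∑ q ∈ Q, 1 / ((q.1 : ℝ) * q.2) ≤ 272 * (b : ℝ) ^ 2 * y ^ (1 / 10 : ℝ) := by
  classical
  set N := 2 ^ b
  set Z := y ^ (1 / 10 : ℝ)
  have hZ : 0 ≤ Z := Real.rpow_nonneg hy.le _
  have hinner : ∀ s ∈ Finset.Icc 1 N,
      ∑ q ∈ Q.filter (fun q => q.1 = s), 1 / ((q.1 : ℝ) * q.2) ≤ 1 / (s : ℝ) * (136 * b * Z) := by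
    intro s hs
    have hs1 : (1 : ℝ) ≤ s := by exact_mod_cast (Finset.mem_Icc.1 hs).1
    set R := (Q.filter (fun q => q.1 = s)).image Prod.snd
    have hinj : Set.InjOn Prod.snd (Q.filter (fun q => q.1 = s) : Set (ℕ × ℕ)) := by
      intro q hq q' hq' hqq
      exact Prod.ext ((mem_filter.1 hq).2.trans (mem_filter.1 hq').2.symm) hqq
    have e : ∑ q ∈ Q.filter (fun q => q.1 = s), 1 / ((q.1 : ℝ) * q.2)
        = 1 / (s : ℝ) * ∑ t ∈ R, 1 / (t : ℝ) := by
      rw [sum_image hinj, mul_sum]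
      refine sum_congr rfl fun q hq => ?_
      rw [(mem_filter.1 hq).2, one_div_mul_one_div]
    rw [e]
    refine mul_le_mul_of_nonneg_left ?_ (by positivity)
    have hR : ∀ t ∈ R, 2 ≤ t ∧ t ≤ N ∧ y ^ (-(1 / 5) : ℝ) < (t : ℝ) ∧
        (∃ k : ℤ, |(k : ℝ) + γ * ((t : ℝ) - s)| < 2 * y) ∧ ¬ Structured γ y (t : ℝ) := by
      intro t ht
      obtain ⟨q, hq, rfl⟩ := mem_image.1 ht
      obtain ⟨hqQ, rfl⟩ := mem_filter.1 hq
      obtain ⟨-, h2⟩ := mem_product.1 (hQ hqQ)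
      obtain ⟨a1, a2, a3⟩ := h q hqQ
      refine ⟨?_, (Finset.mem_Icc.1 h2).2, a1, a2, a3⟩
      have h1 : (1 : ℝ) ≤ y ^ (-(1 / 5) : ℝ) :=
        Real.one_le_rpow_of_pos_of_le_one_of_nonpos hy (by linarith) (by norm_num)
      have : (1 : ℝ) < (q.2 : ℝ) := lt_of_le_of_lt h1 a1
      exact_mod_cast this
    rw [← sum_fiberwise_of_maps_to (g := fun t => Nat.log 2 (t - 1)) (t := range b) fun t ht =>
      mem_range.2 (Nat.log_lt_of_lt_pow (by have := (hR t ht).1; omega)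
        (by have h3 : t ≤ 2 ^ b := (hR t ht).2.1
            have := Nat.two_pow_pos b
            omega))]
    calc ∑ i ∈ range b, ∑ t ∈ R.filter (fun t => Nat.log 2 (t - 1) = i), 1 / (t : ℝ)
        ≤ ∑ _i ∈ range b, 136 * Z := by
          refine sum_le_sum fun i _ => ?_
          set S := R.filter (fun t => Nat.log 2 (t - 1) = i)
          have hrange : ∀ t ∈ S, 2 ^ i < t ∧ t ≤ 2 * 2 ^ i := by
            intro t ht
            obtain ⟨htR, rfl⟩ := mem_filter.1 ht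
            have := (hR t htR).1
            have h1 := Nat.pow_log_le_self 2 (x := t - 1) (by omega)
            have h3 := Nat.lt_pow_succ_log_self (b := 2) (by norm_num) (t - 1)
            rw [Nat.succ_eq_add_one, pow_succ] at h3
            omega
          have hc := card_band_near γ y hy hy4 (2 ^ i) (s : ℝ) S (fun t ht => by
            obtain ⟨-, -, a1, a2, a3⟩ := hR t (mem_filter.1 ht).1
            exact ⟨(hrange t ht).1, (hrange t ht).2, a1, a2, a3⟩) ⟨(s : ℤ), by simp⟩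
          push_cast at hc
          have h2i : (0 : ℝ) < 2 ^ i := by positivity
          calc ∑ t ∈ S, 1 / (t : ℝ) ≤ ∑ _t ∈ S, 1 / (2 : ℝ) ^ i :=
                sum_le_sum fun t ht => one_div_le_one_div_of_le h2i
                  (by exact_mod_cast (hrange t ht).1.le)
            _ = S.card / (2 : ℝ) ^ i := by rw [sum_const, nsmul_eq_mul]; ring
            _ ≤ 136 * Z := by rw [div_le_iff₀ h2i]; linarith
      _ = 136 * b * Z := by rw [sum_const, card_range, nsmul_eq_mul]; ring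
  rw [← sum_fiberwise_of_maps_to (g := Prod.fst) (t := Finset.Icc 1 N) fun q hq =>
    (mem_product.1 (hQ hq)).1]
  calc ∑ s ∈ Finset.Icc 1 N, ∑ q ∈ Q.filter (fun q => q.1 = s), 1 / ((q.1 : ℝ) * q.2)
      ≤ ∑ s ∈ Finset.Icc 1 N, 1 / (s : ℝ) * (136 * b * Z) := sum_le_sum hinner
    _ = (harmonic N : ℝ) * (136 * b * Z) := by
        rw [← sum_mul, harmonic_eq_sum_Icc]
        push_cast
        simp [one_div]
    _ ≤ (2 * b) * (136 * b * Z) := by
        refine mul_le_mul_of_nonneg_right ((harmonic_le_one_add_log N).trans ?_) (by positivity)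
        have h2 := Real.log_le_sub_one_of_pos (show (0 : ℝ) < 2 by norm_num)
        have hb' : (1 : ℝ) ≤ b := by exact_mod_cast hb
        simp only [N]
        push_cast
        rw [Real.log_pow]
        nlinarith
    _ = _ := by ring

/-- The logarithmic measure of the patterns which are not killed. -/
theorem sum_patSet_le (γ y : ℝ) (hy : 0 < y) (hy4 : y ≤ 1 / 4) (b : ℕ) (hb : 0 < b) :
    ∑ q ∈ patSet γ y (2 ^ b), 1 / ((q.1 : ℝ) * q.2) ≤ 544 * (b : ℝ) ^ 2 * y ^ (1 / 10 : ℝ) := by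
  classical
  set P := patSet γ y (2 ^ b)
  rw [← sum_filter_add_sum_filter_not P (fun q => q.1 ≤ q.2)]
  have hP : ∀ q ∈ P, q ∈ Finset.Icc 1 (2 ^ b) ×ˢ Finset.Icc 1 (2 ^ b) ∧
      y ^ (-(1 / 5) : ℝ) < max (q.1 : ℝ) q.2 ∧
      (∃ k : ℤ, |(k : ℝ) + γ * ((q.2 : ℝ) - q.1)| < 2 * y) ∧
      ¬ Structured γ y (max (q.1 : ℝ) q.2) := fun q hq => mem_filter.1 hq
  have h1 := sum_half_le γ y hy hy4 b hb (P.filter fun q => q.1 ≤ q.2)
    ((filter_subset _ _).trans (patSet_subset _ _ _)) fun q hq => by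
      obtain ⟨hqP, hle⟩ := mem_filter.1 hq
      obtain ⟨-, a1, a2, a3⟩ := hP q hqP
      have hle' : (q.1 : ℝ) ≤ q.2 := by exact_mod_cast hle
      rw [max_eq_right hle'] at a1 a3
      exact ⟨a1, a2, a3⟩
  have h2 := sum_half_le γ y hy hy4 b hb ((P.filter fun q => ¬ q.1 ≤ q.2).image Prod.swap)
    (fun q hq => by
      obtain ⟨r, hr, rfl⟩ := mem_image.1 hq
      obtain ⟨a, c⟩ := mem_product.1 (hP r (mem_filter.1 hr).1).1
      exact mem_product.2 ⟨c, a⟩) fun q hq => by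
      obtain ⟨r, hr, rfl⟩ := mem_image.1 hq
      obtain ⟨hqP, hle⟩ := mem_filter.1 hr
      obtain ⟨-, a1, ⟨k, hk⟩, a3⟩ := hP r hqP
      have hle' : (r.2 : ℝ) ≤ r.1 := by exact_mod_cast (not_le.1 hle).le
      rw [max_eq_left hle'] at a1 a3
      refine ⟨a1, ⟨-k, ?_⟩, a3⟩
      rw [Prod.fst_swap, Prod.snd_swap, ← abs_neg]
      convert hk using 2
      push_cast
      ring
  have e : ∑ q ∈ (P.filter fun q => ¬ q.1 ≤ q.2).image Prod.swap, 1 / ((q.1 : ℝ) * q.2)
      = ∑ q ∈ P.filter (fun q => ¬ q.1 ≤ q.2), 1 / ((q.1 : ℝ) * q.2) := by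
    rw [sum_image fun a _ c _ h => Prod.swap_injective h]
    refine sum_congr rfl fun q _ => ?_
    rw [Prod.fst_swap, Prod.snd_swap, mul_comm]
  rw [e] at h2
  linarith

end Vale.Agent.P028.ExtraLog
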