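import Mathlib

/-!
# Elementary inequalities for the valuation sums of one prime

For two probability vectors `x, y` on a finite set of naturals and `b ∈ (1/2, 1)` put
`X s = ∑_{j - i = s} (x i * y j) ^ b`.  Then `X 0` has a gap below `1` proportional to the
non-concentration `t`, and every `X s`, except for one value of `s`, is `O(t ^ b)`.
-/

namespace Vale.Agent.P028.ExtraLog

open Finset

/-- The sum of `(x i * y j) ^ b` over `j - i = s`. -/
noncomputable def diagSum (b : ℝ) (I : Finset ℕ) (x y : ℕ → ℝ) (s : ℤ) : ℝ :=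
  ∑ q ∈ (I ×ˢ I).filter (fun q => (q.2 : ℤ) - q.1 = s), (x q.1 * y q.2) ^ b

variable {b : ℝ} {I : Finset ℕ} {x y : ℕ → ℝ}

lemma diagSum_nonneg (hx : ∀ i, 0 ≤ x i) (hy : ∀ i, 0 ≤ y i) (s : ℤ) :
    0 ≤ diagSum b I x y s :=
  sum_nonneg fun q _ => Real.rpow_nonneg (mul_nonneg (hx _) (hy _)) b

lemma sum_rpow_le_mul {x : ℕ → ℝ} {I : Finset ℕ} {c M : ℝ} (hc : 1 ≤ c) (hx : ∀ i, 0 ≤ x i)
    (hM : ∀ i ∈ I, x i ≤ M) : ∑ i ∈ I, x i ^ c ≤ (∑ i ∈ I, x i) * M ^ (c - 1) := by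
  rw [sum_mul]
  refine sum_le_sum fun i hi => ?_
  rcases (hx i).eq_or_lt with h | h
  · rw [← h, Real.zero_rpow (by linarith)]; simp
  · calc x i ^ c = x i * x i ^ (c - 1) := by
          rw [show c = 1 + (c - 1) by ring, Real.rpow_add h, Real.rpow_one]; ring_nf
      _ ≤ x i * M ^ (c - 1) :=
          mul_le_mul_of_nonneg_left (Real.rpow_le_rpow (hx i) (hM i hi) (by linarith)) (hx i)

lemma mul_rpow_le_half {u v : ℝ} (hu : 0 ≤ u) (hv : 0 ≤ v) (b : ℝ) :
    (u * v) ^ b ≤ (u ^ (2 * b) + v ^ (2 * b)) / 2 := by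
  have e1 : u ^ (2 * b) = (u ^ b) ^ 2 := by
    rw [← Real.rpow_natCast (u ^ b) 2, ← Real.rpow_mul hu]; push_cast; ring_nf
  have e2 : v ^ (2 * b) = (v ^ b) ^ 2 := by
    rw [← Real.rpow_natCast (v ^ b) 2, ← Real.rpow_mul hv]; push_cast; ring_nf
  rw [Real.mul_rpow hu hv, e1, e2]
  nlinarith [sq_nonneg (u ^ b - v ^ b)]

lemma sum_pairs_le (hx : ∀ i, 0 ≤ x i) (hy : ∀ i, 0 ≤ y i) (T : Finset (ℕ × ℕ)) (s : ℤ)
    (A B : Finset ℕ) (hT : ∀ q ∈ T, q.1 ∈ A ∧ q.2 ∈ B ∧ (q.2 : ℤ) - q.1 = s) :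
    ∑ q ∈ T, (x q.1 * y q.2) ^ b
      ≤ ((∑ i ∈ A, x i ^ (2 * b)) + ∑ j ∈ B, y j ^ (2 * b)) / 2 := by
  refine (sum_le_sum fun q _ => mul_rpow_le_half (hx q.1) (hy q.2) b).trans ?_
  rw [← sum_div, sum_add_distrib]
  refine div_le_div_of_nonneg_right (add_le_add ?_ ?_) zero_le_two
  · have hinj : Set.InjOn (fun q : ℕ × ℕ => q.1) T := by
      intro q hq q' hq' h
      simp only at h
      have := (hT q hq).2.2
      have := (hT q' hq').2.2
      exact Prod.ext h (by omega)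
    rw [← sum_image (g := fun q : ℕ × ℕ => q.1) (f := fun i => x i ^ (2 * b)) hinj]
    exact sum_le_sum_of_subset_of_nonneg (fun i hi => by
      obtain ⟨q, hq, rfl⟩ := mem_image.1 hi; exact (hT q hq).1)
      fun i _ _ => Real.rpow_nonneg (hx i) _
  · have hinj : Set.InjOn (fun q : ℕ × ℕ => q.2) T := by
      intro q hq q' hq' h
      simp only at h
      have := (hT q hq).2.2
      have := (hT q' hq').2.2
      exact Prod.ext (by omega) h
    rw [← sum_image (g := fun q : ℕ × ℕ => q.2) (f := fun j => y j ^ (2 * b)) hinj]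
    exact sum_le_sum_of_subset_of_nonneg (fun i hi => by
      obtain ⟨q, hq, rfl⟩ := mem_image.1 hi; exact (hT q hq).2.1)
      fun i _ _ => Real.rpow_nonneg (hy i) _

lemma le_one_of_sum_eq_one (hx : ∀ i, 0 ≤ x i) (hsum : ∑ i ∈ I, x i = 1) {i : ℕ} (hi : i ∈ I) :
    x i ≤ 1 :=
  (single_le_sum (fun j _ => hx j) hi).trans hsum.le

/-- Every diagonal sum is at most `1`. -/
lemma diagSum_le_one (hb : 1 / 2 ≤ b) (hx : ∀ i, 0 ≤ x i) (hy : ∀ i, 0 ≤ y i)
    (hxs : ∑ i ∈ I, x i = 1) (hys : ∑ i ∈ I, y i = 1) (s : ℤ) : diagSum b I x y s ≤ 1 := by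
  refine (sum_pairs_le hx hy _ s I I fun q hq => ?_).trans ?_
  · obtain ⟨h1, h2⟩ := mem_filter.1 hq
    exact ⟨(mem_product.1 h1).1, (mem_product.1 h1).2, h2⟩
  · have h1 := sum_rpow_le_mul (c := 2 * b) (M := 1) (by linarith) hx
      (fun i hi => le_one_of_sum_eq_one hx hxs hi)
    have h2 := sum_rpow_le_mul (c := 2 * b) (M := 1) (by linarith) hy
      (fun i hi => le_one_of_sum_eq_one hy hys hi)
    rw [hxs, Real.one_rpow, mul_one] at h1
    rw [hys, Real.one_rpow, mul_one] at h2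
    linarith

variable {m m' : ℕ}

/-- The gap at `s = 0`. -/
lemma diagSum_zero_le (hb : 1 / 2 ≤ b) (hb1 : b ≤ 1) (hx : ∀ i, 0 ≤ x i) (hy : ∀ i, 0 ≤ y i)
    (hxs : ∑ i ∈ I, x i = 1) (hys : ∑ i ∈ I, y i = 1)
    (hm : ∀ i ∈ I, x i ≤ x m) (hm' : ∀ i ∈ I, y i ≤ y m') :
    diagSum b I x y 0 ≤ 1 - (2 * b - 1) / 2 * ((1 - x m) + (1 - y m')) := by
  refine (sum_pairs_le hx hy _ 0 I I fun q hq => ?_).trans ?_
  · obtain ⟨h1, h2⟩ := mem_filter.1 hq
    exact ⟨(mem_product.1 h1).1, (mem_product.1 h1).2, h2⟩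
  · have h1 := sum_rpow_le_mul (c := 2 * b) (by linarith) hx hm
    have h2 := sum_rpow_le_mul (c := 2 * b) (by linarith) hy hm'
    rw [hxs, one_mul] at h1
    rw [hys, one_mul] at h2
    have c1 : x m ^ (2 * b - 1) ≤ 1 + (2 * b - 1) * (x m - 1) := by
      have := rpow_one_add_le_one_add_mul_self (s := x m - 1) (by linarith [hx m])
        (p := 2 * b - 1) (by linarith) (by linarith)
      simpa using this
    have c2 : y m' ^ (2 * b - 1) ≤ 1 + (2 * b - 1) * (y m' - 1) := by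
      have := rpow_one_add_le_one_add_mul_self (s := y m' - 1) (by linarith [hy m'])
        (p := 2 * b - 1) (by linarith) (by linarith)
      simpa using this
    linarith

/-- The off-diagonal sums. -/
lemma diagSum_off_le (hb : 1 / 2 ≤ b) (hb1 : b ≤ 1) (hx : ∀ i, 0 ≤ x i) (hy : ∀ i, 0 ≤ y i)
    (hxs : ∑ i ∈ I, x i = 1) (hys : ∑ i ∈ I, y i = 1) (hmI : m ∈ I) (hmI' : m' ∈ I)
    {s : ℤ} (hs : s ≠ (m' : ℤ) - m) :
    diagSum b I x y s ≤ 3 * ((1 - x m) + (1 - y m')) ^ b := by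
  classical
  set u := 1 - x m with hu
  set v := 1 - y m' with hv
  have hxm : x m ≤ 1 := le_one_of_sum_eq_one hx hxs hmI
  have hym : y m' ≤ 1 := le_one_of_sum_eq_one hy hys hmI'
  have hu0 : 0 ≤ u := by rw [hu]; linarith
  have hv0 : 0 ≤ v := by rw [hv]; linarith
  have hb0 : 0 ≤ b := by linarith
  have hu1 : u ≤ 1 := by rw [hu]; linarith [hx m]
  have hv1 : v ≤ 1 := by rw [hv]; linarith [hy m']
  have ex : ∑ i ∈ I.erase m, x i = u := by
    have := add_sum_erase I x hmI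
    rw [hu]; linarith
  have ey : ∑ i ∈ I.erase m', y i = v := by
    have := add_sum_erase I y hmI'
    rw [hv]; linarith
  have hxle : ∀ i ∈ I.erase m, x i ≤ u := fun i hi =>
    (single_le_sum (fun j _ => hx j) hi).trans ex.le
  have hyle : ∀ i ∈ I.erase m', y i ≤ v := fun i hi =>
    (single_le_sum (fun j _ => hy j) hi).trans ey.le
  set T := (I ×ˢ I).filter (fun q : ℕ × ℕ => (q.2 : ℤ) - q.1 = s) with hT
  have hmem : ∀ q ∈ T, q.1 ∈ I ∧ q.2 ∈ I ∧ (q.2 : ℤ) - q.1 = s := fun q hq => by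
    obtain ⟨h1, h2⟩ := mem_filter.1 hq
    exact ⟨(mem_product.1 h1).1, (mem_product.1 h1).2, h2⟩
  set f : ℕ × ℕ → ℝ := fun q => (x q.1 * y q.2) ^ b with hf
  have hf0 : ∀ q, 0 ≤ f q := fun q => Real.rpow_nonneg (mul_nonneg (hx _) (hy _)) b
  have hub : (u + v) ^ b ≥ u ^ b ∧ (u + v) ^ b ≥ v ^ b :=
    ⟨Real.rpow_le_rpow hu0 (by linarith) hb0, Real.rpow_le_rpow hv0 (by linarith) hb0⟩
  have hA : ∑ q ∈ T.filter (fun q => q.1 = m), f q ≤ v ^ b := by
    rcases (T.filter (fun q => q.1 = m)).eq_empty_or_nonempty with he | ⟨q, hq⟩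
    · rw [he, sum_empty]; exact Real.rpow_nonneg hv0 b
    · have hsub : T.filter (fun q => q.1 = m) ⊆ {q} := by
        intro r hr
        obtain ⟨hr1, hr2⟩ := mem_filter.1 hr
        obtain ⟨hq1, hq2⟩ := mem_filter.1 hq
        have := (hmem r hr1).2.2
        have := (hmem q hq1).2.2
        exact mem_singleton.2 (Prod.ext (by omega) (by omega))
      refine (sum_le_sum_of_subset_of_nonneg hsub fun r _ _ => hf0 r).trans ?_
      rw [sum_singleton]
      obtain ⟨hq1, hq2⟩ := mem_filter.1 hq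
      have hne : q.2 ≠ m' := by
        intro h
        have := (hmem q hq1).2.2
        exact hs (by omega)
      refine Real.rpow_le_rpow (mul_nonneg (hx _) (hy _)) ?_ hb0
      calc x q.1 * y q.2 ≤ 1 * v := mul_le_mul (le_one_of_sum_eq_one hx hxs (hmem q hq1).1)
            (hyle _ (mem_erase.2 ⟨hne, (hmem q hq1).2.1⟩)) (hy _) zero_le_one
        _ = v := one_mul v
  set T' := T.filter (fun q => ¬ q.1 = m) with hT'
  have hB : ∑ q ∈ T'.filter (fun q => q.2 = m'), f q ≤ u ^ b := by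
    rcases (T'.filter (fun q => q.2 = m')).eq_empty_or_nonempty with he | ⟨q, hq⟩
    · rw [he, sum_empty]; exact Real.rpow_nonneg hu0 b
    · have hsub : T'.filter (fun q => q.2 = m') ⊆ {q} := by
        intro r hr
        obtain ⟨hr1, hr2⟩ := mem_filter.1 hr
        obtain ⟨hq1, hq2⟩ := mem_filter.1 hq
        have := (hmem r (mem_filter.1 hr1).1).2.2
        have := (hmem q (mem_filter.1 hq1).1).2.2
        exact mem_singleton.2 (Prod.ext (by omega) (by omega))
      refine (sum_le_sum_of_subset_of_nonneg hsub fun r _ _ => hf0 r).trans ?_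
      rw [sum_singleton]
      obtain ⟨hq1, hq2⟩ := mem_filter.1 hq
      obtain ⟨hq3, hq4⟩ := mem_filter.1 hq1
      refine Real.rpow_le_rpow (mul_nonneg (hx _) (hy _)) ?_ hb0
      calc x q.1 * y q.2 ≤ u * 1 := mul_le_mul (hxle _ (mem_erase.2 ⟨hq4, (hmem q hq3).1⟩))
            (le_one_of_sum_eq_one hy hys (hmem q hq3).2.1) (hy _) hu0
        _ = u := mul_one u
  have hC : ∑ q ∈ T'.filter (fun q => ¬ q.2 = m'), f q ≤ (u + v) ^ b := by
    refine (sum_pairs_le hx hy _ s (I.erase m) (I.erase m') fun q hq => ?_).trans ?_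
    · obtain ⟨hq1, hq2⟩ := mem_filter.1 hq
      obtain ⟨hq3, hq4⟩ := mem_filter.1 hq1
      exact ⟨mem_erase.2 ⟨hq4, (hmem q hq3).1⟩, mem_erase.2 ⟨hq2, (hmem q hq3).2.1⟩,
        (hmem q hq3).2.2⟩
    · have h1 := sum_rpow_le_mul (c := 2 * b) (by linarith) hx hxle
      have h2 := sum_rpow_le_mul (c := 2 * b) (by linarith) hy hyle
      rw [ex] at h1
      rw [ey] at h2
      have key : ∀ w : ℝ, 0 ≤ w → w ≤ 1 → w * w ^ (2 * b - 1) ≤ w ^ b := by
        intro w hw0 hw1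
        rcases hw0.eq_or_lt with h | h
        · rw [← h]; simp [Real.rpow_nonneg]
        · rw [← Real.rpow_one_add' hw0 (by linarith)]
          exact Real.rpow_le_rpow_of_exponent_ge h hw1 (by linarith)
      have := key u hu0 hu1
      have := key v hv0 hv1
      linarith [hub.1, hub.2]
  have e1 := sum_filter_add_sum_filter_not T (fun q => q.1 = m) f
  have e2 := sum_filter_add_sum_filter_not T' (fun q => q.2 = m') f
  rw [← hT'] at e1
  show ∑ q ∈ T, f q ≤ _
  linarith [hub.1, hub.2]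

/-- The exact inequality behind the pattern bound. -/
lemma diagSum_master (hb : 1 / 2 < b) (hb1 : b ≤ 2 / 3) (hx : ∀ i, 0 ≤ x i) (hy : ∀ i, 0 ≤ y i)
    (hxs : ∑ i ∈ I, x i = 1) (hys : ∑ i ∈ I, y i = 1) (D : Finset ℤ) (l : ℤ → ℝ)
    (hl : ∀ s, 0 ≤ l s) (hl0 : l 0 = 1)
    (hL : ∑ s ∈ D.erase 0, l s ≤ (2 * b - 1) / 2000) :
    ∑ s ∈ D, l s * diagSum b I x y s ^ (1 / b) ≤ 1 := by
  classical
  have hne : I.Nonempty := by
    by_contra h
    rw [not_nonempty_iff_eq_empty.1 h, sum_empty] at hxs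
    exact zero_ne_one hxs
  obtain ⟨m, hmI, hm⟩ := exists_max_image I x hne
  obtain ⟨m', hmI', hm'⟩ := exists_max_image I y hne
  set t := (1 - x m) + (1 - y m') with ht
  have ht0 : 0 ≤ t := by
    have := le_one_of_sum_eq_one hx hxs hmI
    have := le_one_of_sum_eq_one hy hys hmI'
    rw [ht]; linarith
  set e := 2 * b - 1 with he
  have he0 : 0 < e := by rw [he]; linarith
  set X := diagSum b I x y with hX
  have hX0 : ∀ s, 0 ≤ X s := fun s => diagSum_nonneg hx hy s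
  have hX1 : ∀ s, X s ≤ 1 := fun s => diagSum_le_one hb.le hx hy hxs hys s
  have hXp : ∀ s, X s ^ (1 / b) ≤ X s := fun s => by
    calc X s ^ (1 / b) ≤ X s ^ (1 : ℝ) :=
          Real.rpow_le_rpow_of_exponent_ge' (hX0 s) (hX1 s) zero_le_one
            (by rw [le_div_iff₀ (by linarith)]; linarith)
      _ = X s := Real.rpow_one _
  have hgap : X 0 ≤ 1 - e / 2 * t :=
    diagSum_zero_le hb.le (by linarith) hx hy hxs hys hm hm'
  have hD : ∑ s ∈ D, l s * X s ^ (1 / b)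
      ≤ X 0 + ∑ s ∈ D.erase 0, l s * X s ^ (1 / b) := by
    by_cases h0 : (0 : ℤ) ∈ D
    · rw [← add_sum_erase D _ h0, hl0, one_mul]
      linarith [hXp 0]
    · rw [erase_eq_of_notMem h0]
      linarith [hX0 0]
  refine hD.trans ?_
  have hcrude : ∑ s ∈ D.erase 0, l s * X s ^ (1 / b) ≤ ∑ s ∈ D.erase 0, l s :=
    sum_le_sum fun s _ => mul_le_of_le_one_right (hl s) ((hXp s).trans (hX1 s))
  by_cases hmm : m = m'
  · subst hmm
    have hoff : ∀ s ∈ D.erase 0, X s ^ (1 / b) ≤ 9 * t := by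
      intro s hs
      have h : X s ≤ 3 * t ^ b := diagSum_off_le hb.le (by linarith) hx hy hxs hys hmI hmI'
        (by simpa using (mem_erase.1 hs).1)
      calc X s ^ (1 / b) ≤ (3 * t ^ b) ^ (1 / b) :=
            Real.rpow_le_rpow (hX0 s) h (by positivity)
        _ = 3 ^ (1 / b) * t := by
            rw [Real.mul_rpow (by norm_num) (Real.rpow_nonneg ht0 b), ← Real.rpow_mul ht0,
              mul_one_div_cancel (by linarith), Real.rpow_one]
        _ ≤ 3 ^ (2 : ℝ) * t := by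
            refine mul_le_mul_of_nonneg_right ?_ ht0
            refine Real.rpow_le_rpow_of_exponent_le (by norm_num) ?_
            rw [div_le_iff₀ (by linarith)]; linarith
        _ = 9 * t := by norm_num
    have : ∑ s ∈ D.erase 0, l s * X s ^ (1 / b) ≤ (∑ s ∈ D.erase 0, l s) * (9 * t) := by
      rw [sum_mul]
      exact sum_le_sum fun s hs => mul_le_mul_of_nonneg_left (hoff s hs) (hl s)
    have : (∑ s ∈ D.erase 0, l s) * (9 * t) ≤ e / 2000 * (9 * t) :=
      mul_le_mul_of_nonneg_right hL (by positivity)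
    nlinarith
  · rcases le_or_gt (1 / 100) t with h | h
    · nlinarith
    · have h0 : X 0 ≤ 3 * t ^ b := diagSum_off_le hb.le (by linarith) hx hy hxs hys hmI hmI'
        (fun hc => hmm (by omega))
      have h1 : t ^ b ≤ (1 / 100 : ℝ) ^ (1 / 2 : ℝ) :=
        (Real.rpow_le_rpow ht0 h.le (by linarith)).trans
          (Real.rpow_le_rpow_of_exponent_ge (by norm_num) (by norm_num) hb.le)
      have h2 : (1 / 100 : ℝ) ^ (1 / 2 : ℝ) = 1 / 10 := by
        rw [show (1 / 100 : ℝ) = (1 / 10) ^ (2 : ℝ) by norm_num, ← Real.rpow_mul (by norm_num)]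
        norm_num
      nlinarith [hcrude, hL]

/-- The dichotomy behind the gcd-sum bound. -/
lemma diagSum_dichotomy (hb : 1 / 2 < b) (hb1 : b < 1) (hx : ∀ i, 0 ≤ x i) (hy : ∀ i, 0 ≤ y i)
    (hxs : ∑ i ∈ I, x i = 1) (hys : ∑ i ∈ I, y i = 1) (D : Finset ℤ) (l : ℤ → ℝ)
    (hl : ∀ s, 0 ≤ l s) (hl0 : l 0 = 1) {L : ℝ} (hL : ∑ s ∈ D.erase 0, l s ≤ L)
    (hLb : L ≤ (2 * b - 1) / 200) :
    (∑ s ∈ D, l s * diagSum b I x y s ≤ 1) ∨
      ∃ k ∈ I, (1 - x k) + (1 - y k) ≤ (6 * L / (2 * b - 1)) ^ (1 / (1 - b)) := by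
  classical
  have hne : I.Nonempty := by
    by_contra h
    rw [not_nonempty_iff_eq_empty.1 h, sum_empty] at hxs
    exact zero_ne_one hxs
  obtain ⟨m, hmI, hm⟩ := exists_max_image I x hne
  obtain ⟨m', hmI', hm'⟩ := exists_max_image I y hne
  set t := (1 - x m) + (1 - y m') with ht
  have ht0 : 0 ≤ t := by
    have := le_one_of_sum_eq_one hx hxs hmI
    have := le_one_of_sum_eq_one hy hys hmI'
    rw [ht]; linarith
  set e := 2 * b - 1 with he
  have he0 : 0 < e := by rw [he]; linarith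
  set X := diagSum b I x y with hX
  have hX0 : ∀ s, 0 ≤ X s := fun s => diagSum_nonneg hx hy s
  have hX1 : ∀ s, X s ≤ 1 := fun s => diagSum_le_one hb.le hx hy hxs hys s
  have hL0 : 0 ≤ L := (sum_nonneg fun s _ => hl s).trans hL
  have hgap : X 0 ≤ 1 - e / 2 * t :=
    diagSum_zero_le hb.le (by linarith) hx hy hxs hys hm hm'
  have hD : ∑ s ∈ D, l s * X s ≤ X 0 + ∑ s ∈ D.erase 0, l s * X s := by
    by_cases h0 : (0 : ℤ) ∈ D
    · rw [← add_sum_erase D _ h0, hl0, one_mul]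
    · rw [erase_eq_of_notMem h0]
      linarith [hX0 0]
  by_cases hmm : m = m'
  · subst hmm
    rcases le_or_gt t ((6 * L / e) ^ (1 / (1 - b))) with h | h
    · exact Or.inr ⟨m, hmI, h⟩
    left
    have htpos : 0 < t := lt_of_le_of_lt (Real.rpow_nonneg (by positivity) _) h
    have hkey : L * (3 * t ^ b) ≤ e / 2 * t := by
      have h1 : 6 * L / e ≤ t ^ (1 - b) := by
        have := Real.rpow_le_rpow (Real.rpow_nonneg (by positivity) _) h.le
          (by linarith : 0 ≤ 1 - b)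
        rwa [← Real.rpow_mul (by positivity), one_div_mul_cancel (by linarith),
          Real.rpow_one] at this
      have h2 : t ^ (1 - b) * t ^ b = t := by
        rw [← Real.rpow_add htpos]; simp
      rw [div_le_iff₀ he0] at h1
      have := mul_le_mul_of_nonneg_right h1 (Real.rpow_nonneg ht0 b)
      calc L * (3 * t ^ b) = (6 * L * t ^ b) / 2 := by ring
        _ ≤ (t ^ (1 - b) * e * t ^ b) / 2 := by linarith
        _ = e / 2 * (t ^ (1 - b) * t ^ b) := by ring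
        _ = e / 2 * t := by rw [h2]
    have : ∑ s ∈ D.erase 0, l s * X s ≤ (∑ s ∈ D.erase 0, l s) * (3 * t ^ b) := by
      rw [sum_mul]
      exact sum_le_sum fun s hs => mul_le_mul_of_nonneg_left
        (diagSum_off_le hb.le hb1.le hx hy hxs hys hmI hmI' (by simpa using (mem_erase.1 hs).1))
        (hl s)
    have : (∑ s ∈ D.erase 0, l s) * (3 * t ^ b) ≤ L * (3 * t ^ b) :=
      mul_le_mul_of_nonneg_right hL (by positivity)
    linarith
  · left
    have hcrude : ∑ s ∈ D.erase 0, l s * X s ≤ L :=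
      (sum_le_sum fun s _ => mul_le_of_le_one_right (hl s) (hX1 s)).trans hL
    rcases le_or_gt (1 / 100) t with h | h
    · nlinarith
    · have h0 : X 0 ≤ 3 * t ^ b := diagSum_off_le hb.le hb1.le hx hy hxs hys hmI hmI'
        (fun hc => hmm (by omega))
      have h1 : t ^ b ≤ (1 / 100 : ℝ) ^ (1 / 2 : ℝ) :=
        (Real.rpow_le_rpow ht0 h.le (by linarith)).trans
          (Real.rpow_le_rpow_of_exponent_ge (by norm_num) (by norm_num) hb.le)
      have h2 : (1 / 100 : ℝ) ^ (1 / 2 : ℝ) = 1 / 10 := by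
        rw [show (1 / 100 : ℝ) = (1 / 10) ^ (2 : ℝ) by norm_num, ← Real.rpow_mul (by norm_num)]
        norm_num
      linarith

end Vale.Agent.P028.ExtraLog
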