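import Mathlib
import Vale.Agent.P028.ExtraLog.Conc

/-!
# Removing one prime from a weighted family of integers

A configuration is a pair of finite weighted families with a set of edges `(v, w)` on which
`x v * lcm v w ≤ φ v` and `y w * lcm v w ≤ φ w`.
-/

namespace Vale.Agent.P028.ExtraLog

open Finset

/-- The admissible configurations. -/
structure Adm (V W : Finset ℕ) (x y : ℕ → ℝ) (E : Finset (ℕ × ℕ)) : Prop where
  subset : E ⊆ V ×ˢ W
  posV : ∀ v ∈ V, 0 < v
  posW : ∀ w ∈ W, 0 < w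
  nonnegX : ∀ v, 0 ≤ x v
  nonnegY : ∀ w, 0 ≤ y w
  capX : ∀ e ∈ E, x e.1 * (Nat.lcm e.1 e.2 : ℕ) ≤ (Nat.totient e.1 : ℝ)
  capY : ∀ e ∈ E, y e.2 * (Nat.lcm e.1 e.2 : ℕ) ≤ (Nat.totient e.2 : ℝ)

/-- The size used for inductions. -/
def size (V W : Finset ℕ) : ℕ := ∑ v ∈ V, v + ∑ w ∈ W, w

/-- The weight of the edges. -/
def edgeSum (x y : ℕ → ℝ) (E : Finset (ℕ × ℕ)) : ℝ := ∑ e ∈ E, x e.1 * y e.2

/-- The elements of `p`-valuation `i`. -/
def atLevel (p i : ℕ) (V : Finset ℕ) : Finset ℕ := V.filter (fun v => v.factorization p = i)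

/-- The `p`-free parts of the elements of valuation `i`. -/
def stripped (p i : ℕ) (V : Finset ℕ) : Finset ℕ := (atLevel p i V).image (fun v => v / p ^ i)

/-- The weights after removing `p`. -/
noncomputable def strippedWeight (p i j : ℕ) (x : ℕ → ℝ) : ℕ → ℝ :=
  fun n => x (p ^ i * n) * ((p : ℝ) ^ max i j / Nat.totient (p ^ i))

/-- The edges of valuations `(i, j)`. -/
def edgesAt (p i j : ℕ) (E : Finset (ℕ × ℕ)) : Finset (ℕ × ℕ) :=
  E.filter (fun e => e.1.factorization p = i ∧ e.2.factorization p = j)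

/-- The edges after removing `p`. -/
def strippedEdges (p i j : ℕ) (E : Finset (ℕ × ℕ)) : Finset (ℕ × ℕ) :=
  (edgesAt p i j E).image (fun e => (e.1 / p ^ i, e.2 / p ^ j))

variable {p i j : ℕ} {V W : Finset ℕ} {x y : ℕ → ℝ} {E : Finset (ℕ × ℕ)}

lemma pow_mul_div_of_factorization {v : ℕ} (h : v.factorization p = i) :
    p ^ i * (v / p ^ i) = v := by
  subst h
  exact Nat.ordProj_mul_ordCompl_eq_self v p

lemma pow_mul_of_mem_stripped {n : ℕ} (h : n ∈ stripped p i V) : p ^ i * n ∈ atLevel p i V := by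
  obtain ⟨v, hv, rfl⟩ := mem_image.1 h
  rwa [pow_mul_div_of_factorization (mem_filter.1 hv).2]

lemma injOn_div_pow : Set.InjOn (fun v => v / p ^ i) (atLevel p i V : Set ℕ) := by
  intro v hv w hw h
  simp only at h
  rw [← pow_mul_div_of_factorization (mem_filter.1 hv).2,
    ← pow_mul_div_of_factorization (mem_filter.1 hw).2, h]

lemma sum_stripped (f : ℕ → ℝ) :
    ∑ n ∈ stripped p i V, f (p ^ i * n) = ∑ v ∈ atLevel p i V, f v := by
  rw [stripped, sum_image injOn_div_pow]
  exact sum_congr rfl fun v hv => by rw [pow_mul_div_of_factorization (mem_filter.1 hv).2]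

lemma mem_strippedEdges {e : ℕ × ℕ} (h : e ∈ strippedEdges p i j E) :
    (p ^ i * e.1, p ^ j * e.2) ∈ edgesAt p i j E := by
  obtain ⟨d, hd, rfl⟩ := mem_image.1 h
  obtain ⟨_, h1, h2⟩ := mem_filter.1 hd
  simpa [pow_mul_div_of_factorization h1, pow_mul_div_of_factorization h2] using hd

lemma not_dvd_of_mem_stripped (hp : p.Prime) (hV : ∀ v ∈ V, 0 < v) {n : ℕ}
    (h : n ∈ stripped p i V) : ¬ p ∣ n := by
  obtain ⟨v, hv, rfl⟩ := mem_image.1 h
  obtain ⟨hv1, rfl⟩ := mem_filter.1 hv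
  exact Nat.not_dvd_ordCompl hp (hV v hv1).ne'

lemma pos_of_mem_stripped (hV : ∀ v ∈ V, 0 < v) {n : ℕ} (h : n ∈ stripped p i V) : 0 < n := by
  rcases Nat.eq_zero_or_pos n with rfl | h'
  · have h0 := hV _ (mem_filter.1 (pow_mul_of_mem_stripped h)).1
    simp at h0
  · exact h'

lemma lcm_pow_mul (hp : p.Prime) {u t : ℕ} (hu : ¬ p ∣ u) (ht : ¬ p ∣ t) :
    Nat.lcm (p ^ i * u) (p ^ j * t) = p ^ max i j * Nat.lcm u t := by
  have hu0 : u ≠ 0 := fun h => hu (h ▸ dvd_zero p)
  have ht0 : t ≠ 0 := fun h => ht (h ▸ dvd_zero p)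
  have hp0 := hp.ne_zero
  refine Nat.eq_of_factorization_eq (Nat.lcm_ne_zero (by positivity) (by positivity))
    (by have := Nat.lcm_ne_zero hu0 ht0; positivity) fun l => ?_
  rw [Nat.factorization_lcm (by positivity) (by positivity),
    Nat.factorization_mul (by positivity) (Nat.lcm_ne_zero hu0 ht0),
    Nat.factorization_lcm hu0 ht0, Finsupp.add_apply, Finsupp.sup_apply, Finsupp.sup_apply,
    Nat.factorization_mul (by positivity) hu0, Nat.factorization_mul (by positivity) ht0,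
    Finsupp.add_apply, Finsupp.add_apply, hp.factorization_pow, hp.factorization_pow,
    hp.factorization_pow]
  rcases eq_or_ne l p with rfl | hl
  · simp [Nat.factorization_eq_zero_of_not_dvd hu, Nat.factorization_eq_zero_of_not_dvd ht]
  · simp [hl]

lemma totient_pow_mul (hp : p.Prime) {u : ℕ} (hu : ¬ p ∣ u) :
    Nat.totient (p ^ i * u) = Nat.totient (p ^ i) * Nat.totient u :=
  Nat.totient_mul (((Nat.Prime.coprime_iff_not_dvd hp).2 hu).pow_left i)

lemma totient_pow_pos (hp : p.Prime) (i : ℕ) : (0 : ℝ) < Nat.totient (p ^ i) := by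
  exact_mod_cast Nat.totient_pos.2 (pow_pos hp.pos i)

lemma adm_stripped (h : Adm V W x y E) (hp : p.Prime) (i j : ℕ) :
    Adm (stripped p i V) (stripped p j W) (strippedWeight p i j x) (strippedWeight p j i y)
      (strippedEdges p i j E) := by
  refine ⟨?_, fun n hn => pos_of_mem_stripped h.posV hn, fun n hn => pos_of_mem_stripped h.posW hn,
    fun n => ?_, fun n => ?_, ?_, ?_⟩
  · intro e he
    obtain ⟨d, hd, rfl⟩ := mem_image.1 he
    obtain ⟨hd1, h1, h2⟩ := mem_filter.1 hd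
    obtain ⟨a, b⟩ := mem_product.1 (h.subset hd1)
    exact mem_product.2 ⟨mem_image_of_mem (fun v => v / p ^ i) (mem_filter.2 ⟨a, h1⟩),
      mem_image_of_mem (fun v => v / p ^ j) (mem_filter.2 ⟨b, h2⟩)⟩
  · exact mul_nonneg (h.nonnegX _) (by have := totient_pow_pos hp i; positivity)
  · exact mul_nonneg (h.nonnegY _) (by have := totient_pow_pos hp j; positivity)
  all_goals
    intro e he
    obtain ⟨hd1, h1, h2⟩ := mem_filter.1 (mem_strippedEdges he)
    obtain ⟨a, b⟩ := mem_product.1 (h.subset hd1)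
    obtain ⟨d, hd, hde⟩ := mem_image.1 he
    have hu : ¬ p ∣ e.1 := by
      have hd' := (mem_filter.1 hd)
      rw [← hde]
      have := Nat.not_dvd_ordCompl hp (h.posV _ (mem_product.1 (h.subset hd'.1)).1).ne'
      rwa [hd'.2.1] at this
    have ht : ¬ p ∣ e.2 := by
      have hd' := (mem_filter.1 hd)
      rw [← hde]
      have := Nat.not_dvd_ordCompl hp (h.posW _ (mem_product.1 (h.subset hd'.1)).2).ne'
      rwa [hd'.2.2] at this
  · have hcap := h.capX _ hd1
    simp only [lcm_pow_mul hp hu ht, totient_pow_mul hp hu] at hcap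
    have hpos := totient_pow_pos hp i
    push_cast at hcap ⊢
    simp only [strippedWeight]
    rw [mul_assoc, div_mul_eq_mul_div, mul_div_assoc', div_le_iff₀ hpos]
    linarith
  · have hcap := h.capY _ hd1
    simp only [lcm_pow_mul hp hu ht, totient_pow_mul hp ht] at hcap
    have hpos := totient_pow_pos hp j
    push_cast at hcap ⊢
    simp only [strippedWeight, max_comm j i]
    rw [mul_assoc, div_mul_eq_mul_div, mul_div_assoc', div_le_iff₀ hpos]
    linarith

lemma size_stripped_lt (h : Adm V W x y E) (hp : p.Prime) (i j : ℕ)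
    (hdvd : ∃ v ∈ V ∪ W, p ∣ v) : size (stripped p i V) (stripped p j W) < size V W := by
  have key : ∀ (i : ℕ) (U : Finset ℕ), (∀ v ∈ U, 0 < v) →
      ∑ n ∈ stripped p i U, n ≤ ∑ v ∈ U, v ∧
      ((∃ v ∈ U, p ∣ v) → ∑ n ∈ stripped p i U, n < ∑ v ∈ U, v) := by
    intro i U hU
    have e : ∑ n ∈ stripped p i U, n = ∑ v ∈ atLevel p i U, v / p ^ i := by
      rw [stripped, sum_image injOn_div_pow]
    rw [e, atLevel, sum_filter]
    have hle : ∀ v ∈ U, (if v.factorization p = i then v / p ^ i else 0) ≤ v := by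
      intro v _
      split_ifs
      · exact Nat.div_le_self _ _
      · exact Nat.zero_le _
    refine ⟨sum_le_sum hle, ?_⟩
    rintro ⟨v, hv, hpv⟩
    refine sum_lt_sum hle ⟨v, hv, ?_⟩
    split_ifs with hi
    · refine Nat.div_lt_self (hU v hv) (Nat.one_lt_pow ?_ hp.one_lt)
      rw [← hi]
      exact (hp.factorization_pos_of_dvd (hU v hv).ne' hpv).ne'
    · exact hU v hv
  obtain ⟨v, hv, hpv⟩ := hdvd
  obtain ⟨a1, a2⟩ := key i V h.posV
  obtain ⟨b1, b2⟩ := key j W h.posW
  rcases mem_union.1 hv with hv | hv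
  · exact Nat.add_lt_add_of_lt_of_le (a2 ⟨v, hv, hpv⟩) b1
  · exact Nat.add_lt_add_of_le_of_lt a1 (b2 ⟨v, hv, hpv⟩)

/-- A bound for a stripped configuration gives one for the edges at `(i, j)`. -/
lemma edgesAt_le (h : Adm V W x y E) (hp : p.Prime) {b K : ℝ} (hb : b ≤ 1) (hK : 0 ≤ K)
    (hF : edgeSum (strippedWeight p i j x) (strippedWeight p j i y) (strippedEdges p i j E)
      ≤ K * ((∑ n ∈ stripped p i V, strippedWeight p i j x n) *
          (∑ n ∈ stripped p j W, strippedWeight p j i y n)) ^ b) :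
    edgeSum x y (edgesAt p i j E)
      ≤ K * ((p : ℝ) ^ (-(((j : ℤ) - i).natAbs : ℝ))) ^ (1 - b) *
          ((∑ v ∈ atLevel p i V, x v) * (∑ w ∈ atLevel p j W, y w)) ^ b := by
  set ci : ℝ := (p : ℝ) ^ max i j / Nat.totient (p ^ i) with hci
  set cj : ℝ := (p : ℝ) ^ max j i / Nat.totient (p ^ j) with hcj
  have hp0 : (0 : ℝ) < p := by exact_mod_cast hp.pos
  have hti := totient_pow_pos hp i
  have htj := totient_pow_pos hp j
  have hci0 : 0 < ci := by positivity
  have hcj0 : 0 < cj := by positivity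
  have e1 : ∑ n ∈ stripped p i V, strippedWeight p i j x n = ci * ∑ v ∈ atLevel p i V, x v := by
    rw [mul_sum, ← sum_stripped (f := fun v => ci * x v)]
    exact sum_congr rfl fun n _ => mul_comm _ _
  have e2 : ∑ n ∈ stripped p j W, strippedWeight p j i y n = cj * ∑ w ∈ atLevel p j W, y w := by
    rw [mul_sum, ← sum_stripped (f := fun v => cj * y v)]
    exact sum_congr rfl fun n _ => mul_comm _ _
  have e3 : edgeSum (strippedWeight p i j x) (strippedWeight p j i y) (strippedEdges p i j E)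
      = ci * cj * edgeSum x y (edgesAt p i j E) := by
    rw [edgeSum, edgeSum, strippedEdges, sum_image, mul_sum]
    · refine sum_congr rfl fun e he => ?_
      obtain ⟨-, h1, h2⟩ := mem_filter.1 he
      simp only [strippedWeight, pow_mul_div_of_factorization h1, pow_mul_div_of_factorization h2]
      ring
    · intro a ha c hc hac
      simp only [Prod.mk.injEq] at hac
      obtain ⟨-, a1, a2⟩ := mem_filter.1 ha
      obtain ⟨-, c1, c2⟩ := mem_filter.1 hc
      refine Prod.ext ?_ ?_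
      · rw [← pow_mul_div_of_factorization a1, hac.1, pow_mul_div_of_factorization c1]
      · rw [← pow_mul_div_of_factorization a2, hac.2, pow_mul_div_of_factorization c2]
  set X := ∑ v ∈ atLevel p i V, x v
  set Y := ∑ w ∈ atLevel p j W, y w
  have hX : 0 ≤ X := sum_nonneg fun v _ => h.nonnegX v
  have hY : 0 ≤ Y := sum_nonneg fun v _ => h.nonnegY v
  rw [e1, e2, e3, mul_mul_mul_comm, Real.mul_rpow (by positivity) (by positivity)] at hF
  set κ : ℝ := (ci * cj)⁻¹ with hκ
  have hκ0 : 0 < κ := by positivity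
  have hκle : κ ≤ (p : ℝ) ^ (-(((j : ℤ) - i).natAbs : ℝ)) := by
    have h1 : (Nat.totient (p ^ i) : ℝ) * Nat.totient (p ^ j) ≤ (p : ℝ) ^ i * (p : ℝ) ^ j := by
      gcongr <;> exact_mod_cast Nat.totient_le _
    have h2 : max i j + max j i = i + j + ((j : ℤ) - i).natAbs := by omega
    rw [Real.rpow_neg hp0.le, Real.rpow_natCast, hκ, hci, hcj, div_mul_div_comm, inv_div,
      ← pow_add, h2, pow_add, pow_add, div_le_iff₀ (by positivity),
      mul_comm ((p : ℝ) ^ i * (p : ℝ) ^ j) ((p : ℝ) ^ ((j : ℤ) - i).natAbs),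
      inv_mul_cancel_left₀ (by positivity)]
    exact h1
  have hF' : edgeSum x y (edgesAt p i j E) ≤ K * κ ^ (1 - b) * (X * Y) ^ b := by
    have h3 : κ * (ci * cj) = 1 := inv_mul_cancel₀ (by positivity)
    have h4 : κ * (ci * cj) ^ b = κ ^ (1 - b) := by
      have : ci * cj = κ⁻¹ := by rw [hκ, inv_inv]
      rw [this, Real.inv_rpow hκ0.le, ← Real.rpow_neg hκ0.le, sub_eq_add_neg,
        Real.rpow_add hκ0, Real.rpow_one]
    calc edgeSum x y (edgesAt p i j E)
        = κ * (ci * cj * edgeSum x y (edgesAt p i j E)) := by rw [← mul_assoc, h3, one_mul]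
      _ ≤ κ * (K * ((ci * cj) ^ b * (X * Y) ^ b)) := mul_le_mul_of_nonneg_left hF hκ0.le
      _ = K * (κ * (ci * cj) ^ b) * (X * Y) ^ b := by ring
      _ = _ := by rw [h4]
  refine hF'.trans (mul_le_mul_of_nonneg_right (mul_le_mul_of_nonneg_left
    (Real.rpow_le_rpow hκ0.le hκle (by linarith)) hK) (Real.rpow_nonneg (by positivity) b))

/-- Recombining the valuations. -/
lemma edgeSum_le_diag (h : Adm V W x y E) (p : ℕ) {b : ℝ} (G : ℤ → ℝ) (hG : ∀ d, 0 ≤ G d)
    (N : ℕ) (hV : ∀ v ∈ V, v.factorization p < N) (hW : ∀ w ∈ W, w.factorization p < N)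
    (hX : 0 < ∑ v ∈ V, x v) (hY : 0 < ∑ w ∈ W, y w)
    (hq : ∀ i j, i < N → j < N → edgeSum x y (edgesAt p i j E)
      ≤ G ((j : ℤ) - i) * ((∑ v ∈ atLevel p i V, x v) * (∑ w ∈ atLevel p j W, y w)) ^ b) :
    edgeSum x y E ≤ ((∑ v ∈ V, x v) * (∑ w ∈ W, y w)) ^ b *
      ∑ d ∈ Finset.Icc (-(N : ℤ)) N, G d * diagSum b (range N)
        (fun i => (∑ v ∈ atLevel p i V, x v) / ∑ v ∈ V, x v)
        (fun j => (∑ w ∈ atLevel p j W, y w) / ∑ w ∈ W, y w) d := by
  set X := ∑ v ∈ V, x v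
  set Y := ∑ w ∈ W, y w
  set Xi := fun i => ∑ v ∈ atLevel p i V, x v with hXi
  set Yj := fun j => ∑ w ∈ atLevel p j W, y w with hYj
  have hXi0 : ∀ i, 0 ≤ Xi i := fun i => sum_nonneg fun v _ => h.nonnegX v
  have hYj0 : ∀ j, 0 ≤ Yj j := fun j => sum_nonneg fun v _ => h.nonnegY v
  have hmaps : (E : Set (ℕ × ℕ)).MapsTo (fun e => (e.1.factorization p, e.2.factorization p))
      ((range N ×ˢ range N : Finset (ℕ × ℕ)) : Set (ℕ × ℕ)) := by
    intro e he
    obtain ⟨a, c⟩ := mem_product.1 (h.subset he)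
    exact mem_product.2 ⟨mem_range.2 (hV _ a), mem_range.2 (hW _ c)⟩
  calc edgeSum x y E
      = ∑ q ∈ range N ×ˢ range N, edgeSum x y (edgesAt p q.1 q.2 E) := by
        rw [edgeSum, ← sum_fiberwise_of_maps_to hmaps]
        refine sum_congr rfl fun q _ => sum_congr ?_ fun _ _ => rfl
        ext e
        simp [edgesAt, Prod.ext_iff]
    _ ≤ ∑ q ∈ range N ×ˢ range N,
          (X * Y) ^ b * (G ((q.2 : ℤ) - q.1) * ((Xi q.1 / X) * (Yj q.2 / Y)) ^ b) := by
        refine sum_le_sum fun q hq' => ?_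
        obtain ⟨a, c⟩ := mem_product.1 hq'
        refine (hq _ _ (mem_range.1 a) (mem_range.1 c)).trans (le_of_eq ?_)
        rw [mul_left_comm, ← Real.mul_rpow (mul_nonneg hX.le hY.le)
          (mul_nonneg (div_nonneg (hXi0 _) hX.le) (div_nonneg (hYj0 _) hY.le))]
        congr 2
        simp only [hXi, hYj]
        field_simp
    _ = _ := by
        rw [← mul_sum]
        congr 1
        rw [← sum_fiberwise_of_maps_to (g := fun q : ℕ × ℕ => (q.2 : ℤ) - q.1)
          (t := Finset.Icc (-(N : ℤ)) N)]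
        · refine sum_congr rfl fun d _ => ?_
          rw [diagSum, mul_sum]
          refine sum_congr rfl fun q hq' => ?_
          rw [(mem_filter.1 hq').2]
        · intro q hq'
          obtain ⟨a, c⟩ := mem_product.1 hq'
          have := mem_range.1 a
          have := mem_range.1 c
          simp only [mem_coe, Finset.mem_Icc]
          omega

lemma sum_atLevel (V : Finset ℕ) (x : ℕ → ℝ) (p N : ℕ) (hV : ∀ v ∈ V, v.factorization p < N) :
    ∑ i ∈ range N, ∑ v ∈ atLevel p i V, x v = ∑ v ∈ V, x v :=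
  sum_fiberwise_of_maps_to (g := fun v : ℕ => v.factorization p)
    (fun v hv => mem_range.2 (hV v hv)) x

lemma factorization_lt_of_mem {v : ℕ} (hv : v ∈ V ∪ W) (hV : ∀ u ∈ V ∪ W, 0 < u) (p : ℕ) :
    v.factorization p < size V W + 1 := by
  have h1 : v.factorization p < v := Nat.factorization_lt p (hV v hv).ne'
  have h2 : v ≤ size V W := by
    unfold size
    rcases mem_union.1 hv with h | h
    · exact (single_le_sum (f := fun u : ℕ => u) (fun _ _ => Nat.zero_le _) h).trans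
        (Nat.le_add_right _ _)
    · exact (single_le_sum (f := fun u : ℕ => u) (fun _ _ => Nat.zero_le _) h).trans
        (Nat.le_add_left _ _)
  omega

/-- A geometric bound for sums over nonzero shifts. -/
lemma sum_shift_pow_le {ρ : ℝ} (h0 : 0 ≤ ρ) (h1 : ρ < 1) (N : ℕ) :
    ∑ d ∈ (Finset.Icc (-(N : ℤ)) N).erase 0, ρ ^ d.natAbs ≤ 2 * ρ / (1 - ρ) := by
  have hsub : (Finset.Icc (-(N : ℤ)) N).erase 0
      ⊆ (Finset.Ico 1 (N + 1)).image (fun k : ℕ => (k : ℤ)) ∪
        (Finset.Ico 1 (N + 1)).image (fun k : ℕ => -(k : ℤ)) := by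
    intro d hd
    rw [mem_erase, Finset.mem_Icc] at hd
    rcases le_or_gt 0 d with h | h
    · exact mem_union_left _ (mem_image.2 ⟨d.toNat, Finset.mem_Ico.2 (by omega), by omega⟩)
    · exact mem_union_right _ (mem_image.2 ⟨(-d).toNat, Finset.mem_Ico.2 (by omega), by omega⟩)
  refine (sum_le_sum_of_subset_of_nonneg hsub fun d _ _ => pow_nonneg h0 _).trans ?_
  refine le_trans (le_of_le_of_eq (le_add_of_nonneg_right
    (sum_nonneg fun d _ => pow_nonneg h0 _)) sum_union_inter) ?_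
  rw [sum_image (fun a _ c _ hac => by simpa using hac),
    sum_image (fun a _ c _ hac => by simpa using hac)]
  simp only [Int.natAbs_neg, Int.natAbs_natCast]
  have := geom_sum_Ico_le_of_lt_one (m := 1) (n := N + 1) h0 h1
  rw [pow_one] at this
  calc _ ≤ ρ / (1 - ρ) + ρ / (1 - ρ) := add_le_add this this
    _ = _ := by ring

lemma rpow_neg_natAbs_rpow {p : ℕ} (a : ℝ) (d : ℤ) :
    ((p : ℝ) ^ (-(d.natAbs : ℝ))) ^ a = ((p : ℝ) ^ (-a)) ^ d.natAbs := by
  rw [← Real.rpow_mul p.cast_nonneg, ← Real.rpow_natCast ((p : ℝ) ^ (-a)),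
    ← Real.rpow_mul p.cast_nonneg]
  ring_nf

end Vale.Agent.P028.ExtraLog
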