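import Mathlib
import Vale.Agent.P028.ExtraLog.Children

/-!
# The weighted gcd-sum theorem

For `b ∈ (1/2, 1)` there is `K` with `∑_E x v * y w ≤ K (X Y) ^ b` for every admissible
configuration.  (An inequality of Koukoulopoulos–Maynard and Green–Walker type, with a short proof.)
-/

namespace Vale.Agent.P028.ExtraLog

open Finset

/-- The bound for configurations whose primes are all at least `k`. -/
def Bound (b : ℝ) (k : ℕ) (K : ℝ) : Prop :=
  ∀ (V W : Finset ℕ) (x y : ℕ → ℝ) (E : Finset (ℕ × ℕ)), Adm V W x y E →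
    (∀ v ∈ V ∪ W, ∀ p : ℕ, p.Prime → p ∣ v → k ≤ p) →
    edgeSum x y E ≤ K * ((∑ v ∈ V, x v) * (∑ w ∈ W, y w)) ^ b

lemma totient_mul_le (m n : ℕ) : Nat.totient (m * n) ≤ Nat.totient m * n := by
  have key : ∀ n : ℕ, ((range (m * n)).filter (Nat.Coprime m)).card = Nat.totient m * n := by
    intro n
    induction n with
    | zero => simp
    | succ n ih =>
      rw [Nat.mul_succ, Nat.mul_succ, range_eq_Ico,
        ← Ico_union_Ico_eq_Ico (Nat.zero_le (m * n)) (Nat.le_add_right _ m), filter_union,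
        card_union_of_disjoint (disjoint_filter_filter (Ico_disjoint_Ico_consecutive _ _ _)),
        ← range_eq_Ico, ih, Nat.filter_coprime_Ico_eq_totient]
  rw [← key n, Nat.totient_eq_card_coprime]
  exact card_le_card fun a ha => by
    simp only [mem_filter] at ha ⊢
    exact ⟨ha.1, Nat.Coprime.coprime_dvd_left (dvd_mul_right m n) ha.2⟩

/-- `∏_{p ∈ P} p ^ (v_p - k_p)`. -/
def upPart (P : Finset ℕ) (k : ℕ → ℕ) (v : ℕ) : ℕ := ∏ p ∈ P, p ^ (v.factorization p - k p)

/-- `∏_{p ∈ P} p ^ (k_p - v_p)`. -/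
def downPart (P : Finset ℕ) (k : ℕ → ℕ) (v : ℕ) : ℕ := ∏ p ∈ P, p ^ (k p - v.factorization p)

/-- The centre `∏_{p ∈ P} p ^ k_p`. -/
def centre (P : Finset ℕ) (k : ℕ → ℕ) : ℕ := ∏ p ∈ P, p ^ k p

variable {P : Finset ℕ} {k : ℕ → ℕ}

lemma prod_pow_eq {n : ℕ} (hn : n ≠ 0) (hP : n.primeFactors ⊆ P) :
    ∏ p ∈ P, p ^ n.factorization p = n := by
  conv_rhs => rw [← Nat.prod_factorization_pow_eq_self hn]
  rw [Finsupp.prod, Nat.support_factorization]
  exact (prod_subset hP fun p _ hp => by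
    rw [← Nat.support_factorization, Finsupp.notMem_support_iff] at hp
    rw [hp, pow_zero]).symm

lemma mul_downPart {v : ℕ} (hv : v ≠ 0) (hP : v.primeFactors ⊆ P) :
    v * downPart P k v = centre P k * upPart P k v := by
  conv_lhs => arg 1; rw [← prod_pow_eq hv hP]
  rw [downPart, centre, upPart, ← prod_mul_distrib, ← prod_mul_distrib]
  refine prod_congr rfl fun p _ => ?_
  rw [← pow_add, ← pow_add]
  congr 1
  omega

lemma downPart_dvd (v : ℕ) : downPart P k v ∣ centre P k :=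
  prod_dvd_prod_of_dvd _ _ fun p _ => pow_dvd_pow p (Nat.sub_le _ _)

lemma lcm_eq_centre_mul {v w : ℕ} (hv : v ≠ 0) (hw : w ≠ 0) (hPv : v.primeFactors ⊆ P)
    (hPw : w.primeFactors ⊆ P) (h : ∀ p ∈ P, v.factorization p = k p ∨ w.factorization p = k p) :
    Nat.lcm v w = centre P k * upPart P k v * upPart P k w := by
  have hl : (Nat.lcm v w).primeFactors ⊆ P := by
    intro p hp
    rw [← Nat.support_factorization, Finsupp.mem_support_iff, Nat.factorization_lcm hv hw,
      Finsupp.sup_apply] at hp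
    by_cases h1 : v.factorization p = 0
    · rw [h1] at hp
      refine hPw ?_
      rw [← Nat.support_factorization, Finsupp.mem_support_iff]
      simpa using hp
    · refine hPv ?_
      rwa [← Nat.support_factorization, Finsupp.mem_support_iff]
  conv_lhs => rw [← prod_pow_eq (Nat.lcm_ne_zero hv hw) hl]
  rw [centre, upPart, upPart, ← prod_mul_distrib, ← prod_mul_distrib]
  refine prod_congr rfl fun p hp => ?_
  rw [← pow_add, ← pow_add, Nat.factorization_lcm hv hw, Finsupp.sup_apply]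
  congr 1
  rcases h p hp with h | h <;> omega

/-- The one-sided estimate around a centre. -/
lemma schur_le {V W : Finset ℕ} {x y : ℕ → ℝ} {E : Finset (ℕ × ℕ)} (h : Adm V W x y E)
    (hP : ∀ p ∈ P, 0 < p) (hPV : ∀ v ∈ V ∪ W, v.primeFactors ⊆ P)
    (hE : ∀ e ∈ E, ∀ p ∈ P, e.1.factorization p = k p ∨ e.2.factorization p = k p)
    {lam : ℝ} (hlam : 0 < lam)
    (hle : ∀ e ∈ E, (upPart P k e.2 : ℝ) ≤ lam * upPart P k e.1) :
    edgeSum x y E ≤ lam * ∑ v ∈ V, x v := by
  classical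
  set N := centre P k with hN
  have hN0 : 0 < N := prod_pos fun p hp => pow_pos (hP p hp) _
  have hup0 : ∀ v, 0 < upPart P k v := fun v => prod_pos fun p hp => pow_pos (hP p hp) _
  have hdn0 : ∀ v, 0 < downPart P k v := fun v => prod_pos fun p hp => pow_pos (hP p hp) _
  have hNR : (0 : ℝ) < N := by exact_mod_cast hN0
  rw [edgeSum, mul_sum]
  refine le_trans (le_of_eq (sum_fiberwise_of_maps_to (g := fun e : ℕ × ℕ => e.1)
    (fun e he => (mem_product.1 (h.subset he)).1) fun e => x e.1 * y e.2).symm) ?_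
  refine sum_le_sum fun v hv => ?_
  set T := E.filter (fun e => e.1 = v) with hT
  set a := upPart P k v with ha
  have haR : (0 : ℝ) < a := by exact_mod_cast hup0 v
  have hy : ∀ e ∈ T, y e.2 ≤ (Nat.totient (N / downPart P k e.2) : ℝ) / ((N : ℝ) * a) := by
    intro e he
    obtain ⟨heE, he1⟩ := mem_filter.1 he
    obtain ⟨hv', hw'⟩ := mem_product.1 (h.subset heE)
    have hw0 := (h.posW _ hw').ne'
    have hcap := h.capY e heE
    rw [lcm_eq_centre_mul (h.posV _ hv').ne' hw0 (hPV _ (mem_union_left _ hv'))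
      (hPV _ (mem_union_right _ hw')) (hE e heE), he1] at hcap
    have hweq : (N / downPart P k e.2) * upPart P k e.2 = e.2 := by
      have h1 := mul_downPart (k := k) hw0 (hPV _ (mem_union_right _ hw'))
      rw [← hN] at h1
      refine Nat.eq_of_mul_eq_mul_right (hdn0 e.2) ?_
      rw [mul_right_comm, Nat.div_mul_cancel (hN ▸ downPart_dvd _), h1]
    have h2 := totient_mul_le (N / downPart P k e.2) (upPart P k e.2)
    rw [hweq] at h2
    have h2' : (Nat.totient e.2 : ℝ) ≤ Nat.totient (N / downPart P k e.2) * upPart P k e.2 := by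
      exact_mod_cast h2
    have hcR : (0 : ℝ) < upPart P k e.2 := by exact_mod_cast hup0 e.2
    push_cast at hcap
    rw [le_div_iff₀ (by positivity)]
    refine le_of_mul_le_mul_right ?_ hcR
    calc y e.2 * ((N : ℝ) * a) * upPart P k e.2
        = y e.2 * ((N : ℝ) * a * upPart P k e.2) := by ring
      _ ≤ _ := hcap.trans h2'
  have hinj : Set.InjOn (fun e : ℕ × ℕ => (upPart P k e.2, downPart P k e.2)) T := by
    intro e he e' he' hee
    simp only [Prod.mk.injEq] at hee
    obtain ⟨heE, he1⟩ := mem_filter.1 he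
    obtain ⟨heE', he1'⟩ := mem_filter.1 he'
    have m1 := (mem_product.1 (h.subset heE)).2
    have m2 := (mem_product.1 (h.subset heE')).2
    have h1 := mul_downPart (k := k) (h.posW _ m1).ne' (hPV _ (mem_union_right _ m1))
    have h2 := mul_downPart (k := k) (h.posW _ m2).ne' (hPV _ (mem_union_right _ m2))
    rw [hee.2, hee.1, ← h2] at h1
    exact Prod.ext (he1.trans he1'.symm) (Nat.eq_of_mul_eq_mul_right (hdn0 _) h1)
  set C := Finset.Icc 1 ⌊lam * a⌋₊ with hC
  calc ∑ e ∈ T, x e.1 * y e.2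
      ≤ ∑ e ∈ T, x v * ((Nat.totient (N / downPart P k e.2) : ℝ) / ((N : ℝ) * a)) := by
        refine sum_le_sum fun e he => ?_
        rw [(mem_filter.1 he).2]
        exact mul_le_mul_of_nonneg_left (hy e he) (h.nonnegX v)
    _ = ∑ q ∈ T.image (fun e : ℕ × ℕ => (upPart P k e.2, downPart P k e.2)),
          x v * ((Nat.totient (N / q.2) : ℝ) / ((N : ℝ) * a)) :=
        (sum_image (f := fun q : ℕ × ℕ => x v * ((Nat.totient (N / q.2) : ℝ) / ((N : ℝ) * a)))
          hinj).symm
    _ ≤ ∑ q ∈ C ×ˢ N.divisors, x v * ((Nat.totient (N / q.2) : ℝ) / ((N : ℝ) * a)) := by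
        refine sum_le_sum_of_subset_of_nonneg ?_ fun q _ _ =>
          mul_nonneg (h.nonnegX v) (by positivity)
        intro q hq
        obtain ⟨e, he, rfl⟩ := mem_image.1 hq
        obtain ⟨heE, he1⟩ := mem_filter.1 he
        refine mem_product.2 ⟨mem_Icc.2 ⟨hup0 _, Nat.le_floor ?_⟩,
          Nat.mem_divisors.2 ⟨hN ▸ downPart_dvd _, hN0.ne'⟩⟩
        have := hle e heE
        rwa [he1] at this
    _ = (C.card : ℝ) * (x v * ((∑ d ∈ N.divisors, (Nat.totient (N / d) : ℝ)) / ((N : ℝ) * a))) := by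
        rw [sum_product]
        dsimp only
        rw [sum_const, nsmul_eq_mul, sum_div, ← mul_sum]
    _ = (C.card : ℝ) * (x v / a) := by
        rw [Nat.sum_div_divisors N (fun d => (Nat.totient d : ℝ)), ← Nat.cast_sum, Nat.sum_totient]
        field_simp
    _ ≤ (lam * a) * (x v / a) := by
        refine mul_le_mul_of_nonneg_right ?_ (div_nonneg (h.nonnegX v) haR.le)
        rw [hC, Nat.card_Icc, Nat.add_sub_cancel]
        exact Nat.floor_le (by positivity)
    _ = lam * x v := by field_simp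

lemma Adm.mono {V W : Finset ℕ} {x y : ℕ → ℝ} {E E' : Finset (ℕ × ℕ)} (h : Adm V W x y E)
    (hE : E' ⊆ E) : Adm V W x y E' :=
  ⟨hE.trans h.subset, h.posV, h.posW, h.nonnegX, h.nonnegY, fun e he => h.capX e (hE he),
    fun e he => h.capY e (hE he)⟩

lemma Adm.swap {V W : Finset ℕ} {x y : ℕ → ℝ} {E : Finset (ℕ × ℕ)} (h : Adm V W x y E) :
    Adm W V y x (E.image Prod.swap) := by
  refine ⟨?_, h.posW, h.posV, h.nonnegY, h.nonnegX, ?_, ?_⟩
  · intro e he
    obtain ⟨d, hd, rfl⟩ := mem_image.1 he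
    obtain ⟨a, c⟩ := mem_product.1 (h.subset hd)
    exact mem_product.2 ⟨c, a⟩
  all_goals
    intro e he
    obtain ⟨d, hd, rfl⟩ := mem_image.1 he
    rw [Prod.fst_swap, Prod.snd_swap, Nat.lcm_comm]
  · exact h.capY d hd
  · exact h.capX d hd

lemma edgeSum_swap (x y : ℕ → ℝ) (E : Finset (ℕ × ℕ)) :
    edgeSum y x (E.image Prod.swap) = edgeSum x y E := by
  rw [edgeSum, edgeSum, sum_image (fun a _ c _ hac => Prod.swap_injective hac)]
  exact sum_congr rfl fun e _ => mul_comm _ _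

lemma edgeSum_nonneg {x y : ℕ → ℝ} (hx : ∀ v, 0 ≤ x v) (hy : ∀ v, 0 ≤ y v)
    (E : Finset (ℕ × ℕ)) : 0 ≤ edgeSum x y E :=
  sum_nonneg fun _ _ => mul_nonneg (hx _) (hy _)

lemma edgeSum_le_mul {V W : Finset ℕ} {x y : ℕ → ℝ} {E : Finset (ℕ × ℕ)} (h : Adm V W x y E) :
    edgeSum x y E ≤ (∑ v ∈ V, x v) * (∑ w ∈ W, y w) := by
  rw [sum_mul_sum, ← sum_product' V W fun v w => x v * y w]
  exact sum_le_sum_of_subset_of_nonneg h.subset fun e _ _ =>
    mul_nonneg (h.nonnegX _) (h.nonnegY _)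

/-- The bound when no prime is deviant on both sides. -/
lemma centred_le {V W : Finset ℕ} {x y : ℕ → ℝ} {E : Finset (ℕ × ℕ)} (h : Adm V W x y E)
    (hP : ∀ p ∈ P, 0 < p) (hPV : ∀ v ∈ V ∪ W, v.primeFactors ⊆ P)
    (hE : ∀ e ∈ E, ∀ p ∈ P, e.1.factorization p = k p ∨ e.2.factorization p = k p)
    {b : ℝ} (hb : 1 / 2 ≤ b) (hb1 : b ≤ 1)
    (hX : 0 < ∑ v ∈ V, x v) (hY : 0 < ∑ w ∈ W, y w) :
    edgeSum x y E ≤ 2 * ((∑ v ∈ V, x v) * (∑ w ∈ W, y w)) ^ b := by
  classical
  set X := ∑ v ∈ V, x v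
  set Y := ∑ w ∈ W, y w
  have hXY : 0 < X * Y := mul_pos hX hY
  rcases le_total (X * Y) 1 with h1 | h1
  · calc edgeSum x y E ≤ X * Y := edgeSum_le_mul h
      _ = (X * Y) ^ (1 : ℝ) := (Real.rpow_one _).symm
      _ ≤ (X * Y) ^ b := Real.rpow_le_rpow_of_exponent_ge hXY h1 hb1
      _ ≤ 2 * (X * Y) ^ b := by linarith [Real.rpow_nonneg hXY.le b]
  · set lam := Real.sqrt (Y / X) with hlam
    have hl : 0 < lam := Real.sqrt_pos.2 (div_pos hY hX)
    set q : ℕ × ℕ → Prop := fun e => (upPart P k e.2 : ℝ) ≤ lam * upPart P k e.1 with hq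
    have e0 : edgeSum x y (E.filter q) + edgeSum x y (E.filter fun e => ¬ q e) = edgeSum x y E :=
      sum_filter_add_sum_filter_not E q fun e => x e.1 * y e.2
    have a1 := schur_le (h.mono (filter_subset q E)) hP hPV
      (fun e he => hE e (mem_filter.1 he).1) hl fun e he => (mem_filter.1 he).2
    have a2 := schur_le (h.mono (filter_subset (fun e => ¬ q e) E)).swap hP
      (fun v hv => hPV v (by rwa [union_comm] at hv))
      (fun e he p hp => by
        obtain ⟨d, hd, rfl⟩ := mem_image.1 he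
        exact (hE d (mem_filter.1 hd).1 p hp).symm) (inv_pos.2 hl)
      (fun e he => by
        obtain ⟨d, hd, rfl⟩ := mem_image.1 he
        have := (mem_filter.1 hd).2
        simp only [hq, not_le] at this
        rw [Prod.fst_swap, Prod.snd_swap, ← div_eq_inv_mul, le_div_iff₀ hl]
        linarith)
    rw [edgeSum_swap] at a2
    have s1 : lam * X = Real.sqrt (X * Y) := by
      rw [hlam, Real.sqrt_div hY.le, Real.sqrt_mul hX.le]
      have := Real.mul_self_sqrt hX.le
      field_simp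
      nlinarith
    have s2 : lam⁻¹ * Y = Real.sqrt (X * Y) := by
      rw [← s1]
      have : lam * lam = Y / X := Real.mul_self_sqrt (div_nonneg hY.le hX.le)
      field_simp
      rw [eq_div_iff hX.ne'] at this
      nlinarith
    have s3 : Real.sqrt (X * Y) ≤ (X * Y) ^ b := by
      rw [Real.sqrt_eq_rpow]
      exact Real.rpow_le_rpow_of_exponent_le h1 hb
    linarith

lemma edgeSum_eq_zero_of {V W : Finset ℕ} {x y : ℕ → ℝ} {E : Finset (ℕ × ℕ)}
    (h : Adm V W x y E) (h0 : ∑ v ∈ V, x v = 0 ∨ ∑ w ∈ W, y w = 0) : edgeSum x y E = 0 := by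
  refine sum_eq_zero fun e he => ?_
  obtain ⟨a, c⟩ := mem_product.1 (h.subset he)
  rcases h0 with h0 | h0
  · rw [(sum_eq_zero_iff_of_nonneg fun v _ => h.nonnegX v).1 h0 _ a, zero_mul]
  · rw [(sum_eq_zero_iff_of_nonneg fun v _ => h.nonnegY v).1 h0 _ c, mul_zero]

lemma Adm.restrict {V W : Finset ℕ} {x y : ℕ → ℝ} {E : Finset (ℕ × ℕ)} (h : Adm V W x y E)
    (q : ℕ → Prop) [DecidablePred q] :
    Adm (V.filter q) (W.filter q) x y (E.filter fun e => q e.1 ∧ q e.2) := by
  refine ⟨?_, fun v hv => h.posV v (mem_filter.1 hv).1, fun v hv => h.posW v (mem_filter.1 hv).1,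
    h.nonnegX, h.nonnegY, fun e he => h.capX e (mem_filter.1 he).1,
    fun e he => h.capY e (mem_filter.1 he).1⟩
  intro e he
  obtain ⟨h1, h2, h3⟩ := mem_filter.1 he
  obtain ⟨a, c⟩ := mem_product.1 (h.subset h1)
  exact mem_product.2 ⟨mem_filter.2 ⟨a, h2⟩, mem_filter.2 ⟨c, h3⟩⟩

/-- The bound for configurations with only large primes. -/
lemma exists_bound_rough (b : ℝ) (hb : 1 / 2 < b) (hb1 : b < 1) :
    ∃ p₀ : ℕ, ∃ K : ℝ, 1 ≤ K ∧ Bound b p₀ K := by
  classical
  set e := 2 * b - 1 with he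
  have he0 : 0 < e := by rw [he]; linarith
  have ha : 0 < 1 - b := by linarith
  set C0 : ℝ := (24 / e) ^ (1 / (1 - b)) with hC0
  have hC00 : 0 < C0 := Real.rpow_pos_of_pos (by positivity) _
  have hsum : Summable fun n : ℕ => (C0 / (n : ℝ)) ^ (2 * b) := by
    refine ((Real.summable_nat_rpow_inv.2 (by linarith : 1 < 2 * b)).mul_left
      (C0 ^ (2 * b))).congr fun n => ?_
    rw [Real.div_rpow hC00.le n.cast_nonneg, div_eq_mul_inv]
  obtain ⟨s, hs⟩ := hsum.vanishing (Metric.ball_mem_nhds (0 : ℝ) (by norm_num : (0 : ℝ) < 1 / 2))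
  obtain ⟨q₀, hq₀⟩ := exists_nat_gt (max (max (2 * C0) 2) (max ((800 / e) ^ (1 / (1 - b)))
    ((2 : ℝ) ^ (1 / (1 - b)))))
  refine ⟨max q₀ (s.sup id + 1), 4, by norm_num, ?_⟩
  set p₀ := max q₀ (s.sup id + 1) with hp₀
  have hlarge : ∀ p : ℕ, p₀ ≤ p → 2 * C0 < p ∧ 2 < (p : ℝ) ∧ (800 / e) ^ (1 / (1 - b)) < p ∧
      (2 : ℝ) ^ (1 / (1 - b)) < p ∧ p ∉ s := by
    intro p hp
    have h1 : (q₀ : ℝ) ≤ p := by exact_mod_cast (le_max_left _ _).trans hp
    have h2 := lt_of_lt_of_le hq₀ h1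
    simp only [max_lt_iff] at h2
    refine ⟨h2.1.1, h2.1.2, h2.2.1, h2.2.2, fun hps => ?_⟩
    have : p ≤ s.sup id := le_sup (f := id) hps
    have := (le_max_right q₀ (s.sup id + 1)).trans hp
    omega
  suffices H : ∀ n : ℕ, ∀ (V W : Finset ℕ) (x y : ℕ → ℝ) (E : Finset (ℕ × ℕ)), size V W = n →
      Adm V W x y E → (∀ v ∈ V ∪ W, ∀ p : ℕ, p.Prime → p ∣ v → p₀ ≤ p) →
      edgeSum x y E ≤ 4 * ((∑ v ∈ V, x v) * (∑ w ∈ W, y w)) ^ b from
    fun V W x y E hA hr => H _ V W x y E rfl hA hr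
  intro n
  induction n using Nat.strong_induction_on with
  | _ n ih =>
  intro V W x y E hn hA hr
  set X := ∑ v ∈ V, x v with hXd
  set Y := ∑ w ∈ W, y w with hYd
  have hX0 : 0 ≤ X := sum_nonneg fun v _ => hA.nonnegX v
  have hY0 : 0 ≤ Y := sum_nonneg fun v _ => hA.nonnegY v
  have hXYb : 0 ≤ (X * Y) ^ b := Real.rpow_nonneg (mul_nonneg hX0 hY0) b
  rcases hX0.eq_or_lt with hX | hX
  · rw [edgeSum_eq_zero_of hA (Or.inl hX.symm)]; positivity
  rcases hY0.eq_or_lt with hY | hY
  · rw [edgeSum_eq_zero_of hA (Or.inr hY.symm)]; positivity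
  have hpos : ∀ u ∈ V ∪ W, 0 < u := fun u hu => by
    rcases mem_union.1 hu with h | h
    · exact hA.posV u h
    · exact hA.posW u h
  set P := (V ∪ W).biUnion Nat.primeFactors with hPdef
  have hPp : ∀ p ∈ P, p.Prime ∧ p₀ ≤ p ∧ ∃ v ∈ V ∪ W, p ∣ v := fun p hp => by
    obtain ⟨v, hv, hpv⟩ := mem_biUnion.1 hp
    exact ⟨Nat.prime_of_mem_primeFactors hpv, hr v hv p (Nat.prime_of_mem_primeFactors hpv)
      (Nat.dvd_of_mem_primeFactors hpv), v, hv, Nat.dvd_of_mem_primeFactors hpv⟩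
  set N := size V W + 1
  have hfl : ∀ p, ∀ v ∈ V ∪ W, v.factorization p < N := fun p v hv =>
    factorization_lt_of_mem hv hpos p
  set ξ := fun p i => (∑ v ∈ atLevel p i V, x v) / X with hξ
  set η := fun p j => (∑ w ∈ atLevel p j W, y w) / Y with hη
  have hξs : ∀ p, ∑ i ∈ range N, ξ p i = 1 := fun p => by
    simp only [hξ]
    rw [← sum_div, sum_atLevel V x p N fun v hv => hfl p v (mem_union_left _ hv), div_self hX.ne']
  have hηs : ∀ p, ∑ i ∈ range N, η p i = 1 := fun p => by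
    simp only [hη]
    rw [← sum_div, sum_atLevel W y p N fun v hv => hfl p v (mem_union_right _ hv), div_self hY.ne']
  have hξ0 : ∀ p i, 0 ≤ ξ p i := fun p i =>
    div_nonneg (sum_nonneg fun v _ => hA.nonnegX v) hX.le
  have hη0 : ∀ p i, 0 ≤ η p i := fun p i =>
    div_nonneg (sum_nonneg fun v _ => hA.nonnegY v) hY.le
  by_cases hex : ∃ p ∈ P, ∑ d ∈ Finset.Icc (-(N : ℤ)) N,
      ((p : ℝ) ^ (-(d.natAbs : ℝ))) ^ (1 - b) * diagSum b (range N) (ξ p) (η p) d ≤ 1
  · obtain ⟨p, hpP, hS⟩ := hex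
    obtain ⟨hp, -, hdvd⟩ := hPp p hpP
    have hmain := edgeSum_le_diag hA p (b := b)
      (fun d => 4 * ((p : ℝ) ^ (-(d.natAbs : ℝ))) ^ (1 - b)) (fun d => by positivity) N
      (fun v hv => hfl p v (mem_union_left _ hv)) (fun v hv => hfl p v (mem_union_right _ hv)) hX hY
      (fun i j _ _ => edgesAt_le hA hp hb1.le (by norm_num)
        (ih _ (hn ▸ size_stripped_lt hA hp i j hdvd) _ _ _ _ _ rfl (adm_stripped hA hp i j)
          (fun v hv l hl hlv => by
            rcases mem_union.1 hv with h | h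
            · exact hr _ (mem_union_left _ (mem_filter.1 (pow_mul_of_mem_stripped h)).1) l hl
                (hlv.mul_left _)
            · exact hr _ (mem_union_right _ (mem_filter.1 (pow_mul_of_mem_stripped h)).1) l hl
                (hlv.mul_left _))))
    refine hmain.trans ?_
    simp only [mul_assoc, ← mul_sum]
    calc (X * Y) ^ b * (4 * _) ≤ (X * Y) ^ b * (4 * 1) :=
          mul_le_mul_of_nonneg_left (mul_le_mul_of_nonneg_left hS (by norm_num)) hXYb
      _ = _ := by ring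
  push Not at hex
  have hk : ∀ p, ∃ k, p ∈ P → k ∈ range N ∧ (1 - ξ p k) + (1 - η p k) ≤ C0 / p := by
    intro p
    by_cases hpP : p ∈ P
    swap
    · exact ⟨0, fun h => absurd h hpP⟩
    obtain ⟨hp, hp0, -⟩ := hPp p hpP
    obtain ⟨-, -, l3, l4, -⟩ := hlarge p hp0
    have hpR : (0 : ℝ) < p := by exact_mod_cast hp.pos
    set ρ : ℝ := (p : ℝ) ^ (-(1 - b)) with hρ
    have hρ0 : 0 ≤ ρ := Real.rpow_nonneg hpR.le _
    have hbig : ∀ c : ℝ, 0 < c → c ^ (1 / (1 - b)) < p → ρ * c ≤ 1 := by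
      intro c hc h
      have h2 := Real.rpow_le_rpow (Real.rpow_nonneg hc.le _) h.le ha.le
      rw [← Real.rpow_mul hc.le, one_div_mul_cancel ha.ne', Real.rpow_one] at h2
      calc ρ * c ≤ ρ * (p : ℝ) ^ (1 - b) := mul_le_mul_of_nonneg_left h2 hρ0
        _ = 1 := by rw [hρ, ← Real.rpow_add hpR, neg_add_cancel, Real.rpow_zero]
    have h2 := hbig 2 two_pos l4
    have h8 := hbig (800 / e) (by positivity) l3
    rcases diagSum_dichotomy hb hb1 (hξ0 p) (hη0 p) (hξs p) (hηs p) (Finset.Icc (-(N : ℤ)) N)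
      (fun d => ρ ^ d.natAbs) (fun d => pow_nonneg hρ0 _) (by simp) (L := 4 * ρ)
      ((sum_shift_pow_le hρ0 (by linarith) N).trans (by
        rw [div_le_iff₀ (by linarith)]; nlinarith))
      (by rw [mul_div_assoc', div_le_iff₀ he0] at h8; rw [← he]; linarith) with h | ⟨k, hk, hk'⟩
    · have h' := hex p hpP
      simp only [rpow_neg_natAbs_rpow] at h'
      exact absurd h (not_le.2 h')
    · refine ⟨k, fun _ => ⟨hk, hk'.trans (le_of_eq ?_)⟩⟩
      rw [← he, show 6 * (4 * ρ) / e = 24 / e * ρ by ring, Real.mul_rpow (by positivity) hρ0, hρ,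
        ← Real.rpow_mul hpR.le, ← hC0, show -(1 - b) * (1 / (1 - b)) = -1 by field_simp,
        Real.rpow_neg_one, div_eq_mul_inv C0]
  choose k hk using hk
  -- pairs with a prime deviant on both sides
  set Dev := fun p (v : ℕ) => ¬ v.factorization p = k p with hDev
  set E2 := E.filter (fun e => ∀ p ∈ P, e.1.factorization p = k p ∨ e.2.factorization p = k p)
  have hsplit : edgeSum x y E ≤ edgeSum x y E2
      + ∑ p ∈ P, edgeSum x y (E.filter fun e => Dev p e.1 ∧ Dev p e.2) := by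
    have hswap : ∑ p ∈ P, edgeSum x y (E.filter fun e => Dev p e.1 ∧ Dev p e.2)
        = ∑ e ∈ E, ∑ p ∈ P, if Dev p e.1 ∧ Dev p e.2 then x e.1 * y e.2 else 0 := by
      rw [sum_comm]
      exact sum_congr rfl fun p _ => sum_filter _ _
    rw [hswap, edgeSum, edgeSum, sum_filter, ← sum_add_distrib]
    refine sum_le_sum fun e _ => ?_
    have h0 : 0 ≤ x e.1 * y e.2 := mul_nonneg (hA.nonnegX _) (hA.nonnegY _)
    have h1 : 0 ≤ ∑ p ∈ P, if Dev p e.1 ∧ Dev p e.2 then x e.1 * y e.2 else 0 :=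
      sum_nonneg fun p _ => by split_ifs <;> positivity
    by_cases h : ∀ p ∈ P, e.1.factorization p = k p ∨ e.2.factorization p = k p
    · rw [if_pos h]; linarith
    · rw [if_neg h, zero_add]
      push Not at h
      obtain ⟨p, hpP, h2, h3⟩ := h
      refine le_trans ?_ (single_le_sum (fun q _ => by split_ifs <;> positivity) hpP)
      rw [if_pos ⟨h2, h3⟩]
  have h2 : edgeSum x y E2 ≤ 2 * (X * Y) ^ b :=
    centred_le (hA.mono (filter_subset _ _)) (fun p hp => (hPp p hp).1.pos)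
      (fun v hv => subset_biUnion_of_mem Nat.primeFactors hv)
      (fun e he => (mem_filter.1 he).2) hb.le hb1.le hX hY
  have h1 : ∀ p ∈ P, edgeSum x y (E.filter fun e => Dev p e.1 ∧ Dev p e.2)
      ≤ 4 * (X * Y) ^ b * (C0 / (p : ℝ)) ^ (2 * b) := by
    intro p hpP
    obtain ⟨hp, hp0, -⟩ := hPp p hpP
    obtain ⟨hkN, hkc⟩ := hk p hpP
    have hC : C0 / (p : ℝ) < 1 := by
      rw [div_lt_one (by exact_mod_cast hp.pos)]; linarith [(hlarge p hp0).1]
    have hu := le_one_of_sum_eq_one (hξ0 p) (hξs p) hkN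
    have hv := le_one_of_sum_eq_one (hη0 p) (hηs p) hkN
    have hXd' : ∑ v ∈ V.filter (Dev p), x v = (1 - ξ p (k p)) * X := by
      have := sum_filter_add_sum_filter_not V (fun v => v.factorization p = k p) x
      rw [sub_mul, one_mul]
      simp only [hξ, div_mul_cancel₀ _ hX.ne', hDev, atLevel]
      linarith
    have hYd' : ∑ w ∈ W.filter (Dev p), y w = (1 - η p (k p)) * Y := by
      have := sum_filter_add_sum_filter_not W (fun v => v.factorization p = k p) y
      rw [sub_mul, one_mul]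
      simp only [hη, div_mul_cancel₀ _ hY.ne', hDev, atLevel]
      linarith
    have hlt : size (V.filter (Dev p)) (W.filter (Dev p)) < size V W := by
      refine Nat.add_lt_add_of_lt_of_le ?_ (sum_le_sum_of_subset (filter_subset _ _))
      have hne : ∃ v ∈ V, ¬ Dev p v := by
        by_contra hcon
        push Not at hcon
        rw [filter_eq_self.2 hcon, ← hXd] at hXd'
        nlinarith
      obtain ⟨v, hv1, hv2⟩ := hne
      exact sum_lt_sum_of_subset (filter_subset _ _) hv1 (by simp [hv1, hv2]) (hA.posV v hv1)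
        fun _ _ _ => Nat.zero_le _
    refine (ih _ (hn ▸ hlt) _ _ _ _ _ rfl (hA.restrict (Dev p)) (fun v hv => hr v (by
      rcases mem_union.1 hv with h | h
      · exact mem_union_left _ (mem_filter.1 h).1
      · exact mem_union_right _ (mem_filter.1 h).1))).trans ?_
    rw [hXd', hYd', mul_mul_mul_comm, Real.mul_rpow (mul_nonneg (by linarith) (by linarith))
      (mul_nonneg hX.le hY.le), mul_comm (((1 - ξ p (k p)) * (1 - η p (k p))) ^ b), ← mul_assoc]
    refine mul_le_mul_of_nonneg_left ?_ (by positivity)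
    calc ((1 - ξ p (k p)) * (1 - η p (k p))) ^ b
        ≤ (C0 / p * (C0 / p)) ^ b := by
          refine Real.rpow_le_rpow (mul_nonneg (by linarith) (by linarith)) ?_ (by linarith)
          exact mul_le_mul (by linarith) (by linarith) (by linarith) (by positivity)
      _ = (C0 / p) ^ (2 * b) := by
          rw [← pow_two, ← Real.rpow_natCast, ← Real.rpow_mul (by positivity)]
          push_cast
          ring_nf
  have h3 : ∑ p ∈ P, (C0 / (p : ℝ)) ^ (2 * b) ≤ 1 / 2 := by
    have hd : Disjoint P s := disjoint_left.2 fun p hp => (hlarge p (hPp p hp).2.1).2.2.2.2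
    have := hs P hd
    rw [Metric.mem_ball, dist_zero_right, Real.norm_eq_abs] at this
    exact (le_abs_self _).trans this.le
  calc edgeSum x y E ≤ _ := hsplit
    _ ≤ 2 * (X * Y) ^ b + ∑ p ∈ P, 4 * (X * Y) ^ b * (C0 / (p : ℝ)) ^ (2 * b) :=
        add_le_add h2 (sum_le_sum h1)
    _ ≤ 2 * (X * Y) ^ b + 4 * (X * Y) ^ b * (1 / 2) := by
        rw [← mul_sum]
        linarith [mul_le_mul_of_nonneg_left h3 (by positivity : 0 ≤ 4 * (X * Y) ^ b)]
    _ = 4 * (X * Y) ^ b := by ring

/-- The weighted gcd-sum theorem. -/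
theorem exists_gcdSum_bound (b : ℝ) (hb : 1 / 2 < b) (hb1 : b < 1) :
    ∃ K : ℝ, 0 ≤ K ∧ ∀ (V W : Finset ℕ) (x y : ℕ → ℝ) (E : Finset (ℕ × ℕ)), Adm V W x y E →
      edgeSum x y E ≤ K * ((∑ v ∈ V, x v) * (∑ w ∈ W, y w)) ^ b := by
  obtain ⟨p₀, K₀, hK₀, hrough⟩ := exists_bound_rough b hb hb1
  set ρ₂ : ℝ := (2 : ℝ) ^ (-(1 - b)) with hρ₂
  have hρ20 : 0 ≤ ρ₂ := Real.rpow_nonneg zero_le_two _
  have hρ21 : ρ₂ < 1 := Real.rpow_lt_one_of_one_lt_of_neg one_lt_two (by linarith)
  set C : ℝ := 1 + 2 * ρ₂ / (1 - ρ₂) with hC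
  have hC1 : 1 ≤ C := le_add_of_nonneg_right (div_nonneg (by positivity) (by linarith))
  have step : ∀ (k : ℕ) (K : ℝ), 0 ≤ K → Bound b (k + 1) K → Bound b k (K * C) := by
    intro k K hK hB V W x y E hA hr
    set X := ∑ v ∈ V, x v
    set Y := ∑ w ∈ W, y w
    have hX0 : 0 ≤ X := sum_nonneg fun v _ => hA.nonnegX v
    have hY0 : 0 ≤ Y := sum_nonneg fun v _ => hA.nonnegY v
    have hXYb : 0 ≤ (X * Y) ^ b := Real.rpow_nonneg (mul_nonneg hX0 hY0) b
    rcases hX0.eq_or_lt with hX | hX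
    · rw [edgeSum_eq_zero_of hA (Or.inl hX.symm)]; positivity
    rcases hY0.eq_or_lt with hY | hY
    · rw [edgeSum_eq_zero_of hA (Or.inr hY.symm)]; positivity
    by_cases hk : k.Prime
    swap
    · refine (hB V W x y E hA fun v hv p hp hpv => ?_).trans
        (mul_le_mul_of_nonneg_right (le_mul_of_one_le_right hK hC1) hXYb)
      have := hr v hv p hp hpv
      have : p ≠ k := fun h => hk (h ▸ hp)
      omega
    have hpos : ∀ u ∈ V ∪ W, 0 < u := fun u hu => by
      rcases mem_union.1 hu with h | h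
      · exact hA.posV u h
      · exact hA.posW u h
    set N := size V W + 1
    have hfl : ∀ v ∈ V ∪ W, v.factorization k < N := fun v hv => factorization_lt_of_mem hv hpos k
    refine (edgeSum_le_diag hA k (b := b) (fun d => K * ((k : ℝ) ^ (-(d.natAbs : ℝ))) ^ (1 - b))
      (fun d => by positivity) N (fun v hv => hfl v (mem_union_left _ hv))
      (fun v hv => hfl v (mem_union_right _ hv)) hX hY
      (fun i j _ _ => edgesAt_le hA hk hb1.le hK (hB _ _ _ _ _ (adm_stripped hA hk i j)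
          (fun v hv l hl hlv => ?_)))).trans ?_
    · have hne : l ≠ k := by
        rintro rfl
        rcases mem_union.1 hv with h | h
        · exact not_dvd_of_mem_stripped hl hA.posV h hlv
        · exact not_dvd_of_mem_stripped hl hA.posW h hlv
      rcases mem_union.1 hv with h | h
      · have := hr _ (mem_union_left _ (mem_filter.1 (pow_mul_of_mem_stripped h)).1) l hl
          (hlv.mul_left _)
        omega
      · have := hr _ (mem_union_right _ (mem_filter.1 (pow_mul_of_mem_stripped h)).1) l hl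
          (hlv.mul_left _)
        omega
    · rw [mul_comm]
      refine mul_le_mul_of_nonneg_right ?_ hXYb
      have hd1 : ∀ d, diagSum b (range N) (fun i => (∑ v ∈ atLevel k i V, x v) / X)
          (fun j => (∑ w ∈ atLevel k j W, y w) / Y) d ≤ 1 := fun d => by
        refine diagSum_le_one hb.le (fun i => div_nonneg (sum_nonneg fun v _ => hA.nonnegX v) hX.le)
          (fun i => div_nonneg (sum_nonneg fun v _ => hA.nonnegY v) hY.le) ?_ ?_ d
        · rw [← sum_div, sum_atLevel V x k N fun v hv => hfl v (mem_union_left _ hv),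
            div_self hX.ne']
        · rw [← sum_div, sum_atLevel W y k N fun v hv => hfl v (mem_union_right _ hv),
            div_self hY.ne']
      refine (sum_le_sum fun d _ => mul_le_of_le_one_right (by positivity) (hd1 d)).trans ?_
      rw [← mul_sum]
      refine mul_le_mul_of_nonneg_left ?_ hK
      simp only [rpow_neg_natAbs_rpow]
      rw [← add_sum_erase (Finset.Icc (-(N : ℤ)) N) _ (show (0 : ℤ) ∈ _ by simp)]
      simp only [Int.natAbs_zero, pow_zero, hC]
      refine (add_le_add_iff_left 1).2 ((sum_le_sum fun d _ => ?_).trans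
        (sum_shift_pow_le hρ20 hρ21 N))
      refine pow_le_pow_left₀ (Real.rpow_nonneg k.cast_nonneg _) ?_ _
      exact Real.rpow_le_rpow_of_nonpos two_pos (by exact_mod_cast hk.two_le) (by linarith)
  have desc : ∀ n : ℕ, n ≤ p₀ → Bound b (p₀ - n) (K₀ * C ^ n) := by
    intro n
    induction n with
    | zero => intro _; simpa using hrough
    | succ n ih =>
      intro hn
      have h := ih (by omega)
      rw [show p₀ - n = p₀ - (n + 1) + 1 by omega] at h
      have := step _ _ (by positivity) h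
      rwa [mul_assoc, ← pow_succ] at this
  refine ⟨K₀ * C ^ p₀, by positivity, fun V W x y E hA => desc p₀ le_rfl V W x y E hA ?_⟩
  intro v _ p _ _
  omega

end Vale.Agent.P028.ExtraLog
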