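import Mathlib
import Vale.Agent.P028.ExtraLog.GcdSum

/-!
# The pattern inequality

The edge sum is bounded through the set of patterns `(v / gcd v w, w / gcd v w)` occurring.
-/

namespace Vale.Agent.P028.ExtraLog

open Finset

/-- The local weight `∏_{p^k ‖ n} C k^4 / p^k`. -/
noncomputable def patWeight (C : ℝ) (n : ℕ) : ℝ :=
  n.factorization.prod fun p k => C * (k : ℝ) ^ 4 / (p : ℝ) ^ k

/-- The total weight of a set of patterns. -/
noncomputable def patSum (C : ℝ) (P : Finset (ℕ × ℕ)) : ℝ :=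
  ∑ q ∈ P, patWeight C q.1 * patWeight C q.2

/-- The pattern of an edge. -/
def pattern (e : ℕ × ℕ) : ℕ × ℕ := (e.1 / Nat.gcd e.1 e.2, e.2 / Nat.gcd e.1 e.2)

lemma patWeight_nonneg {C : ℝ} (hC : 0 ≤ C) (n : ℕ) : 0 ≤ patWeight C n := by
  rw [patWeight, Finsupp.prod]
  exact Finset.prod_nonneg fun p _ => by positivity

lemma patWeight_one (C : ℝ) : patWeight C 1 = 1 := by simp [patWeight]

lemma patWeight_mul (C : ℝ) {m n : ℕ} (h : Nat.Coprime m n) :
    patWeight C (m * n) = patWeight C m * patWeight C n := by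
  rw [patWeight, Nat.factorization_mul_of_coprime h, Finsupp.prod_add_index_of_disjoint]
  · rfl
  · simpa using h.disjoint_primeFactors

lemma patWeight_prime_pow (C : ℝ) {p : ℕ} (hp : p.Prime) {k : ℕ} (hk : k ≠ 0) :
    patWeight C (p ^ k) = C * (k : ℝ) ^ 4 / (p : ℝ) ^ k := by
  rw [patWeight, hp.factorization_pow, Finsupp.prod, Finsupp.support_single _ hk, prod_singleton,
    Finsupp.single_eq_same]

lemma sum_inv_sq_le_two (N : ℕ) : (∑ k ∈ Finset.Icc 1 N, 1 / (k : ℝ) ^ 2 : ℝ) ≤ (2 : ℝ) := by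
  suffices h : ∀ M : ℕ, 1 ≤ M → (∑ k ∈ Finset.Icc 1 M, 1 / (k : ℝ) ^ 2 : ℝ) ≤ 2 - 1 / (M : ℝ) by
    rcases Nat.eq_zero_or_pos N with rfl | hN
    · simp
    · exact (h N hN).trans (sub_le_self _ (by positivity))
  clear N
  intro M hM
  induction M, hM using Nat.le_induction with
  | base => norm_num
  | succ n hn ih =>
    rw [sum_Icc_succ_top (by omega)]
    have hn' : (1 : ℝ) ≤ n := by exact_mod_cast hn
    have : 1 / ((n + 1 : ℕ) : ℝ) ^ 2 ≤ 1 / (n : ℝ) - 1 / ((n + 1 : ℕ) : ℝ) := by
      push_cast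
      rw [div_sub_div _ _ (by linarith) (by linarith),
        div_le_div_iff₀ (by positivity) (by positivity)]
      nlinarith
    linarith

/-- The sub-patterns at the shift `d` of the prime `p`. -/
def subPatterns (p : ℕ) (d : ℤ) (P : Finset (ℕ × ℕ)) : Finset (ℕ × ℕ) :=
  P.filter fun q => q.1.factorization p = (-d).toNat ∧ q.2.factorization p = d.toNat

lemma pattern_pow_mul {p : ℕ} (hp : p.Prime) {u t : ℕ} (hu : ¬ p ∣ u) (ht : ¬ p ∣ t) (i j : ℕ) :
    pattern (p ^ i * u, p ^ j * t)
      = (p ^ (i - j) * (pattern (u, t)).1, p ^ (j - i) * (pattern (u, t)).2) := by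
  have hu0 : u ≠ 0 := fun h => hu (h ▸ dvd_zero p)
  have ht0 : t ≠ 0 := fun h => ht (h ▸ dvd_zero p)
  have hp0 := hp.ne_zero
  have hg : Nat.gcd (p ^ i * u) (p ^ j * t) = p ^ min i j * Nat.gcd u t := by
    refine Nat.eq_of_factorization_eq (Nat.gcd_ne_zero_left (by positivity))
      (by have := Nat.gcd_ne_zero_left (n := t) hu0; positivity) fun l => ?_
    rw [Nat.factorization_gcd (by positivity) (by positivity),
      Nat.factorization_mul (by positivity) (Nat.gcd_ne_zero_left hu0),
      Nat.factorization_gcd hu0 ht0, Finsupp.add_apply, Finsupp.inf_apply, Finsupp.inf_apply,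
      Nat.factorization_mul (by positivity) hu0, Nat.factorization_mul (by positivity) ht0,
      Finsupp.add_apply, Finsupp.add_apply, hp.factorization_pow, hp.factorization_pow,
      hp.factorization_pow]
    rcases eq_or_ne l p with rfl | hl
    · simp [Nat.factorization_eq_zero_of_not_dvd hu, Nat.factorization_eq_zero_of_not_dvd ht]
    · simp [hl]
  have key : ∀ (i j : ℕ) (u : ℕ) (g : ℕ), g ∣ u → p ^ i * u / (p ^ min i j * g)
      = p ^ (i - j) * (u / g) := by
    intro i j u g hgu
    have hij : p ^ i = p ^ min i j * p ^ (i - j) := by rw [← pow_add]; congr 1; omega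
    rw [hij, mul_assoc, Nat.mul_div_mul_left _ _ (pow_pos hp.pos _), Nat.mul_div_assoc _ hgu]
  simp only [pattern, hg]
  refine Prod.ext (key i j u _ (Nat.gcd_dvd_left u t)) ?_
  rw [min_comm]
  exact key j i t _ (Nat.gcd_dvd_right u t)

/-- The real inequality at one prime. -/
lemma prime_step_le {b C : ℝ} (hb : 1 / 2 < b) (hb1 : b ≤ 3 / 5)
    (hC : (8000 / (2 * b - 1)) ^ 2 ≤ C) {p : ℕ} (hp : p.Prime) (N : ℕ) {I : Finset ℕ}
    {x y : ℕ → ℝ} (hx : ∀ i, 0 ≤ x i) (hy : ∀ i, 0 ≤ y i) (hxs : ∑ i ∈ I, x i = 1)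
    (hys : ∑ i ∈ I, y i = 1) (H : ℤ → ℝ) (hH : ∀ d, 0 ≤ H d) :
    ∑ d ∈ Finset.Icc (-(N : ℤ)) N,
        ((p : ℝ) ^ (-(d.natAbs : ℝ))) ^ (1 - b) * H d ^ (1 - b) * diagSum b I x y d
      ≤ (∑ d ∈ Finset.Icc (-(N : ℤ)) N, patWeight C (p ^ d.natAbs) * H d) ^ (1 - b) := by
  set e := 2 * b - 1 with he
  have he0 : 0 < e := by rw [he]; linarith
  have he1 : e ≤ 1 / 5 := by rw [he]; linarith
  have hp0 : (0 : ℝ) < p := by exact_mod_cast hp.pos
  set a := 1 - b with ha
  have ha0 : 0 < a := by rw [ha]; linarith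
  have hb0 : 0 < b := by linarith
  have hC1 : 1 ≤ C := by
    refine le_trans ?_ hC
    have : 1 ≤ 8000 / e := by rw [le_div_iff₀ he0]; linarith
    nlinarith
  have hC0 : 0 < C := by linarith
  set nu : ℤ → ℝ := fun d => patWeight C (p ^ d.natAbs) with hnu
  set l : ℤ → ℝ := fun d => if d = 0 then 1 else (1 / (C * (d.natAbs : ℝ) ^ 4)) ^ (a / b) with hl
  have hl0 : ∀ d, 0 ≤ l d := fun d => by
    simp only [hl]
    split_ifs <;> positivity
  set D := Finset.Icc (-(N : ℤ)) N
  have hX : ∀ d, 0 ≤ diagSum b I x y d := fun d => diagSum_nonneg hx hy d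
  have hfac : ∀ d : ℤ, ((p : ℝ) ^ (-(d.natAbs : ℝ))) ^ a * H d ^ a * diagSum b I x y d
      = (l d ^ b * diagSum b I x y d) * (nu d * H d) ^ a := by
    intro d
    simp only [hl, hnu]
    by_cases hd : d = 0
    · subst hd
      simp [patWeight_one, mul_comm]
    · have hn : d.natAbs ≠ 0 := Int.natAbs_ne_zero.2 hd
      have hnR : (0 : ℝ) < d.natAbs := by exact_mod_cast Nat.pos_of_ne_zero hn
      rw [if_neg hd, ← Real.rpow_mul (show 0 ≤ 1 / (C * (d.natAbs : ℝ) ^ 4) by positivity),
        div_mul_cancel₀ _ hb0.ne',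
        patWeight_prime_pow C hp hn, Real.mul_rpow (by positivity) (hH d),
        Real.div_rpow (by positivity) (by positivity), Real.div_rpow (by positivity) (by positivity),
        Real.one_rpow, Real.rpow_neg hp0.le, Real.rpow_natCast, Real.inv_rpow (by positivity)]
      field_simp
  simp only [hfac]
  have hconj : Real.HolderConjugate (1 / b) (1 / a) := by
    rw [Real.holderConjugate_iff]
    refine ⟨by rw [lt_div_iff₀ hb0]; linarith, ?_⟩
    rw [one_div, one_div, inv_inv, inv_inv, ha]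
    ring
  have hh := Real.inner_le_Lp_mul_Lq_of_nonneg D hconj
    (f := fun d => l d ^ b * diagSum b I x y d) (g := fun d => (nu d * H d) ^ a)
    (fun d _ => mul_nonneg (Real.rpow_nonneg (hl0 d) _) (hX d))
    (fun d _ => Real.rpow_nonneg (mul_nonneg (patWeight_nonneg hC0.le _) (hH d)) _)
  refine hh.trans ?_
  rw [one_div_one_div, one_div_one_div]
  have e1 : ∀ d, (l d ^ b * diagSum b I x y d) ^ (1 / b)
      = l d * diagSum b I x y d ^ (1 / b) := fun d => by
    rw [Real.mul_rpow (Real.rpow_nonneg (hl0 d) _) (hX d), ← Real.rpow_mul (hl0 d),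
      mul_one_div_cancel hb0.ne', Real.rpow_one]
  have e2 : ∀ d, ((nu d * H d) ^ a) ^ (1 / a) = nu d * H d := fun d => by
    rw [← Real.rpow_mul (mul_nonneg (patWeight_nonneg hC0.le _) (hH d)),
      mul_one_div_cancel ha0.ne', Real.rpow_one]
  simp only [e1, e2]
  refine mul_le_of_le_one_left (Real.rpow_nonneg (sum_nonneg fun d _ =>
    mul_nonneg (patWeight_nonneg hC0.le _) (hH d)) _) (Real.rpow_le_one (sum_nonneg fun d _ =>
      mul_nonneg (hl0 d) (Real.rpow_nonneg (hX d) _)) ?_ hb0.le)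
  refine diagSum_master hb (by linarith) hx hy hxs hys D l hl0 (by simp [hl]) ?_
  have hterm : ∀ d ∈ D.erase 0, l d ≤ (1 / Real.sqrt C) * (1 / (d.natAbs : ℝ) ^ 2) := by
    intro d hd
    have hd' := (mem_erase.1 hd).1
    have hnR : (1 : ℝ) ≤ d.natAbs := by
      exact_mod_cast Nat.one_le_iff_ne_zero.2 (Int.natAbs_ne_zero.2 hd')
    simp only [hl, if_neg hd']
    have h4 : (1 : ℝ) ≤ C * (d.natAbs : ℝ) ^ 4 := one_le_mul_of_one_le_of_one_le hC1 (one_le_pow₀ hnR)
    calc (1 / (C * (d.natAbs : ℝ) ^ 4)) ^ (a / b)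
        ≤ (1 / (C * (d.natAbs : ℝ) ^ 4)) ^ (1 / 2 : ℝ) := by
          refine Real.rpow_le_rpow_of_exponent_ge (by positivity) ?_ ?_
          · rw [div_le_one (by positivity)]; exact h4
          · rw [le_div_iff₀ hb0, ha]; linarith
      _ = _ := by
          rw [← Real.sqrt_eq_rpow, Real.sqrt_div' _ (by positivity), Real.sqrt_one,
            Real.sqrt_mul hC0.le, show (d.natAbs : ℝ) ^ 4 = ((d.natAbs : ℝ) ^ 2) ^ 2 by ring,
            Real.sqrt_sq (by positivity)]
          field_simp
  refine (sum_le_sum hterm).trans ?_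
  rw [← mul_sum]
  have hsum : ∑ d ∈ D.erase 0, 1 / (d.natAbs : ℝ) ^ 2 ≤ 4 := by
    have hsub : D.erase 0 ⊆ (Finset.Icc 1 N).image (fun k : ℕ => (k : ℤ)) ∪
        (Finset.Icc 1 N).image (fun k : ℕ => -(k : ℤ)) := by
      intro d hd
      rw [mem_erase, Finset.mem_Icc] at hd
      rcases le_or_gt 0 d with h | h
      · exact mem_union_left _ (mem_image.2 ⟨d.toNat, Finset.mem_Icc.2 (by omega), by omega⟩)
      · exact mem_union_right _ (mem_image.2 ⟨(-d).toNat, Finset.mem_Icc.2 (by omega), by omega⟩)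
    refine (sum_le_sum_of_subset_of_nonneg hsub fun d _ _ => by positivity).trans ?_
    refine le_trans (le_of_le_of_eq (le_add_of_nonneg_right
      (sum_nonneg fun d _ => by positivity)) sum_union_inter) ?_
    rw [sum_image (fun a _ c _ hac => by simpa using hac),
      sum_image (fun a _ c _ hac => by simpa using hac)]
    simp only [Int.natAbs_neg, Int.natAbs_natCast]
    linarith [sum_inv_sq_le_two N]
  have hsq : 8000 / e ≤ Real.sqrt C := by
    rw [← Real.sqrt_sq (by positivity : 0 ≤ 8000 / e)]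
    exact Real.sqrt_le_sqrt hC
  calc 1 / Real.sqrt C * ∑ d ∈ D.erase 0, 1 / (d.natAbs : ℝ) ^ 2
      ≤ 1 / (8000 / e) * 4 :=
        mul_le_mul (one_div_le_one_div_of_le (by positivity) hsq) hsum
          (sum_nonneg fun d _ => by positivity) (by positivity)
    _ = e / 2000 := by field_simp; ring

/-- The pattern inequality. -/
theorem edgeSum_le_patSum {b C : ℝ} (hb : 1 / 2 < b) (hb1 : b ≤ 3 / 5)
    (hC : (8000 / (2 * b - 1)) ^ 2 ≤ C) :
    ∀ (V W : Finset ℕ) (x y : ℕ → ℝ) (E : Finset (ℕ × ℕ)), Adm V W x y E →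
      ∀ P : Finset (ℕ × ℕ), (∀ e ∈ E, pattern e ∈ P) →
        edgeSum x y E ≤ patSum C P ^ (1 - b) * ((∑ v ∈ V, x v) * (∑ w ∈ W, y w)) ^ b := by
  classical
  have hC0 : 0 ≤ C := le_trans (sq_nonneg _) hC
  have hH0 : ∀ P, 0 ≤ patSum C P := fun P =>
    sum_nonneg fun q _ => mul_nonneg (patWeight_nonneg hC0 _) (patWeight_nonneg hC0 _)
  suffices H : ∀ n : ℕ, ∀ (V W : Finset ℕ) (x y : ℕ → ℝ) (E : Finset (ℕ × ℕ)), size V W = n →
      Adm V W x y E → ∀ P : Finset (ℕ × ℕ), (∀ e ∈ E, pattern e ∈ P) →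
      edgeSum x y E ≤ patSum C P ^ (1 - b) * ((∑ v ∈ V, x v) * (∑ w ∈ W, y w)) ^ b from
    fun V W x y E hA P hP => H _ V W x y E rfl hA P hP
  intro n
  induction n using Nat.strong_induction_on with
  | _ n ih =>
  intro V W x y E hn hA P hP
  set X := ∑ v ∈ V, x v
  set Y := ∑ w ∈ W, y w
  have hX0 : 0 ≤ X := sum_nonneg fun v _ => hA.nonnegX v
  have hY0 : 0 ≤ Y := sum_nonneg fun v _ => hA.nonnegY v
  have hXYb : 0 ≤ (X * Y) ^ b := Real.rpow_nonneg (mul_nonneg hX0 hY0) b
  have hPb : 0 ≤ patSum C P ^ (1 - b) := Real.rpow_nonneg (hH0 P) _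
  rcases hX0.eq_or_lt with hX | hX
  · rw [edgeSum_eq_zero_of hA (Or.inl hX.symm)]; positivity
  rcases hY0.eq_or_lt with hY | hY
  · rw [edgeSum_eq_zero_of hA (Or.inr hY.symm)]; positivity
  have hpos : ∀ u ∈ V ∪ W, 0 < u := fun u hu => by
    rcases mem_union.1 hu with h | h
    · exact hA.posV u h
    · exact hA.posW u h
  by_cases hex : ∃ p : ℕ, p.Prime ∧ ∃ v ∈ V ∪ W, p ∣ v
  · obtain ⟨p, hp, hdvd⟩ := hex
    set N := size V W + 1
    have hfl : ∀ v ∈ V ∪ W, v.factorization p < N := fun v hv => factorization_lt_of_mem hv hpos p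
    set Pd : ℤ → Finset (ℕ × ℕ) := fun d => (subPatterns p d P).image
      fun q => (q.1 / p ^ (-d).toNat, q.2 / p ^ d.toNat) with hPd
    have hq : ∀ i j, i < N → j < N → edgeSum x y (edgesAt p i j E)
        ≤ ((p : ℝ) ^ (-(((j : ℤ) - i).natAbs : ℝ))) ^ (1 - b)
            * patSum C (Pd ((j : ℤ) - i)) ^ (1 - b) *
          ((∑ v ∈ atLevel p i V, x v) * (∑ w ∈ atLevel p j W, y w)) ^ b := by
      intro i j _ _
      rw [mul_comm (((p : ℝ) ^ _) ^ (1 - b))]
      refine edgesAt_le hA hp (by linarith) (Real.rpow_nonneg (hH0 _) _)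
        (ih _ (hn ▸ size_stripped_lt hA hp i j hdvd) _ _ _ _ _ rfl (adm_stripped hA hp i j) _
          fun e he => ?_)
      have hmem := mem_strippedEdges he
      obtain ⟨hE', h1, h2⟩ := mem_filter.1 hmem
      have hsub := (adm_stripped hA hp i j).subset he
      have hu : ¬ p ∣ e.1 := not_dvd_of_mem_stripped hp hA.posV (mem_product.1 hsub).1
      have ht : ¬ p ∣ e.2 := not_dvd_of_mem_stripped hp hA.posW (mem_product.1 hsub).2
      have hpat := hP _ hE'
      rw [pattern_pow_mul hp hu ht] at hpat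
      have hu0 : e.1 ≠ 0 := fun h => hu (h ▸ dvd_zero p)
      have ht0 : e.2 ≠ 0 := fun h => ht (h ▸ dvd_zero p)
      have hg := Nat.gcd_pos_of_pos_left e.2 (Nat.pos_of_ne_zero hu0)
      have hu' : ¬ p ∣ (pattern e).1 := fun h =>
        hu (h.trans (Nat.div_dvd_of_dvd (Nat.gcd_dvd_left e.1 e.2)))
      have ht' : ¬ p ∣ (pattern e).2 := fun h =>
        ht (h.trans (Nat.div_dvd_of_dvd (Nat.gcd_dvd_right e.1 e.2)))
      refine mem_image.2 ⟨_, mem_filter.2 ⟨hpat, ?_, ?_⟩, ?_⟩
      · rw [Nat.factorization_mul (pow_ne_zero _ hp.ne_zero)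
          (fun h => hu' (by simp [h])), Finsupp.add_apply, hp.factorization_pow,
          Finsupp.single_eq_same, Nat.factorization_eq_zero_of_not_dvd hu']
        omega
      · rw [Nat.factorization_mul (pow_ne_zero _ hp.ne_zero)
          (fun h => ht' (by simp [h])), Finsupp.add_apply, hp.factorization_pow,
          Finsupp.single_eq_same, Nat.factorization_eq_zero_of_not_dvd ht']
        omega
      · rw [show (-((j : ℤ) - i)).toNat = i - j by omega,
          show ((j : ℤ) - i).toNat = j - i by omega]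
        simp [Nat.mul_div_cancel_left _ (pow_pos hp.pos _)]
    refine (edgeSum_le_diag hA p (b := b)
      (fun d => ((p : ℝ) ^ (-(d.natAbs : ℝ))) ^ (1 - b) * patSum C (Pd d) ^ (1 - b))
      (fun d => mul_nonneg (by positivity) (Real.rpow_nonneg (hH0 _) _)) N
      (fun v hv => hfl v (mem_union_left _ hv)) (fun v hv => hfl v (mem_union_right _ hv))
      hX hY hq).trans ?_
    rw [mul_comm]
    refine mul_le_mul_of_nonneg_right ?_ hXYb
    refine (prime_step_le hb hb1 hC hp N (x := fun i => (∑ v ∈ atLevel p i V, x v) / X)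
      (y := fun j => (∑ w ∈ atLevel p j W, y w) / Y)
      (fun i => div_nonneg (sum_nonneg fun v _ => hA.nonnegX v) hX.le)
      (fun i => div_nonneg (sum_nonneg fun v _ => hA.nonnegY v) hY.le)
      (by rw [← sum_div, sum_atLevel V x p N fun v hv => hfl v (mem_union_left _ hv),
        div_self hX.ne'])
      (by rw [← sum_div, sum_atLevel W y p N fun v hv => hfl v (mem_union_right _ hv),
        div_self hY.ne'])
      (fun d => patSum C (Pd d)) (fun d => hH0 _)).trans ?_
    refine Real.rpow_le_rpow (sum_nonneg fun d _ => mul_nonneg (patWeight_nonneg hC0 _) (hH0 _))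
      ?_ (by linarith)
    calc ∑ d ∈ Finset.Icc (-(N : ℤ)) N, patWeight C (p ^ d.natAbs) * patSum C (Pd d)
        ≤ ∑ d ∈ Finset.Icc (-(N : ℤ)) N, ∑ q ∈ subPatterns p d P,
            patWeight C q.1 * patWeight C q.2 := by
          refine sum_le_sum fun d _ => ?_
          rw [patSum, hPd, sum_image, mul_sum]
          · refine sum_le_sum fun q hq' => le_of_eq ?_
            obtain ⟨-, h1, h2⟩ := mem_filter.1 hq'
            have key : ∀ s : ℕ, patWeight C (p ^ s.factorization p)
                * patWeight C (s / p ^ s.factorization p) = patWeight C s := by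
              intro s
              rcases eq_or_ne s 0 with rfl | hs
              · simp [patWeight]
              · rw [← patWeight_mul C ((Nat.coprime_ordCompl hp hs).pow_left _),
                  Nat.ordProj_mul_ordCompl_eq_self]
            have hsplit : patWeight C (p ^ d.natAbs)
                = patWeight C (p ^ (-d).toNat) * patWeight C (p ^ d.toNat) := by
              rcases le_or_gt 0 d with h | h
              · rw [show (-d).toNat = 0 by omega, show d.toNat = d.natAbs by omega, pow_zero,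
                  patWeight_one, one_mul]
              · rw [show d.toNat = 0 by omega, show (-d).toNat = d.natAbs by omega, pow_zero,
                  patWeight_one, mul_one]
            have k1 := key q.1
            have k2 := key q.2
            rw [h1] at k1
            rw [h2] at k2
            rw [hsplit]
            linear_combination (patWeight C (p ^ d.toNat) * patWeight C (q.2 / p ^ d.toNat)) * k1
              + patWeight C q.1 * k2
          · intro q hq' q' hq'' hqq
            simp only [Prod.mk.injEq] at hqq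
            obtain ⟨-, h1, h2⟩ := mem_filter.1 hq'
            obtain ⟨-, h1', h2'⟩ := mem_filter.1 hq''
            refine Prod.ext ?_ ?_
            · rw [← pow_mul_div_of_factorization h1, hqq.1, pow_mul_div_of_factorization h1']
            · rw [← pow_mul_div_of_factorization h2, hqq.2, pow_mul_div_of_factorization h2']
      _ = ∑ q ∈ (Finset.Icc (-(N : ℤ)) N).biUnion (fun d => subPatterns p d P),
            patWeight C q.1 * patWeight C q.2 := by
          rw [sum_biUnion]
          intro d _ d' _ hdd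
          refine disjoint_left.2 fun q h1 h2 => hdd ?_
          obtain ⟨-, a1, a2⟩ := mem_filter.1 h1
          obtain ⟨-, c1, c2⟩ := mem_filter.1 h2
          omega
      _ ≤ patSum C P := sum_le_sum_of_subset_of_nonneg
          (biUnion_subset.2 fun d _ => filter_subset _ _)
          fun q _ _ => mul_nonneg (patWeight_nonneg hC0 _) (patWeight_nonneg hC0 _)
  · have hone : ∀ v ∈ V ∪ W, v = 1 := by
      intro v hv
      by_contra h
      obtain ⟨p, hp, hpv⟩ := Nat.exists_prime_and_dvd h
      exact hex ⟨p, hp, v, hv, hpv⟩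
    rcases E.eq_empty_or_nonempty with he | ⟨e, he⟩
    · rw [he, edgeSum, sum_empty]; positivity
    obtain ⟨hv, hw⟩ := mem_product.1 (hA.subset he)
    have e1 := hone _ (mem_union_left _ hv)
    have e2 := hone _ (mem_union_right _ hw)
    have hsub : E ⊆ {(1, 1)} := fun d hd => by
      obtain ⟨hv', hw'⟩ := mem_product.1 (hA.subset hd)
      exact mem_singleton.2 (Prod.ext (hone _ (mem_union_left _ hv')) (hone _ (mem_union_right _ hw')))
    have hcx := hA.capX e he
    have hcy := hA.capY e he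
    rw [e1, e2] at hcx hcy
    simp at hcx hcy
    have hH1 : 1 ≤ patSum C P := by
      have hmem : ((1, 1) : ℕ × ℕ) ∈ P := by
        have := hP e he
        rwa [show e = (1, 1) from Prod.ext e1 e2, pattern, Nat.gcd_self, Nat.div_one] at this
      refine le_trans (le_of_eq ?_) (single_le_sum
        (fun q _ => mul_nonneg (patWeight_nonneg hC0 q.1) (patWeight_nonneg hC0 q.2)) hmem)
      simp [patWeight_one]
    calc edgeSum x y E ≤ x 1 * y 1 := by
          refine (sum_le_sum_of_subset_of_nonneg hsub fun d _ _ =>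
            mul_nonneg (hA.nonnegX _) (hA.nonnegY _)).trans (le_of_eq ?_)
          simp
      _ ≤ (x 1 * y 1) ^ b := by
          refine Real.self_le_rpow_of_le_one (mul_nonneg (hA.nonnegX _) (hA.nonnegY _))
            (mul_le_one₀ hcx (hA.nonnegY _) hcy) (by linarith)
      _ ≤ (X * Y) ^ b := by
          refine Real.rpow_le_rpow (mul_nonneg (hA.nonnegX _) (hA.nonnegY _)) ?_ (by linarith)
          exact mul_le_mul (single_le_sum (fun v _ => hA.nonnegX v) (e1 ▸ hv))
            (single_le_sum (fun v _ => hA.nonnegY v) (e2 ▸ hw)) (hA.nonnegY _) hX0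
      _ = 1 * (X * Y) ^ b := (one_mul _).symm
      _ ≤ _ := mul_le_mul_of_nonneg_right (Real.one_le_rpow hH1 (by linarith)) hXYb

end Vale.Agent.P028.ExtraLog
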