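import Mathlib
import Vale.Agent.P028.Count

/-!
# Approximation sets with classes chosen from the size of the radius

As in `Vale.Agent.P028.Defs` and `Vale.Agent.P028.Geometry`, except that the rational
approximation of `γ` attached to `q` has denominator at most `(q δ q) ^ (-1/3)`, and that the radii
only satisfy `q δ q ≤ 1/4`.
-/

namespace Vale.Agent.P028.ExtraLog

open MeasureTheory Set Finset

open scoped Classical

/-- The bound for the denominator attached to `q`. -/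
noncomputable def denCap (δ : ℕ → ℝ) (q : ℕ) : ℕ := max 1 ⌊((q : ℝ) * δ q) ^ (-(1 / 3) : ℝ)⌋₊

/-- The rational approximation of `γ` attached to `q`. -/
noncomputable def approxOf (γ : ℝ) (δ : ℕ → ℝ) (q : ℕ) : ℚ :=
  Classical.choose (Real.exists_rat_abs_sub_le_and_den_le γ (n := denCap δ q)
    (Nat.lt_of_lt_of_le Nat.zero_lt_one (le_max_left _ _)))

/-- Numerator attached to `q`. -/
noncomputable def numA (γ : ℝ) (δ : ℕ → ℝ) (q : ℕ) : ℤ := (approxOf γ δ q).num

/-- Denominator attached to `q`. -/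
noncomputable def denB (γ : ℝ) (δ : ℕ → ℝ) (q : ℕ) : ℕ := (approxOf γ δ q).den

lemma denB_pos (γ : ℝ) (δ : ℕ → ℝ) (q : ℕ) : 0 < denB γ δ q := (approxOf γ δ q).pos

lemma isCoprime_numA_denB (γ : ℝ) (δ : ℕ → ℝ) (q : ℕ) :
    IsCoprime (numA γ δ q) (denB γ δ q : ℤ) :=
  Rat.isCoprime_num_den _

lemma approx_bounds (γ : ℝ) {δ : ℕ → ℝ} {q : ℕ} (h0 : 0 < (q : ℝ) * δ q)
    (h1 : (q : ℝ) * δ q ≤ 1) :
    (denB γ δ q : ℝ) ≤ ((q : ℝ) * δ q) ^ (-(1 / 3) : ℝ) ∧
      |(denB γ δ q : ℝ) * γ - numA γ δ q| ≤ ((q : ℝ) * δ q) ^ (1 / 3 : ℝ) := by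
  set z := ((q : ℝ) * δ q) ^ (-(1 / 3) : ℝ) with hz
  have hz1 : 1 ≤ z := Real.one_le_rpow_of_pos_of_le_one_of_nonpos h0 h1 (by norm_num)
  have hcap : denCap δ q = ⌊z⌋₊ := max_eq_right (Nat.le_floor (by exact_mod_cast hz1))
  obtain ⟨ha, hb⟩ : |γ - (approxOf γ δ q : ℝ)| ≤ 1 / (((denCap δ q : ℝ) + 1) * denB γ δ q) ∧
      denB γ δ q ≤ denCap δ q :=
    Classical.choose_spec (Real.exists_rat_abs_sub_le_and_den_le γ
      (n := denCap δ q) (Nat.lt_of_lt_of_le Nat.zero_lt_one (le_max_left _ _)))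
  have hd : (0 : ℝ) < denB γ δ q := by exact_mod_cast denB_pos γ δ q
  refine ⟨?_, ?_⟩
  · refine le_trans ?_ (Nat.floor_le (by linarith : 0 ≤ z))
    rw [← hcap]
    exact_mod_cast hb
  · have e : (denB γ δ q : ℝ) * γ - numA γ δ q
        = (denB γ δ q : ℝ) * (γ - (approxOf γ δ q : ℝ)) := by
      rw [Rat.cast_def, denB, numA]; field_simp
    rw [e, abs_mul, abs_of_pos hd]
    refine (mul_le_mul_of_nonneg_left ha hd.le).trans ?_
    have hpow : ((q : ℝ) * δ q) ^ (1 / 3 : ℝ) = 1 / z := by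
      rw [hz, Real.rpow_neg h0.le]; simp
    rw [hpow, hcap]
    rw [mul_one_div, div_mul_cancel_right₀ hd.ne', one_div]
    exact inv_anti₀ (by linarith) (Nat.lt_floor_add_one z).le

/-- The primes of `q` which are used in the exclusion. -/
noncomputable def exclPrimes (γ : ℝ) (δ : ℕ → ℝ) (q : ℕ) : Finset ℕ :=
  q.primeFactors.filter (fun p => ¬ p ∣ denB γ δ q)

/-- The admissible numerators. -/
def Keep (γ : ℝ) (δ : ℕ → ℝ) (q : ℕ) (a : ℤ) : Prop := Avoid (exclPrimes γ δ q) (numA γ δ q) (denB γ δ q) a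

/-- The restricted approximation set. -/
def approxSet (γ : ℝ) (δ : ℕ → ℝ) (q : ℕ) : Set ℝ :=
  {x | ∃ a : ℤ, Keep γ δ q a ∧ |x - ((a : ℝ) + γ) / q| < δ q}

/-- The proportion of admissible numerators. -/
noncomputable def propKeep (γ : ℝ) (δ : ℕ → ℝ) (q : ℕ) : ℝ := ∏ p ∈ exclPrimes γ δ q, (1 - 1 / (p : ℝ))

/-- The weight of `q`. -/
noncomputable def mass (γ : ℝ) (δ : ℕ → ℝ) (q : ℕ) : ℝ := (q : ℝ) * δ q * propKeep γ δ q

lemma keep_iff_coprime {γ : ℝ} {δ : ℕ → ℝ} {q : ℕ} (hq : 0 < q) {a : ℤ} (h : Keep γ δ q a) :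
    IsCoprime (a * (denB γ δ q : ℤ) + numA γ δ q) (q : ℤ) := by
  rw [Int.isCoprime_iff_gcd_eq_one]
  by_contra hne
  obtain ⟨p, hp, hpd⟩ := Nat.exists_prime_and_dvd hne
  have h1 : (p : ℤ) ∣ a * (denB γ δ q : ℤ) + numA γ δ q :=
    (Int.natCast_dvd_natCast.2 hpd).trans (Int.gcd_dvd_left _ _)
  have h2 : (p : ℤ) ∣ (q : ℤ) := (Int.natCast_dvd_natCast.2 hpd).trans (Int.gcd_dvd_right _ _)
  by_cases hB : p ∣ denB γ δ q
  · have h3 : (p : ℤ) ∣ numA γ δ q := by
      have := dvd_sub h1 ((Int.natCast_dvd_natCast.2 hB).mul_left a)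
      simpa using this
    have := (isCoprime_numA_denB γ δ q).isUnit_of_dvd' h3 (Int.natCast_dvd_natCast.2 hB)
    exact hp.one_lt.ne' (by simpa [Int.isUnit_iff_natAbs_eq] using this)
  · exact h p (Finset.mem_filter.2
      ⟨Nat.mem_primeFactors.2 ⟨hp, Int.natCast_dvd_natCast.1 h2, hq.ne'⟩, hB⟩) h1

lemma propKeep_pos (γ : ℝ) (δ : ℕ → ℝ) (q : ℕ) : 0 < propKeep γ δ q := by
  refine Finset.prod_pos fun p hp => ?_
  have := (Nat.prime_of_mem_primeFactors (Finset.mem_of_mem_filter _ hp)).two_le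
  have : (2 : ℝ) ≤ p := by exact_mod_cast this
  rw [sub_pos, div_lt_one (by linarith)]
  linarith

lemma propKeep_le_one (γ : ℝ) (δ : ℕ → ℝ) (q : ℕ) : propKeep γ δ q ≤ 1 := by
  refine Finset.prod_le_one (fun p hp => ?_) (fun p _ => by simp)
  have := (Nat.prime_of_mem_primeFactors (Finset.mem_of_mem_filter _ hp)).one_le
  rw [sub_nonneg, div_le_one (by exact_mod_cast this)]
  exact_mod_cast this

lemma totient_div_le_propKeep (γ : ℝ) (δ : ℕ → ℝ) (q : ℕ) : (Nat.totient q : ℝ) / q ≤ propKeep γ δ q := by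
  rcases Nat.eq_zero_or_pos q with rfl | hq
  · simp [(propKeep_pos γ δ 0).le]
  have e : (Nat.totient q : ℝ) = q * ∏ p ∈ q.primeFactors, (1 - (p : ℝ)⁻¹) := by
    have := congrArg (fun x : ℚ => (x : ℝ)) (Nat.totient_eq_mul_prod_factors q)
    push_cast at this
    exact this
  rw [e, mul_div_assoc, mul_comm, div_mul_cancel₀]
  · rw [propKeep, exclPrimes, Finset.prod_filter]
    refine Finset.prod_le_prod (fun p hp => ?_) (fun p hp => ?_)
    · have := (Nat.prime_of_mem_primeFactors hp).one_le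
      rw [sub_nonneg]
      exact inv_le_one_of_one_le₀ (by exact_mod_cast this)
    · split_ifs <;> simp
  · exact_mod_cast hq.ne'

lemma mass_nonneg {δ : ℕ → ℝ} (hδ : ∀ q, 0 ≤ δ q) (γ : ℝ) (q : ℕ) : 0 ≤ mass γ δ q := by
  have := propKeep_pos γ δ q
  have := hδ q
  unfold mass
  positivity

lemma two_pow_card_primeFactors_le (q : ℕ) (hq : 0 < q) :
    (2 : ℝ) ^ q.primeFactors.card ≤ q.divisors.card := by
  rw [Nat.card_divisors hq.ne', ← Finset.prod_const]
  push_cast
  refine Finset.prod_le_prod (fun _ _ => by norm_num) (fun p hp => ?_)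
  have : 1 ≤ q.factorization p :=
    Nat.Prime.factorization_pos_of_dvd (Nat.prime_of_mem_primeFactors hp) hq.ne'
      (Nat.dvd_of_mem_primeFactors hp)
  have : (1 : ℝ) ≤ q.factorization p := by exact_mod_cast this
  linarith

lemma one_le_propKeep_mul_card (γ : ℝ) (δ : ℕ → ℝ) (q : ℕ) (hq : 0 < q) :
    1 ≤ propKeep γ δ q * q.divisors.card := by
  have h : ((1 : ℝ) / 2) ^ (exclPrimes γ δ q).card ≤ propKeep γ δ q := by
    rw [← Finset.prod_const]
    refine Finset.prod_le_prod (fun _ _ => by norm_num) (fun p hp => ?_)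
    have := (Nat.prime_of_mem_primeFactors (Finset.mem_of_mem_filter _ hp)).two_le
    have : (2 : ℝ) ≤ p := by exact_mod_cast this
    have : 1 / (p : ℝ) ≤ 1 / 2 := one_div_le_one_div_of_le (by norm_num) this
    linarith
  have h2 : (2 : ℝ) ^ (exclPrimes γ δ q).card ≤ q.divisors.card :=
    (pow_le_pow_right₀ one_le_two (Finset.card_le_card (Finset.filter_subset _ _))).trans
      (two_pow_card_primeFactors_le q hq)
  calc (1 : ℝ) = ((1 : ℝ) / 2) ^ (exclPrimes γ δ q).card * 2 ^ (exclPrimes γ δ q).card := by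
        rw [← mul_pow]; norm_num
    _ ≤ _ := mul_le_mul h h2 (by positivity) (propKeep_pos γ δ q).le

/-- The standing assumption on the radii. -/
def Radii (δ : ℕ → ℝ) : Prop :=
  δ 0 = 0 ∧ ∀ q, 0 ≤ δ q ∧ (q : ℝ) * δ q ≤ 1 / 4

lemma Radii.half {δ : ℕ → ℝ} (hδ : Radii δ) {q : ℕ} (_hq : 0 < q) :
    (q : ℝ) * δ q < 1 / 2 := by
  linarith [(hδ.2 q).2]

lemma keep_add_period (γ : ℝ) (δ : ℕ → ℝ) (q : ℕ) (z a : ℤ) : Keep γ δ q (a + z * q) ↔ Keep γ δ q a := by
  refine forall₂_congr fun p hp => not_congr ?_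
  have hd : (p : ℤ) ∣ z * q * (denB γ δ q : ℤ) :=
    ((Int.natCast_dvd_natCast.2 (Nat.dvd_of_mem_primeFactors (Finset.mem_of_mem_filter _ hp))).mul_left
      z).mul_right _
  rw [add_mul, add_right_comm]
  exact dvd_add_left hd

lemma isOpen_approxSet (γ : ℝ) (δ : ℕ → ℝ) (q : ℕ) : IsOpen (approxSet γ δ q) := by
  have : approxSet γ δ q = ⋃ a ∈ {a : ℤ | Keep γ δ q a}, Metric.ball (((a : ℝ) + γ) / q) (δ q) := by
    ext x
    simp [approxSet, Real.dist_eq]
  rw [this]
  exact isOpen_biUnion fun a _ => Metric.isOpen_ball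

lemma approxSet_periodic (γ : ℝ) {δ : ℕ → ℝ} (hδ : Radii δ) (q : ℕ) (x : ℝ) :
    x + 1 ∈ approxSet γ δ q ↔ x ∈ approxSet γ δ q := by
  rcases Nat.eq_zero_or_pos q with rfl | hq
  · refine iff_of_false ?_ ?_ <;>
      · rintro ⟨a, -, h⟩
        rw [hδ.1] at h
        exact (abs_nonneg _).not_gt h
  have hq' : (q : ℝ) ≠ 0 := by exact_mod_cast hq.ne'
  constructor
  · rintro ⟨a, ha, hx⟩
    refine ⟨a + (-1) * q, (keep_add_period γ δ q _ a).2 ha, ?_⟩
    convert hx using 2
    push_cast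
    field_simp
    ring
  · rintro ⟨a, ha, hx⟩
    refine ⟨a + 1 * q, (keep_add_period γ δ q _ a).2 ha, ?_⟩
    convert hx using 2
    push_cast
    field_simp
    ring

lemma volume_periodic {P : Set ℝ} (hP : MeasurableSet P) (hper : ∀ x, x + 1 ∈ P ↔ x ∈ P)
    (s t : ℝ) : volume.real (P ∩ Set.Ico s (s + 1)) = volume.real (P ∩ Set.Ico t (t + 1)) := by
  have h1 := isAddFundamentalDomain_Ioc (T := (1 : ℝ)) one_pos s
  have h2 := isAddFundamentalDomain_Ioc (T := (1 : ℝ)) one_pos t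
  have e := h1.measure_set_eq h2 hP (fun g => by
    obtain ⟨g, hg⟩ := g
    obtain ⟨z, rfl⟩ := AddSubgroup.mem_zmultiples_iff.1 hg
    ext x
    have hz : z • (1 : ℝ) +ᵥ x = x + z := by simp [add_comm]
    change (z • (1 : ℝ) +ᵥ x) ∈ P ↔ x ∈ P
    rw [hz]
    have hp : Function.Periodic (fun y => y ∈ P) (1 : ℝ) := fun y => propext (hper y)
    have := hp.int_mul z x
    simp only [mul_one] at this
    rw [this])
  have hc : ∀ u : ℝ, volume (P ∩ Set.Ico u (u + 1)) = volume (P ∩ Set.Ioc u (u + 1)) := fun u =>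
    measure_congr (Filter.EventuallyEq.rfl.inter Ico_ae_eq_Ioc)
  rw [measureReal_def, measureReal_def, hc, hc, e]

/-- Kept pairs of nearby centres. -/
noncomputable def keptPairs (γ : ℝ) (δ : ℕ → ℝ) (q r : ℕ) : Finset (ℤ × ℤ) :=
  (pairSet q r γ γ (δ q + δ r)).filter (fun p => Keep γ δ q p.1 ∧ Keep γ δ r p.2)

lemma volume_real_ball_inter_le {c c' s t : ℝ} (hs : 0 ≤ s) (ht : 0 ≤ t) :
    volume.real (Metric.ball c s ∩ Metric.ball c' t) ≤ 2 * min s t := by
  rcases le_total s t with h | h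
  · rw [min_eq_left h, ← Real.volume_real_ball (a := c) hs]
    exact measureReal_mono Set.inter_subset_left measure_ball_lt_top.ne
  · rw [min_eq_right h, ← Real.volume_real_ball (a := c') ht]
    exact measureReal_mono Set.inter_subset_right measure_ball_lt_top.ne

lemma overlap_le (γ : ℝ) {δ : ℕ → ℝ} (hδ : Radii δ) {q r : ℕ} (hq : 0 < q) (hr : 0 < r) :
    volume.real (approxSet γ δ q ∩ approxSet γ δ r ∩ Set.Ico 0 1)
      ≤ 2 * min (δ q) (δ r) * (keptPairs γ δ q r).card := by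
  have hq' : (0 : ℝ) < q := by exact_mod_cast hq
  set P := approxSet γ δ q ∩ approxSet γ δ r
  set s : ℝ := (γ - 1 / 2) / q with hs
  have hper : ∀ x, x + 1 ∈ P ↔ x ∈ P := fun x =>
    and_congr (approxSet_periodic γ hδ q x) (approxSet_periodic γ hδ r x)
  have e := volume_periodic ((isOpen_approxSet γ δ q).inter (isOpen_approxSet γ δ r)).measurableSet
    hper 0 s
  rw [zero_add] at e
  rw [e]
  have hsub : P ∩ Set.Ico s (s + 1) ⊆ ⋃ p ∈ keptPairs γ δ q r,
      Metric.ball (((p.1 : ℝ) + γ) / q) (δ q) ∩ Metric.ball (((p.2 : ℝ) + γ) / r) (δ r) := by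
    rintro x ⟨⟨⟨a, ha, hxa⟩, b, hb, hxb⟩, hx1, hx2⟩
    have hh := hδ.half hq
    have e1 : ((a : ℝ) + γ) = q * (((a : ℝ) + γ) / q) := by field_simp
    have e2 : q * s = γ - 1 / 2 := by rw [hs]; field_simp
    obtain ⟨u1, u2⟩ := abs_lt.1 hxa
    have l1 : (a : ℝ) + γ > γ - 1 := by
      have : (q : ℝ) * (((a : ℝ) + γ) / q) > q * (s - δ q) :=
        mul_lt_mul_of_pos_left (by linarith) hq'
      linarith
    have l2 : (a : ℝ) + γ < γ + q := by
      have : (q : ℝ) * (((a : ℝ) + γ) / q) < q * (s + 1 + δ q) :=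
        mul_lt_mul_of_pos_left (by linarith) hq'
      linarith
    have a1 : -1 < a := by
      have : (-1 : ℝ) < a := by linarith
      exact_mod_cast this
    have a2 : a < (q : ℤ) := by
      have : (a : ℝ) < q := by linarith
      exact_mod_cast this
    refine Set.mem_biUnion (x := (a, b)) (Finset.mem_filter.2
      ⟨(mem_pairSet hq hr).2 ⟨⟨by simp only; omega, by simp only; omega⟩, ?_⟩, ha, hb⟩)
      ⟨by simpa [Real.dist_eq] using hxa, by simpa [Real.dist_eq] using hxb⟩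
    simp only
    calc |((a : ℝ) + γ) / q - ((b : ℝ) + γ) / r|
        ≤ |((a : ℝ) + γ) / q - x| + |x - ((b : ℝ) + γ) / r| := abs_sub_le _ _ _
      _ < δ q + δ r := by rw [abs_sub_comm]; exact add_lt_add hxa hxb
  refine (measureReal_mono hsub ?_).trans ((measureReal_biUnion_finset_le _ _).trans ?_)
  · exact (measure_biUnion_lt_top (Finset.finite_toSet _) fun p _ =>
      measure_lt_top_of_subset Set.inter_subset_left measure_ball_lt_top.ne).ne
  · refine (Finset.sum_le_sum fun p _ =>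
      volume_real_ball_inter_le (hδ.2 q).1 (hδ.2 r).1).trans (le_of_eq ?_)
    rw [Finset.sum_const, nsmul_eq_mul]
    ring

lemma card_exclPrimes_le (γ : ℝ) (δ : ℕ → ℝ) (q : ℕ) (hq : 0 < q) :
    (2 : ℝ) ^ (exclPrimes γ δ q).card ≤ q.divisors.card :=
  (pow_le_pow_right₀ one_le_two (Finset.card_le_card (Finset.filter_subset _ _))).trans
    (two_pow_card_primeFactors_le q hq)

/-- Number of kept numerators in a real interval. -/
lemma card_keep (γ : ℝ) (δ : ℕ → ℝ) (q : ℕ) (hq : 0 < q) {x y : ℝ} (hxy : x ≤ y) :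
    |(((intIoo x y).filter (fun a => Keep γ δ q a)).card : ℝ) - (y - x) * propKeep γ δ q|
      ≤ q.divisors.card := by
  have h := card_avoid (exclPrimes γ δ q)
    (fun p hp => Nat.prime_of_mem_primeFactors (Finset.mem_of_mem_filter _ hp))
    (numA γ δ q) (denB γ δ q) (fun p hp => (Finset.mem_filter.1 hp).2) hxy
  refine le_trans (le_of_eq ?_) (h.trans (card_exclPrimes_le γ δ q hq))
  congr 4
  exact Finset.filter_congr fun a _ => Iff.rfl

lemma approxSet_equidist (γ : ℝ) {δ : ℕ → ℝ} (hδ : Radii δ) {q : ℕ} (hq : 0 < q)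
    {x y : ℝ} (hxy : x ≤ y) :
    |volume.real (approxSet γ δ q ∩ Set.Ico x y) - 2 * mass γ δ q * (y - x)|
      ≤ 6 * δ q * q.divisors.card := by
  have hq' : (0 : ℝ) < q := by exact_mod_cast hq
  have hd0 := (hδ.2 q).1
  have hh := hδ.half hq
  have hp1 := propKeep_le_one γ δ q
  have hp0 := propKeep_pos γ δ q
  have hτ : (1 : ℝ) ≤ q.divisors.card := by
    have : 0 < q.divisors.card := Finset.card_pos.2 ⟨1, Nat.one_mem_divisors.2 hq.ne'⟩
    exact_mod_cast this
  have hmass : 2 * mass γ δ q * (y - x) = 2 * δ q * (q * (y - x) * propKeep γ δ q) := by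
    unfold mass; ring
  rw [abs_le]
  constructor
  · rcases le_total (q * (y - x)) 2 with h | h
    · have : q * (y - x) * propKeep γ δ q ≤ 3 * q.divisors.card := by
        have : q * (y - x) * propKeep γ δ q ≤ 2 * 1 := mul_le_mul h hp1 hp0.le (by norm_num)
        linarith
      have := mul_le_mul_of_nonneg_left this (by positivity : 0 ≤ 2 * δ q)
      have := measureReal_nonneg (μ := volume) (s := approxSet γ δ q ∩ Set.Ico x y)
      linarith
    set F := (intIoo (q * x - γ + 1) (q * y - γ - 1)).filter (fun a => Keep γ δ q a) with hF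
    have hsub : (⋃ a ∈ F, Metric.ball (((a : ℝ) + γ) / q) (δ q))
        ⊆ approxSet γ δ q ∩ Set.Ico x y := by
      refine Set.iUnion₂_subset fun a ha z hz => ?_
      rw [hF, Finset.mem_filter, mem_intIoo] at ha
      rw [Metric.mem_ball, Real.dist_eq] at hz
      refine ⟨⟨a, ha.2, hz⟩, ?_⟩
      obtain ⟨u1, u2⟩ := abs_lt.1 hz
      have e1 : (q : ℝ) * (((a : ℝ) + γ) / q) = (a : ℝ) + γ := by field_simp
      constructor
      · refine le_of_mul_le_mul_left ?_ hq'
        have : (q : ℝ) * (((a : ℝ) + γ) / q - δ q) ≤ q * z :=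
          mul_le_mul_of_nonneg_left (by linarith) hq'.le
        linarith [ha.1.1]
      · refine lt_of_mul_lt_mul_left ?_ hq'.le
        have : (q : ℝ) * z ≤ q * (((a : ℝ) + γ) / q + δ q) :=
          mul_le_mul_of_nonneg_left (by linarith) hq'.le
        linarith [ha.1.2]
    have hdisj : (F : Set ℤ).PairwiseDisjoint
        (fun a : ℤ => Metric.ball (((a : ℝ) + γ) / q) (δ q)) := by
      intro a _ b _ hab
      refine Metric.ball_disjoint_ball ?_
      rw [Real.dist_eq, ← sub_div, abs_div, abs_of_pos hq', le_div_iff₀ hq']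
      have : (1 : ℤ) ≤ |a - b| := Int.one_le_abs (sub_ne_zero.2 hab)
      have h1 : (1 : ℝ) ≤ |(a : ℝ) - b| := by exact_mod_cast this
      rw [add_sub_add_right_eq_sub]
      linarith
    have hfin : volume (approxSet γ δ q ∩ Set.Ico x y) ≠ ⊤ :=
      measure_ne_top_of_subset Set.inter_subset_right (by simp)
    have h1 := measureReal_mono (μ := volume) hsub hfin
    rw [measureReal_biUnion_finset hdisj (fun a _ => measurableSet_ball)
      (fun a _ => measure_ball_lt_top.ne),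
      Finset.sum_congr rfl fun a _ => Real.volume_real_ball hd0, Finset.sum_const, nsmul_eq_mul] at h1
    have h2 := (abs_le.1 (card_keep γ δ q hq (x := q * x - γ + 1) (y := q * y - γ - 1) (by linarith))).1
    rw [← hF] at h2
    have h3 : q * (y - x) * propKeep γ δ q - 3 * q.divisors.card ≤ F.card := by
      linarith
    have := mul_le_mul_of_nonneg_left h3 (by positivity : 0 ≤ 2 * δ q)
    linarith
  · set F := (intIoo (q * x - γ - 1) (q * y - γ + 1)).filter (fun a => Keep γ δ q a) with hF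
    have hsub : approxSet γ δ q ∩ Set.Ico x y
        ⊆ ⋃ a ∈ F, Metric.ball (((a : ℝ) + γ) / q) (δ q) := by
      rintro z ⟨⟨a, ha, hz⟩, hz1, hz2⟩
      obtain ⟨u1, u2⟩ := abs_lt.1 hz
      have e1 : (q : ℝ) * (((a : ℝ) + γ) / q) = (a : ℝ) + γ := by field_simp
      refine Set.mem_biUnion (Finset.mem_filter.2 ⟨mem_intIoo.2 ⟨?_, ?_⟩, ha⟩)
        (by simpa [Real.dist_eq] using hz)
      · have : (q : ℝ) * (x - δ q) < q * (((a : ℝ) + γ) / q) :=
          mul_lt_mul_of_pos_left (by linarith) hq'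
        linarith
      · have : (q : ℝ) * (((a : ℝ) + γ) / q) < q * (y + δ q) :=
          mul_lt_mul_of_pos_left (by linarith) hq'
        linarith
    have hqxy : (q : ℝ) * x ≤ q * y := mul_le_mul_of_nonneg_left hxy hq'.le
    have h1 := (measureReal_mono (μ := volume) hsub
      (measure_biUnion_lt_top (Finset.finite_toSet _) fun a _ => measure_ball_lt_top).ne).trans
      (measureReal_biUnion_finset_le F _)
    rw [Finset.sum_congr rfl fun a _ => Real.volume_real_ball hd0, Finset.sum_const,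
      nsmul_eq_mul] at h1
    have h2 := (abs_le.1 (card_keep γ δ q hq (x := q * x - γ - 1) (y := q * y - γ + 1) (by linarith))).2
    rw [← hF] at h2
    have h3 : (F.card : ℝ) ≤ q * (y - x) * propKeep γ δ q + 3 * q.divisors.card := by
      linarith
    have := mul_le_mul_of_nonneg_left h3 (by positivity : 0 ≤ 2 * δ q)
    linarith

end Vale.Agent.P028.ExtraLog
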