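import Mathlib
import Vale.Agent.P028.ExtraLog.Sets
import Vale.Agent.P028.ExtraLog.Pattern
import Vale.Agent.P028.ExtraLog.Bohr

/-!
# Coincidences of two approximation sets at small scale

An overlap at scale `y` in which both sides are comparable is either excluded by the classes or
has its pattern in `patSet γ y N`.
-/

namespace Vale.Agent.P028.ExtraLog

open MeasureTheory Finset

/-- The overlap on a period. -/
noncomputable def overlap (γ : ℝ) (δ : ℕ → ℝ) (v w : ℕ) : ℝ :=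
  volume.real (approxSet γ δ v ∩ approxSet γ δ w ∩ Set.Ico 0 1)

/-- The scale of a pair on the side of `v`. -/
noncomputable def scaleOf (δ : ℕ → ℝ) (v w : ℕ) : ℝ := (Nat.lcm v w : ℝ) * δ v

lemma scaleOf_nonneg {δ : ℕ → ℝ} (hδ : Radii δ) (v w : ℕ) : 0 ≤ scaleOf δ v w :=
  mul_nonneg (Nat.cast_nonneg _) (hδ.2 v).1

lemma overlap_comm (γ : ℝ) (δ : ℕ → ℝ) (v w : ℕ) : overlap γ δ v w = overlap γ δ w v := by
  rw [overlap, overlap, Set.inter_comm (approxSet γ δ v)]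

lemma overlap_nonneg (γ : ℝ) (δ : ℕ → ℝ) (v w : ℕ) : 0 ≤ overlap γ δ v w := measureReal_nonneg

lemma exists_keptPair_of_overlap (γ : ℝ) {δ : ℕ → ℝ} (hδ : Radii δ) {v w : ℕ} (hv : 0 < v)
    (hw : 0 < w) (h : overlap γ δ v w ≠ 0) :
    ∃ a b : ℤ, Keep γ δ v a ∧ Keep γ δ w b ∧
      |((a : ℝ) + γ) / v - ((b : ℝ) + γ) / w| < δ v + δ w := by
  classical
  have hle := overlap_le γ hδ hv hw
  rcases (keptPairs γ δ v w).eq_empty_or_nonempty with he | ⟨p, hp⟩
  · rw [he, card_empty, Nat.cast_zero, mul_zero] at hle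
    exact absurd (le_antisymm hle measureReal_nonneg) h
  · obtain ⟨hp1, hp2, hp3⟩ := mem_filter.1 hp
    exact ⟨p.1, p.2, hp2, hp3, ((mem_pairSet hv hw).1 hp1).2⟩

/-- The elementary bound for an overlap. -/
lemma overlap_le_ratio (γ : ℝ) {δ : ℕ → ℝ} (hδ : Radii δ) {v w : ℕ} (hv : 0 < δ v) (hw : 0 < δ w) :
    overlap γ δ v w ≤ 8 * ((v : ℝ) * δ v) * ((w : ℝ) * δ w)
      * (1 + 1 / (scaleOf δ v w + scaleOf δ w v)) := by
  classical
  have hv0 : 0 < v := Nat.pos_of_ne_zero fun h => by rw [h, hδ.1] at hv; exact lt_irrefl 0 hv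
  have hw0 : 0 < w := Nat.pos_of_ne_zero fun h => by rw [h, hδ.1] at hw; exact lt_irrefl 0 hw
  have hcard : ((keptPairs γ δ v w).card : ℝ) ≤ 2 * (δ v + δ w) * v * w + Nat.gcd v w := by
    have h1 : ((keptPairs γ δ v w).card : ℝ) ≤ (pairSet v w γ γ (δ v + δ w)).card := by
      exact_mod_cast card_le_card (filter_subset _ _)
    linarith [(abs_le.1 (card_pairSet v w hv0 hw0 γ γ (δ v + δ w) (by linarith))).2]
  have hm0 : 0 ≤ min (δ v) (δ w) := le_min hv.le hw.le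
  refine (overlap_le γ hδ hv0 hw0).trans
    ((mul_le_mul_of_nonneg_left hcard (by linarith)).trans ?_)
  have hgl : ((Nat.gcd v w : ℕ) : ℝ) * (Nat.lcm v w : ℕ) = (v : ℝ) * w := by
    exact_mod_cast Nat.gcd_mul_lcm v w
  have hlcm : (0 : ℝ) < (Nat.lcm v w : ℕ) := by exact_mod_cast Nat.lcm_pos hv0 hw0
  have hD : 0 < scaleOf δ v w + scaleOf δ w v := by
    unfold scaleOf
    rw [Nat.lcm_comm w v]
    positivity
  have h1 : min (δ v) (δ w) * (δ v + δ w) ≤ 2 * (δ v * δ w) := by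
    rcases le_total (δ v) (δ w) with h | h
    · rw [min_eq_left h]; nlinarith
    · rw [min_eq_right h]; nlinarith
  have hg : (Nat.gcd v w : ℝ) = (v : ℝ) * w * (δ v + δ w) / (scaleOf δ v w + scaleOf δ w v) := by
    rw [eq_div_iff hD.ne']
    unfold scaleOf
    rw [Nat.lcm_comm w v]
    linear_combination (δ v + δ w) * hgl
  rw [hg]
  calc 2 * min (δ v) (δ w) * (2 * (δ v + δ w) * v * w
        + (v : ℝ) * w * (δ v + δ w) / (scaleOf δ v w + scaleOf δ w v))
      = (min (δ v) (δ w) * (δ v + δ w)) * ((v : ℝ) * w)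
          * (4 + 2 / (scaleOf δ v w + scaleOf δ w v)) := by ring
    _ ≤ (2 * (δ v * δ w)) * ((v : ℝ) * w) * (4 + 2 / (scaleOf δ v w + scaleOf δ w v)) := by gcongr
    _ ≤ _ := by
        have : (0 : ℝ) ≤ δ v * δ w * (v * w) * (4 / (scaleOf δ v w + scaleOf δ w v)) := by
          positivity
        ring_nf
        ring_nf at this
        linarith

/-- A vanishing determinant kills the pair. -/
lemma eq_one_of_delta_eq_zero {γ : ℝ} {δ : ℕ → ℝ} {v g s t : ℕ} (hv : 0 < v) (hvs : v = g * s)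
    (hst : Nat.Coprime s t) {a b : ℤ} (ha : Keep γ δ v a)
    (hΔ : ((t : ℤ) - s) * numA γ δ v + (a * t - b * s) * (denB γ δ v : ℤ) = 0) : s = 1 := by
  by_contra hne
  obtain ⟨p, hp, hps⟩ := Nat.exists_prime_and_dvd hne
  set A := numA γ δ v
  set B := denB γ δ v
  have hps' : (p : ℤ) ∣ (s : ℤ) := Int.natCast_dvd_natCast.2 hps
  have hpP : Prime (p : ℤ) := Nat.prime_iff_prime_int.1 hp
  have hpt : ¬ (p : ℤ) ∣ (t : ℤ) := fun h =>
    hp.one_lt.ne' (Nat.eq_one_of_dvd_coprimes hst hps (Int.natCast_dvd_natCast.1 h))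
  have key : (p : ℤ) ∣ (t : ℤ) * (A + a * (B : ℤ)) := by
    have : (t : ℤ) * (A + a * (B : ℤ)) = (s : ℤ) * (A + b * B) := by linear_combination hΔ
    rw [this]
    exact hps'.mul_right _
  have key2 := (hpP.dvd_or_dvd key).resolve_left hpt
  by_cases hB : p ∣ B
  · have hB' : (p : ℤ) ∣ (B : ℤ) := Int.natCast_dvd_natCast.2 hB
    have hA : (p : ℤ) ∣ A := by simpa using dvd_sub key2 (hB'.mul_left a)
    have := (isCoprime_numA_denB γ δ v).isUnit_of_dvd' hA hB'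
    exact hp.one_lt.ne' (by simpa [Int.isUnit_iff_natAbs_eq] using this)
  · refine ha p (mem_filter.2 ⟨Nat.mem_primeFactors.2 ⟨hp, ?_, hv.ne'⟩, hB⟩) ?_
    · rw [hvs]
      exact hps.mul_left g
    · rwa [add_comm] at key2

lemma rpow_le_quarter {y c : ℝ} (hy : 0 < y) (hy20 : y ≤ 1 / 2 ^ 20) (hc : 1 / 10 ≤ c) :
    y ^ c ≤ 1 / 4 := by
  have hy1 : y ≤ 1 := hy20.trans (by norm_num)
  calc y ^ c ≤ y ^ (1 / 10 : ℝ) := Real.rpow_le_rpow_of_exponent_ge hy hy1 hc
    _ ≤ (1 / 2 ^ 20 : ℝ) ^ (1 / 10 : ℝ) := Real.rpow_le_rpow hy.le hy20 (by norm_num)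
    _ = 1 / 4 := by
        rw [show (1 / 2 ^ 20 : ℝ) = (1 / 4) ^ (10 : ℕ) by norm_num, ← Real.rpow_natCast,
          ← Real.rpow_mul (by norm_num)]
        norm_num

/-- The determinant of a structured coincidence vanishes. -/
lemma delta_eq_zero (γ : ℝ) {δ : ℕ → ℝ} (hδ : Radii δ) {v : ℕ} {y t X : ℝ} {u k : ℤ}
    (hv : 0 < (v : ℝ) * δ v) (hy : 0 < y) (hy20 : y ≤ 1 / 2 ^ 20) (ht : 1 ≤ t) (htX : t ≤ X)
    (hhi : t * ((v : ℝ) * δ v) ≤ y) (hlo : y ^ (11 / 10 : ℝ) ≤ t * ((v : ℝ) * δ v))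
    (hk : |(k : ℝ) + γ * u| < 2 * y) (hu : |(u : ℝ)| ≤ X)
    (hX : X ≤ y ^ (-(1 / 5) : ℝ) ∨ Structured γ y X) :
    u * numA γ δ v + k * (denB γ δ v : ℤ) = 0 := by
  set ψ := (v : ℝ) * δ v
  have hψy : ψ ≤ y := le_trans (le_mul_of_one_le_left hv.le ht) hhi
  have hψ1 : ψ ≤ 1 := hψy.trans (hy20.trans (by norm_num))
  obtain ⟨hB, hη⟩ := approx_bounds γ hv hψ1
  set A := numA γ δ v
  set B := denB γ δ v
  have hX0 : 0 ≤ X := le_trans (by linarith) htX
  have hu3 : ψ ^ (1 / 3 : ℝ) ≤ y ^ (1 / 3 : ℝ) := Real.rpow_le_rpow hv.le hψy (by norm_num)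
  rcases hX with hX | ⟨A', B', hB'0, hco, hB', hη', hXη⟩
  · have key : |((u * A + k * (B : ℤ) : ℤ) : ℝ)| < 1 := by
      have e : ((u * A + k * (B : ℤ) : ℤ) : ℝ)
          = (B : ℝ) * ((k : ℝ) + γ * u) - u * ((B : ℝ) * γ - A) := by push_cast; ring
      rw [e]
      refine lt_of_le_of_lt (abs_sub _ _) ?_
      rw [abs_mul, abs_mul, Nat.abs_cast]
      have hψlo : y ^ (13 / 10 : ℝ) ≤ ψ := by
        calc y ^ (13 / 10 : ℝ) = y ^ (11 / 10 : ℝ) * y ^ (1 / 5 : ℝ) := by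
              rw [← Real.rpow_add hy]; norm_num
          _ ≤ (t * ψ) * y ^ (1 / 5 : ℝ) :=
              mul_le_mul_of_nonneg_right hlo (Real.rpow_nonneg hy.le _)
          _ = ψ * (t * y ^ (1 / 5 : ℝ)) := by ring
          _ ≤ ψ * (y ^ (-(1 / 5) : ℝ) * y ^ (1 / 5 : ℝ)) :=
              mul_le_mul_of_nonneg_left (mul_le_mul_of_nonneg_right (htX.trans hX)
                (Real.rpow_nonneg hy.le _)) hv.le
          _ = ψ := by rw [← Real.rpow_add hy]; simp
      have h1 : (B : ℝ) * |(k : ℝ) + γ * u| ≤ 2 * y ^ (17 / 30 : ℝ) := by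
        calc (B : ℝ) * |(k : ℝ) + γ * u| ≤ (y ^ (13 / 10 : ℝ)) ^ (-(1 / 3) : ℝ) * (2 * y) :=
              mul_le_mul (hB.trans (Real.rpow_le_rpow_of_nonpos (Real.rpow_pos_of_pos hy _) hψlo
                (by norm_num))) hk.le (abs_nonneg _) (Real.rpow_nonneg (Real.rpow_nonneg hy.le _) _)
          _ = 2 * (y ^ (-(13 / 30) : ℝ) * y ^ (1 : ℝ)) := by
              rw [← Real.rpow_mul hy.le, Real.rpow_one]; norm_num; ring
          _ = _ := by rw [← Real.rpow_add hy]; norm_num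
      have h2 : |(u : ℝ)| * |(B : ℝ) * γ - A| ≤ y ^ (2 / 15 : ℝ) := by
        calc |(u : ℝ)| * |(B : ℝ) * γ - A| ≤ y ^ (-(1 / 5) : ℝ) * y ^ (1 / 3 : ℝ) :=
              mul_le_mul (hu.trans hX) (hη.trans hu3) (abs_nonneg _) (Real.rpow_nonneg hy.le _)
          _ = _ := by rw [← Real.rpow_add hy]; norm_num
      have := rpow_le_quarter hy hy20 (c := 17 / 30) (by norm_num)
      have := rpow_le_quarter hy hy20 (c := 2 / 15) (by norm_num)
      linarith
    exact Int.abs_lt_one_iff.1 (by exact_mod_cast key)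
  · have hB'R : (0 : ℝ) ≤ B' := Nat.cast_nonneg B'
    have hp := rpow_le_quarter hy hy20 (c := 9 / 10) (by norm_num)
    -- the structured approximation kills `(u, k)`
    have key : |((u * A' + k * (B' : ℤ) : ℤ) : ℝ)| < 1 := by
      have e : ((u * A' + k * (B' : ℤ) : ℤ) : ℝ)
          = (B' : ℝ) * ((k : ℝ) + γ * u) - u * ((B' : ℝ) * γ - A') := by push_cast; ring
      rw [e]
      refine lt_of_le_of_lt (abs_sub _ _) ?_
      rw [abs_mul, abs_mul, Nat.abs_cast]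
      have h1 : (B' : ℝ) * |(k : ℝ) + γ * u| ≤ 2 * y ^ (9 / 10 : ℝ) := by
        calc (B' : ℝ) * |(k : ℝ) + γ * u| ≤ y ^ (-(1 / 10) : ℝ) * (2 * y ^ (1 : ℝ)) :=
              mul_le_mul hB' (by rw [Real.rpow_one]; exact hk.le) (abs_nonneg _)
                (Real.rpow_nonneg hy.le _)
          _ = 2 * (y ^ (-(1 / 10) : ℝ) * y ^ (1 : ℝ)) := by ring
          _ = _ := by rw [← Real.rpow_add hy]; norm_num
      have h2 : |(u : ℝ)| * |(B' : ℝ) * γ - A'| ≤ X * |(B' : ℝ) * γ - A'| :=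
        mul_le_mul_of_nonneg_right hu (abs_nonneg _)
      linarith
    have h0 : u * A' + k * (B' : ℤ) = 0 := Int.abs_lt_one_iff.1 (by exact_mod_cast key)
    -- and it is the approximation attached to `v`
    have same : |(((B : ℤ) * A' - (B' : ℤ) * A : ℤ) : ℝ)| < 1 := by
      have e : (((B : ℤ) * A' - (B' : ℤ) * A : ℤ) : ℝ)
          = (B' : ℝ) * ((B : ℝ) * γ - A) - (B : ℝ) * ((B' : ℝ) * γ - A') := by push_cast; ring
      rw [e]
      refine lt_of_le_of_lt (abs_sub _ _) ?_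
      rw [abs_mul, abs_mul, Nat.abs_cast, Nat.abs_cast]
      have h1 : (B' : ℝ) * |(B : ℝ) * γ - A| ≤ 1 / 4 := by
        calc (B' : ℝ) * |(B : ℝ) * γ - A| ≤ y ^ (-(1 / 10) : ℝ) * y ^ (1 / 3 : ℝ) :=
              mul_le_mul hB' (hη.trans hu3) (abs_nonneg _) (Real.rpow_nonneg hy.le _)
          _ = y ^ (7 / 30 : ℝ) := by rw [← Real.rpow_add hy]; norm_num
          _ ≤ _ := rpow_le_quarter hy hy20 (by norm_num)
      set η' := |(B' : ℝ) * γ - A'| with hη'def
      have h2 : (B : ℝ) * η' < 1 / 2 + 1 / 8 := by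
        have hη'0 : 0 ≤ η' := abs_nonneg _
        have htη : t * η' ≤ 1 / 4 := by
          have := mul_le_mul_of_nonneg_right htX hη'0
          linarith
        have hB3 : (B : ℝ) ^ 3 * ψ ≤ 1 := by
          have h := pow_le_pow_left₀ (Nat.cast_nonneg B) hB 3
          rw [← Real.rpow_natCast (ψ ^ (-(1 / 3) : ℝ)) 3, ← Real.rpow_mul hv.le,
            show (-(1 / 3) : ℝ) * ((3 : ℕ) : ℝ) = -1 by norm_num, Real.rpow_neg_one] at h
          calc (B : ℝ) ^ 3 * ψ ≤ ψ⁻¹ * ψ := mul_le_mul_of_nonneg_right h hv.le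
            _ = 1 := inv_mul_cancel₀ hv.ne'
        have ht0 : 0 < t := by linarith
        have h11 : 0 < y ^ (11 / 10 : ℝ) := Real.rpow_pos_of_pos hy _
        have h3 : ((B : ℝ) * η') ^ 3 * y ^ (11 / 10 : ℝ) ≤ 4 * y ^ 2 := by
          calc ((B : ℝ) * η') ^ 3 * y ^ (11 / 10 : ℝ) ≤ ((B : ℝ) * η') ^ 3 * (t * ψ) :=
                mul_le_mul_of_nonneg_left hlo (by positivity)
            _ = ((B : ℝ) ^ 3 * ψ) * ((t * η') * η' ^ 2) := by ring
            _ ≤ 1 * ((1 / 4) * (4 * y) ^ 2) := by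
                refine mul_le_mul hB3 (mul_le_mul htη (pow_le_pow_left₀ hη'0 hη'.le 2)
                  (sq_nonneg _) (by norm_num)) (by positivity) zero_le_one
            _ = 4 * y ^ 2 := by ring
        have e9 : y ^ 2 = y ^ (9 / 10 : ℝ) * y ^ (11 / 10 : ℝ) := by
          rw [← Real.rpow_add hy]; norm_num
        rw [e9, ← mul_assoc] at h3
        have h4 := le_of_mul_le_mul_right h3 h11
        by_contra hc
        rw [not_lt] at hc
        have h5 := pow_le_pow_left₀ (by norm_num) hc 3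
        have h6 : y ^ (9 / 10 : ℝ) ≤ y ^ (1 / 2 : ℝ) :=
          Real.rpow_le_rpow_of_exponent_ge hy (hy20.trans (by norm_num)) (by norm_num)
        have h7 : y ^ (1 / 2 : ℝ) ≤ 1 / 1024 := by
          calc y ^ (1 / 2 : ℝ) ≤ (1 / 2 ^ 20 : ℝ) ^ (1 / 2 : ℝ) :=
                Real.rpow_le_rpow hy.le hy20 (by norm_num)
            _ = 1 / 1024 := by
                rw [show (1 / 2 ^ 20 : ℝ) = (1 / 1024) ^ (2 : ℕ) by norm_num, ← Real.rpow_natCast,
                  ← Real.rpow_mul (by norm_num)]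
                norm_num
        norm_num at h5
        linarith
      linarith
    have h1 : (B : ℤ) * A' = (B' : ℤ) * A := by
      have := Int.abs_lt_one_iff.1 (by exact_mod_cast same : |(B : ℤ) * A' - (B' : ℤ) * A| < 1)
      linarith
    have hBB' : (B : ℤ) = B' := by
      have hcA : IsCoprime A (B : ℤ) := isCoprime_numA_denB γ δ v
      have d1 : (B : ℤ) ∣ (B' : ℤ) := hcA.symm.dvd_of_dvd_mul_right ⟨A', h1.symm⟩
      have d2 : (B' : ℤ) ∣ (B : ℤ) := hco.symm.dvd_of_dvd_mul_right ⟨A, h1⟩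
      exact Int.dvd_antisymm (by positivity) (by positivity) d1 d2
    have hAA' : A = A' := by
      rw [← hBB'] at h1
      exact (mul_left_cancel₀ (by exact_mod_cast (denB_pos γ δ v).ne') h1).symm
    rw [hAA', hBB']
    exact h0

/-- A balanced coincidence of small scale has its pattern in `patSet`. -/
theorem pattern_mem_patSet (γ : ℝ) {δ : ℕ → ℝ} (hδ : Radii δ) {v w N : ℕ} (hvw : v ≠ w)
    (hv : 0 < δ v) (hw : 0 < δ w) (hvN : v ≤ N) (hwN : w ≤ N) (hov : overlap γ δ v w ≠ 0)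
    {y : ℝ} (hy : 0 < y) (hy20 : y ≤ 1 / 2 ^ 20)
    (h1 : scaleOf δ v w ≤ y) (h1' : y ^ (11 / 10 : ℝ) ≤ scaleOf δ v w)
    (h2 : scaleOf δ w v ≤ y) (h2' : y ^ (11 / 10 : ℝ) ≤ scaleOf δ w v) :
    pattern (v, w) ∈ patSet γ y N := by
  classical
  have hv0 : 0 < v := Nat.pos_of_ne_zero fun h => by rw [h, hδ.1] at hv; exact lt_irrefl 0 hv
  have hw0 : 0 < w := Nat.pos_of_ne_zero fun h => by rw [h, hδ.1] at hw; exact lt_irrefl 0 hw
  obtain ⟨a, b, ha, hb, hab⟩ := exists_keptPair_of_overlap γ hδ hv0 hw0 hov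
  set g := Nat.gcd v w with hg
  have hg0 : 0 < g := Nat.gcd_pos_of_pos_left _ hv0
  set s := v / g with hs
  set t := w / g with ht
  have hvs : v = g * s := (Nat.mul_div_cancel' (Nat.gcd_dvd_left v w)).symm
  have hwt : w = g * t := (Nat.mul_div_cancel' (Nat.gcd_dvd_right v w)).symm
  have hst : Nat.Coprime s t := Nat.coprime_div_gcd_div_gcd hg0
  have hs0 : 0 < s := Nat.pos_of_ne_zero fun h => by rw [h, mul_zero] at hvs; omega
  have ht0 : 0 < t := Nat.pos_of_ne_zero fun h => by rw [h, mul_zero] at hwt; omega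
  have hlcm : Nat.lcm v w = g * s * t := by
    refine Nat.eq_of_mul_eq_mul_left hg0 ?_
    rw [hg, Nat.gcd_mul_lcm, ← hg]
    conv_lhs => rw [hvs, hwt]
    ring
  have hsR : (1 : ℝ) ≤ s := by exact_mod_cast hs0
  have htR : (1 : ℝ) ≤ t := by exact_mod_cast ht0
  have hgR : (0 : ℝ) < g := by exact_mod_cast hg0
  have hvR : (v : ℝ) = g * s := by exact_mod_cast hvs
  have hwR : (w : ℝ) = g * t := by exact_mod_cast hwt
  have e1 : scaleOf δ v w = (t : ℝ) * ((v : ℝ) * δ v) := by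
    rw [scaleOf, hlcm, hvR]; push_cast; ring
  have e2 : scaleOf δ w v = (s : ℝ) * ((w : ℝ) * δ w) := by
    rw [scaleOf, Nat.lcm_comm, hlcm, hwR]; push_cast; ring
  set u : ℤ := (t : ℤ) - s with hu
  set k : ℤ := a * t - b * s with hk
  have hkb : |(k : ℝ) + γ * u| < 2 * y := by
    have hpos : (0 : ℝ) < g * s * t := by positivity
    have e : ((a : ℝ) + γ) / v - ((b : ℝ) + γ) / w = ((k : ℝ) + γ * u) / (g * s * t) := by
      rw [hk, hu, hvR, hwR]
      push_cast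
      field_simp
      ring
    rw [e, abs_div, abs_of_pos hpos, div_lt_iff₀ hpos] at hab
    calc |(k : ℝ) + γ * u| < (δ v + δ w) * (g * s * t) := hab
      _ = scaleOf δ v w + scaleOf δ w v := by rw [e1, e2, hvR, hwR]; ring
      _ ≤ 2 * y := by linarith
  set X := max (s : ℝ) t with hX
  have huX : |(u : ℝ)| ≤ X := by
    rw [hu]
    push_cast
    rw [abs_le]
    have := le_max_left (s : ℝ) t
    have := le_max_right (s : ℝ) t
    constructor <;> linarith
  have hpat : pattern (v, w) = (s, t) := rfl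
  rw [hpat]
  by_contra hnot
  have hX' : X ≤ y ^ (-(1 / 5) : ℝ) ∨ Structured γ y X := by
    by_contra h
    push Not at h
    refine hnot (mem_filter.2 ⟨mem_product.2 ⟨Finset.mem_Icc.2 ⟨hs0, ?_⟩,
      Finset.mem_Icc.2 ⟨ht0, ?_⟩⟩, h.1, ⟨k, ?_⟩, h.2⟩)
    · exact (Nat.div_le_self v g).trans hvN
    · exact (Nat.div_le_self w g).trans hwN
    · have : (u : ℝ) = (t : ℝ) - s := by rw [hu]; push_cast; ring
      rw [← this]
      exact hkb
  have hψv : 0 < (v : ℝ) * δ v := mul_pos (by exact_mod_cast hv0) hv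
  have hψw : 0 < (w : ℝ) * δ w := mul_pos (by exact_mod_cast hw0) hw
  have d1 := delta_eq_zero γ hδ hψv hy hy20 htR (le_max_right _ _) (e1 ▸ h1) (e1 ▸ h1') hkb huX hX'
  have d2 := delta_eq_zero γ hδ (u := -u) (k := -k) hψw hy hy20 hsR (le_max_left _ _) (e2 ▸ h2)
    (e2 ▸ h2') (by
      rw [← abs_neg]
      convert hkb using 2
      push_cast
      ring) (by push_cast; rwa [abs_neg]) hX'
  have s1 : s = 1 := eq_one_of_delta_eq_zero hv0 hvs hst ha (b := b) (by rw [hk, hu] at d1; exact d1)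
  have t1 : t = 1 := eq_one_of_delta_eq_zero hw0 hwt hst.symm hb (b := a) (by
    rw [hk, hu] at d2
    linear_combination d2)
  exact hvw (by rw [hvs, hwt, s1, t1])

end Vale.Agent.P028.ExtraLog
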