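import Mathlib

/-!
# Elementary prime sums

Chebyshev-type bounds from `primorial_le_4_pow`, and an Euler product bound for sums of
multiplicative functions.
-/

namespace Vale.Agent.P028.ExtraLog

open Finset

/-- The primes in `(2 ^ i, 2 ^ (i + 1)]` number at most `4 * 2 ^ i / i`. -/
lemma card_band_le (i : ℕ) (P : Finset ℕ) (hP : ∀ p ∈ P, p.Prime)
    (h1 : ∀ p ∈ P, 2 ^ i < p) (h2 : ∀ p ∈ P, p ≤ 2 ^ (i + 1)) :
    P.card * i ≤ 4 * 2 ^ i := by
  have hsub : ∏ p ∈ P, p ≤ primorial (2 ^ (i + 1)) := by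
    refine Finset.prod_le_prod_of_subset_of_one_le' ?_ ?_
    · intro p hp
      exact mem_filter.2 ⟨mem_range.2 (Nat.lt_succ_of_le (h2 p hp)), hP p hp⟩
    · intro p hp _
      exact (mem_filter.1 hp).2.one_le
  have hlow : (2 ^ i) ^ P.card ≤ ∏ p ∈ P, p := by
    rw [← prod_const]
    exact prod_le_prod' fun p hp => (h1 p hp).le
  have hup := primorial_le_4_pow (2 ^ (i + 1))
  have h : (2 : ℕ) ^ (i * P.card) ≤ 2 ^ (2 * 2 ^ (i + 1)) := by
    rw [pow_mul]
    refine (hlow.trans (hsub.trans hup)).trans (le_of_eq ?_)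
    rw [show (4 : ℕ) = 2 ^ 2 by norm_num, ← pow_mul]
  have h' := (Nat.pow_le_pow_iff_right (by norm_num : 1 < 2)).1 h
  rw [pow_succ] at h'
  linarith

/-- The reciprocal sum over one band. -/
lemma sum_band_inv_le (i : ℕ) (hi : 0 < i) (P : Finset ℕ) (hP : ∀ p ∈ P, p.Prime)
    (h1 : ∀ p ∈ P, 2 ^ i < p) (h2 : ∀ p ∈ P, p ≤ 2 ^ (i + 1)) :
    ∑ p ∈ P, 1 / (p : ℝ) ≤ 4 / i := by
  have hc : (P.card : ℝ) * i ≤ 4 * 2 ^ i := by exact_mod_cast card_band_le i P hP h1 h2
  have hi' : (0 : ℝ) < i := by exact_mod_cast hi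
  have h2i : (0 : ℝ) < 2 ^ i := by positivity
  calc ∑ p ∈ P, 1 / (p : ℝ) ≤ ∑ _p ∈ P, 1 / (2 : ℝ) ^ i :=
        sum_le_sum fun p hp => one_div_le_one_div_of_le h2i (by exact_mod_cast (h1 p hp).le)
    _ = P.card / (2 : ℝ) ^ i := by rw [sum_const, nsmul_eq_mul]; ring
    _ ≤ 4 / i := by rw [div_le_div_iff₀ h2i hi']; linarith

/-- The band of a prime. -/
def band (p : ℕ) : ℕ := Nat.log 2 (p - 1)

lemma band_spec {p : ℕ} (hp : p.Prime) : 2 ^ band p < p ∧ p ≤ 2 ^ (band p + 1) := by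
  have h2 := hp.two_le
  have h1 := Nat.pow_log_le_self 2 (x := p - 1) (by omega)
  have h3 := Nat.lt_pow_succ_log_self (b := 2) (by norm_num) (p - 1)
  refine ⟨?_, ?_⟩
  · show 2 ^ Nat.log 2 (p - 1) < p
    omega
  · show p ≤ 2 ^ (Nat.log 2 (p - 1) + 1)
    rw [Nat.succ_eq_add_one] at h3
    omega

lemma band_lt_of_le {p b : ℕ} (hp : p.Prime) (h : p ≤ 2 ^ b) : band p < b := by
  have := (band_spec hp).1
  exact (Nat.pow_lt_pow_iff_right (by norm_num : 1 < 2)).1 (lt_of_lt_of_le this h)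

lemma le_band_of_lt {p a : ℕ} (hp : p.Prime) (h : 2 ^ a < p) : a ≤ band p := by
  have := (band_spec hp).2
  have := (Nat.pow_lt_pow_iff_right (by norm_num : 1 < 2)).1 (lt_of_lt_of_le h this)
  omega

lemma sum_inv_band_eq (P : Finset ℕ) (hP : ∀ p ∈ P, p.Prime) (i : ℕ) (hi : 0 < i) :
    ∑ p ∈ P.filter (fun p => band p = i), 1 / (p : ℝ) ≤ 4 / i := by
  refine sum_band_inv_le i hi _ (fun p hp => hP p (mem_filter.1 hp).1) ?_ ?_ <;>
    intro p hp <;> obtain ⟨h1, rfl⟩ := mem_filter.1 hp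
  · exact (band_spec (hP p h1)).1
  · exact (band_spec (hP p h1)).2

/-- Primes in `(2 ^ a, 2 ^ b]`. -/
lemma sum_inv_primes_range (P : Finset ℕ) (hP : ∀ p ∈ P, p.Prime) (a b : ℕ) (ha : 0 < a)
    (h1 : ∀ p ∈ P, 2 ^ a < p) (h2 : ∀ p ∈ P, p ≤ 2 ^ b) :
    ∑ p ∈ P, 1 / (p : ℝ) ≤ 4 * b / a := by
  have haR : (0 : ℝ) < a := by exact_mod_cast ha
  rw [← sum_fiberwise_of_maps_to (g := band) (t := Finset.Ico a b) fun p hp =>
    mem_Ico.2 ⟨le_band_of_lt (hP p hp) (h1 p hp), band_lt_of_le (hP p hp) (h2 p hp)⟩]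
  calc ∑ i ∈ Finset.Ico a b, ∑ p ∈ P.filter (fun p => band p = i), 1 / (p : ℝ)
      ≤ ∑ _i ∈ Finset.Ico a b, 4 / (a : ℝ) := by
        refine sum_le_sum fun i hi => ?_
        have hai := (mem_Ico.1 hi).1
        refine (sum_inv_band_eq P hP i (by omega)).trans ?_
        gcongr
    _ ≤ 4 * b / a := by
        rw [sum_const, Nat.card_Ico, nsmul_eq_mul]
        have : ((b - a : ℕ) : ℝ) ≤ b := by exact_mod_cast Nat.sub_le b a
        calc ((b - a : ℕ) : ℝ) * (4 / a) ≤ b * (4 / a) :=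
              mul_le_mul_of_nonneg_right this (by positivity)
          _ = _ := by ring

lemma sum_inv_band_zero (P : Finset ℕ) (hP : ∀ p ∈ P, p.Prime) :
    ∑ p ∈ P.filter (fun p => band p = 0), 1 / (p : ℝ) ≤ 1 / 2 := by
  have hsub : P.filter (fun p => band p = 0) ⊆ {2} := by
    intro p hp
    obtain ⟨h1, h0⟩ := mem_filter.1 hp
    have h := (band_spec (hP p h1)).2
    rw [h0] at h
    have := (hP p h1).two_le
    exact mem_singleton.2 (by omega)
  refine (sum_le_sum_of_subset_of_nonneg hsub fun p _ _ => by positivity).trans ?_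
  simp

/-- Mertens' upper bound, weak form. -/
lemma sum_inv_primes_le (P : Finset ℕ) (hP : ∀ p ∈ P, p.Prime) (b : ℕ)
    (h2 : ∀ p ∈ P, p ≤ 2 ^ b) : ∑ p ∈ P, 1 / (p : ℝ) ≤ 5 + 4 * Real.log b := by
  rcases Nat.eq_zero_or_pos b with rfl | hb
  · have : P = ∅ := eq_empty_of_forall_notMem fun p hp => by
      have := h2 p hp
      have := (hP p hp).two_le
      simp at *
      omega
    simp [this]
  rw [← sum_fiberwise_of_maps_to (g := band) (t := range b) fun p hp =>
    mem_range.2 (band_lt_of_le (hP p hp) (h2 p hp)), range_eq_Ico,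
    sum_eq_sum_Ico_succ_bot hb]
  have h1 := sum_inv_band_zero P hP
  have h3 : ∑ i ∈ Finset.Ico (0 + 1) b, ∑ p ∈ P.filter (fun p => band p = i), 1 / (p : ℝ)
      ≤ 4 * (1 + Real.log b) := by
    calc ∑ i ∈ Finset.Ico (0 + 1) b, ∑ p ∈ P.filter (fun p => band p = i), 1 / (p : ℝ)
        ≤ ∑ i ∈ Finset.Icc 1 b, 4 / (i : ℝ) := by
          refine (sum_le_sum fun i hi => sum_inv_band_eq P hP i ?_).trans ?_
          · have := (mem_Ico.1 hi).1
            omega
          · exact sum_le_sum_of_subset_of_nonneg Ico_subset_Icc_self fun i _ _ => by positivity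
      _ = 4 * (harmonic b : ℝ) := by
          rw [harmonic_eq_sum_Icc]
          push_cast
          rw [mul_sum]
          simp [div_eq_mul_inv]
      _ ≤ _ := by linarith [harmonic_le_one_add_log b]
  linarith

/-- `∑ log p / p` up to `2 ^ b`. -/
lemma sum_log_div_le (P : Finset ℕ) (hP : ∀ p ∈ P, p.Prime) (b : ℕ)
    (h2 : ∀ p ∈ P, p ≤ 2 ^ b) : ∑ p ∈ P, Real.log p / (p : ℝ) ≤ 8 * b := by
  have hl2 : Real.log 2 ≤ 1 := by
    have := Real.log_le_sub_one_of_pos (show (0 : ℝ) < 2 by norm_num)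
    linarith
  rw [← sum_fiberwise_of_maps_to (g := band) (t := range b) fun p hp =>
    mem_range.2 (band_lt_of_le (hP p hp) (h2 p hp))]
  calc ∑ i ∈ range b, ∑ p ∈ P.filter (fun p => band p = i), Real.log p / (p : ℝ)
      ≤ ∑ _i ∈ range b, (8 : ℝ) := by
        refine sum_le_sum fun i _ => ?_
        calc ∑ p ∈ P.filter (fun p => band p = i), Real.log p / (p : ℝ)
            ≤ ∑ p ∈ P.filter (fun p => band p = i), ((i : ℝ) + 1) * (1 / (p : ℝ)) := by
              refine sum_le_sum fun p hp => ?_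
              obtain ⟨h1, rfl⟩ := mem_filter.1 hp
              have hp0 : (0 : ℝ) < p := by exact_mod_cast (hP p h1).pos
              rw [mul_one_div]
              refine div_le_div_of_nonneg_right ?_ hp0.le
              have hle : (p : ℝ) ≤ (2 : ℝ) ^ (band p + 1) := by
                exact_mod_cast (band_spec (hP p h1)).2
              have := Real.log_le_log hp0 hle
              rw [Real.log_pow] at this
              push_cast at this
              refine this.trans (mul_le_of_le_one_right (by positivity) hl2)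
          _ ≤ 8 := by
              rw [← mul_sum]
              rcases Nat.eq_zero_or_pos i with rfl | hi
              · have := sum_inv_band_zero P hP
                push_cast
                linarith
              · have h := sum_inv_band_eq P hP i hi
                have hi' : (1 : ℝ) ≤ i := by exact_mod_cast hi
                calc ((i : ℝ) + 1) * _ ≤ ((i : ℝ) + 1) * (4 / i) :=
                      mul_le_mul_of_nonneg_left h (by positivity)
                  _ ≤ 8 := by rw [mul_div_assoc', div_le_iff₀ (by linarith)]; linarith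
    _ = 8 * b := by rw [sum_const, card_range, nsmul_eq_mul, mul_comm]

lemma one_le_ratio' {p : ℕ} (hp : p.Prime) : (1 : ℝ) ≤ (p : ℝ) / ((p : ℝ) - 1) := by
  have h2 : (2 : ℝ) ≤ p := by exact_mod_cast hp.two_le
  rw [one_le_div (by linarith)]
  linarith

/-- `∏ p / (p - 1) ≤ exp (2 ∑ 1 / p)`. -/
lemma prod_ratio_le_exp (P : Finset ℕ) (hP : ∀ p ∈ P, p.Prime) :
    ∏ p ∈ P, (p : ℝ) / ((p : ℝ) - 1) ≤ Real.exp (2 * ∑ p ∈ P, 1 / (p : ℝ)) := by
  rw [mul_sum, Real.exp_sum]
  refine prod_le_prod (fun p hp => zero_le_one.trans (one_le_ratio' (hP p hp))) fun p hp => ?_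
  have h2 : (2 : ℝ) ≤ p := by exact_mod_cast (hP p hp).two_le
  refine le_trans ?_ (Real.add_one_le_exp _)
  rw [div_le_iff₀ (by linarith)]
  field_simp
  nlinarith

lemma totient_eq_prod (v : ℕ) :
    (Nat.totient v : ℝ) = v * ∏ p ∈ v.primeFactors, (1 - (p : ℝ)⁻¹) := by
  have := congrArg (fun x : ℚ => (x : ℝ)) (Nat.totient_eq_mul_prod_factors v)
  push_cast at this
  exact this

/-- `v ≤ φ v * exp (2 ∑_{p ∣ v} 1 / p)`. -/
lemma le_totient_mul_exp (v : ℕ) :
    (v : ℝ) ≤ Nat.totient v * Real.exp (2 * ∑ p ∈ v.primeFactors, 1 / (p : ℝ)) := by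
  rw [totient_eq_prod, mul_assoc]
  refine le_mul_of_one_le_right (Nat.cast_nonneg v) ?_
  have hp : ∀ p ∈ v.primeFactors, p.Prime := fun p hp => Nat.prime_of_mem_primeFactors hp
  have h1 : (∏ p ∈ v.primeFactors, (1 - (p : ℝ)⁻¹))
      * ∏ p ∈ v.primeFactors, (p : ℝ) / ((p : ℝ) - 1) = 1 := by
    rw [← prod_mul_distrib]
    refine prod_eq_one fun p h => ?_
    have h2 : (2 : ℝ) ≤ p := by exact_mod_cast (hp p h).two_le
    have : (p : ℝ) - 1 ≠ 0 := by linarith
    field_simp
  refine le_trans (le_of_eq h1.symm) (mul_le_mul_of_nonneg_left (prod_ratio_le_exp _ hp) ?_)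
  refine prod_nonneg fun p h => ?_
  have h2 : (2 : ℝ) ≤ p := by exact_mod_cast (hp p h).two_le
  rw [sub_nonneg]
  exact inv_le_one_of_one_le₀ (by linarith)

lemma card_primeFactors_le (v : ℕ) (L : ℕ) (hv : v ≤ 2 ^ L) : v.primeFactors.card ≤ L := by
  rcases Nat.eq_zero_or_pos v with rfl | hv0
  · simp
  refine (Nat.pow_le_pow_iff_right (by norm_num : 1 < 2)).1 (le_trans ?_ hv)
  refine le_trans ?_ (Nat.le_of_dvd hv0 (Nat.prod_primeFactors_dvd v))
  rw [← prod_const]
  exact prod_le_prod' fun p hp => (Nat.prime_of_mem_primeFactors hp).two_le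

/-- Prime reciprocals of `v ≤ 2 ^ L` above `2 ^ a`. -/
lemma sum_inv_primeFactors_gt (v L a : ℕ) (hv : v ≤ 2 ^ L) (ha : 0 < a) (b : ℕ) (hL : L ≤ 2 ^ b) :
    ∑ p ∈ v.primeFactors.filter (fun p => 2 ^ a < p), 1 / (p : ℝ) ≤ 4 * b / a + 1 := by
  rw [← sum_filter_add_sum_filter_not (v.primeFactors.filter fun p => 2 ^ a < p)
    (fun p => p ≤ 2 ^ b)]
  refine add_le_add (sum_inv_primes_range _ (fun p hp => Nat.prime_of_mem_primeFactors
    (mem_filter.1 (mem_filter.1 hp).1).1) a b ha (fun p hp =>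
    (mem_filter.1 (mem_filter.1 hp).1).2) fun p hp => (mem_filter.1 hp).2) ?_
  have h2b : (0 : ℝ) < 2 ^ b := by positivity
  calc ∑ p ∈ (v.primeFactors.filter fun p => 2 ^ a < p).filter (fun p => ¬ p ≤ 2 ^ b), 1 / (p : ℝ)
      ≤ ∑ _p ∈ (v.primeFactors.filter fun p => 2 ^ a < p).filter (fun p => ¬ p ≤ 2 ^ b),
          1 / (2 : ℝ) ^ b := sum_le_sum fun p hp => one_div_le_one_div_of_le h2b (by
            exact_mod_cast (not_le.1 (mem_filter.1 hp).2).le)
    _ ≤ (L : ℝ) * (1 / (2 : ℝ) ^ b) := by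
        rw [sum_const, nsmul_eq_mul]
        refine mul_le_mul_of_nonneg_right ?_ (by positivity)
        exact_mod_cast (card_le_card ((filter_subset _ _).trans (filter_subset _ _))).trans
          (card_primeFactors_le v L hv)
    _ ≤ 1 := by
        rw [mul_one_div, div_le_one h2b]
        exact_mod_cast hL

/-- Prime reciprocals of `v ≤ 2 ^ L`. -/
lemma sum_inv_primeFactors_le (v L b : ℕ) (hv : v ≤ 2 ^ L) (hL : L ≤ 2 ^ b) :
    ∑ p ∈ v.primeFactors, 1 / (p : ℝ) ≤ 6 + 4 * Real.log b := by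
  rw [← sum_filter_add_sum_filter_not v.primeFactors (fun p => p ≤ 2 ^ b)]
  have h1 := sum_inv_primes_le (v.primeFactors.filter fun p => p ≤ 2 ^ b)
    (fun p hp => Nat.prime_of_mem_primeFactors (mem_filter.1 hp).1) b
    (fun p hp => (mem_filter.1 hp).2)
  have h2b : (0 : ℝ) < 2 ^ b := by positivity
  have h2 : ∑ p ∈ v.primeFactors.filter (fun p => ¬ p ≤ 2 ^ b), 1 / (p : ℝ) ≤ 1 := by
    calc ∑ p ∈ v.primeFactors.filter (fun p => ¬ p ≤ 2 ^ b), 1 / (p : ℝ)
        ≤ ∑ _p ∈ v.primeFactors.filter (fun p => ¬ p ≤ 2 ^ b), 1 / (2 : ℝ) ^ b :=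
          sum_le_sum fun p hp => one_div_le_one_div_of_le h2b (by
            exact_mod_cast (not_le.1 (mem_filter.1 hp).2).le)
      _ ≤ (L : ℝ) * (1 / (2 : ℝ) ^ b) := by
          rw [sum_const, nsmul_eq_mul]
          refine mul_le_mul_of_nonneg_right ?_ (by positivity)
          exact_mod_cast (card_le_card (filter_subset _ _)).trans (card_primeFactors_le v L hv)
      _ ≤ 1 := by
          rw [mul_one_div, div_le_one h2b]
          exact_mod_cast hL
  linarith

/-- Euler's product bound. -/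
lemma sum_le_euler (f : ℕ → ℝ) (h0 : ∀ n, 0 ≤ f n) (hf1 : f 1 = 1)
    (hmul : ∀ m n : ℕ, Nat.Coprime m n → f (m * n) = f m * f n) (N : ℕ) (S : Finset ℕ)
    (hS : ∀ p ∈ S, p.Prime) :
    ∑ n ∈ (Finset.Icc 1 N).filter (fun n => n.primeFactors ⊆ S), f n
      ≤ ∏ p ∈ S, ∑ k ∈ range (N + 1), f (p ^ k) := by
  classical
  induction S using Finset.induction_on with
  | empty =>
    rw [prod_empty]
    refine le_trans (sum_le_sum_of_subset_of_nonneg (t := {1}) ?_ fun n _ _ => h0 n)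
      (by simp [hf1])
    intro n hn
    obtain ⟨h1, h2⟩ := mem_filter.1 hn
    rw [subset_empty, Nat.primeFactors_eq_empty] at h2
    have := (Finset.mem_Icc.1 h1).1
    exact mem_singleton.2 (by omega)
  | insert p S hpS ih =>
    have hp := hS p (mem_insert_self p S)
    have ih' := ih fun q hq => hS q (mem_insert_of_mem hq)
    rw [prod_insert hpS]
    refine le_trans ?_ (mul_le_mul_of_nonneg_left ih' (sum_nonneg fun k _ => h0 _))
    rw [sum_mul_sum, ← sum_product']
    set T := (range (N + 1)) ×ˢ (Finset.Icc 1 N).filter (fun n => n.primeFactors ⊆ S)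
    set D := (Finset.Icc 1 N).filter (fun n => n.primeFactors ⊆ insert p S)
    set φ : ℕ → ℕ × ℕ := fun n => (n.factorization p, n / p ^ n.factorization p)
    calc ∑ n ∈ D, f n = ∑ n ∈ D, f (p ^ (φ n).1) * f (φ n).2 := by
          refine sum_congr rfl fun n hn => ?_
          have hn0 : n ≠ 0 := by
            have := (Finset.mem_Icc.1 (mem_filter.1 hn).1).1
            omega
          rw [← hmul _ _ ((Nat.coprime_ordCompl hp hn0).pow_left _)]
          exact congrArg f (Nat.ordProj_mul_ordCompl_eq_self n p).symm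
      _ = ∑ q ∈ D.image φ, f (p ^ q.1) * f q.2 := by
          rw [sum_image]
          intro a _ c _ hac
          simp only [φ, Prod.mk.injEq] at hac
          rw [← Nat.ordProj_mul_ordCompl_eq_self a p, ← Nat.ordProj_mul_ordCompl_eq_self c p,
            hac.1]
          rw [hac.1] at hac
          rw [hac.2]
      _ ≤ ∑ q ∈ T, f (p ^ q.1) * f q.2 := by
          refine sum_le_sum_of_subset_of_nonneg ?_ fun q _ _ => mul_nonneg (h0 _) (h0 _)
          intro q hq
          obtain ⟨n, hn, rfl⟩ := mem_image.1 hq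
          obtain ⟨hnI, hnS⟩ := mem_filter.1 hn
          obtain ⟨hn1, hnN⟩ := Finset.mem_Icc.1 hnI
          have hn0 : n ≠ 0 := by omega
          refine mem_product.2 ⟨mem_range.2 ?_, mem_filter.2 ⟨Finset.mem_Icc.2
            ⟨Nat.ordCompl_pos p hn0, (Nat.ordCompl_le n p).trans hnN⟩, ?_⟩⟩
          · have := Nat.factorization_lt p hn0
            show n.factorization p < N + 1
            omega
          · intro l hl
            have hl' := Nat.primeFactors_mono (Nat.ordCompl_dvd n p) hn0 hl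
            rcases mem_insert.1 (hnS hl') with rfl | h
            · exact absurd (Nat.dvd_of_mem_primeFactors hl) (Nat.not_dvd_ordCompl hp hn0)
            · exact h

end Vale.Agent.P028.ExtraLog
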