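import Mathlib
import Vale.Agent.P028.Count

/-!
# Selberg's weights for a product of two sieves over pairs of nearby centres
-/

namespace Vale.Agent.P028.ExtraLog

open Finset

/-- The product of a set of primes. -/
noncomputable def prodP (T : Finset ℕ) : ℝ := ∏ p ∈ T, (p : ℝ)

/-- Euler's function of a product of distinct primes. -/
noncomputable def phiP (T : Finset ℕ) : ℝ := ∏ p ∈ T, ((p : ℝ) - 1)

/-- The sieve support. -/
noncomputable def sieveSet (P : Finset ℕ) (z : ℝ) : Finset (Finset ℕ) :=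
  P.powerset.filter fun T => prodP T ≤ z

/-- Selberg's normalising sum. -/
noncomputable def sieveG (P : Finset ℕ) (z : ℝ) : ℝ := ∑ U ∈ sieveSet P z, 1 / phiP U

/-- Selberg's weights. -/
noncomputable def lam (P : Finset ℕ) (z : ℝ) (T : Finset ℕ) : ℝ :=
  prodP T * (-1) ^ T.card / sieveG P z * ∑ U ∈ (sieveSet P z).filter (fun U => T ⊆ U), 1 / phiP U

variable {P : Finset ℕ} {z : ℝ}

lemma prodP_pos {T : Finset ℕ} (hT : ∀ p ∈ T, p.Prime) : 0 < prodP T :=
  prod_pos fun p hp => by exact_mod_cast (hT p hp).pos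

lemma phiP_pos {T : Finset ℕ} (hT : ∀ p ∈ T, p.Prime) : 0 < phiP T := by
  refine prod_pos fun p hp => ?_
  have : (2 : ℝ) ≤ p := by exact_mod_cast (hT p hp).two_le
  linarith

lemma prodP_eq_natCast (T : Finset ℕ) : prodP T = ((∏ p ∈ T, p : ℕ) : ℝ) := by
  unfold prodP; push_cast; rfl

lemma empty_mem_sieveSet (P : Finset ℕ) (hz : 1 ≤ z) : ∅ ∈ sieveSet P z :=
  mem_filter.2 ⟨mem_powerset.2 (empty_subset P), by simpa [prodP] using hz⟩

lemma mem_sieveSet_prime (hP : ∀ p ∈ P, p.Prime) {T : Finset ℕ} (hT : T ∈ sieveSet P z) :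
    ∀ p ∈ T, p.Prime := fun p hp => hP p (mem_powerset.1 (mem_filter.1 hT).1 hp)

lemma one_le_sieveG (hP : ∀ p ∈ P, p.Prime) (hz : 1 ≤ z) : 1 ≤ sieveG P z := by
  refine le_trans (le_of_eq ?_) (single_le_sum
    (fun U hU => (one_div_pos.2 (phiP_pos (mem_sieveSet_prime hP hU))).le)
    (empty_mem_sieveSet P hz))
  simp [phiP]

lemma sieveG_pos (hP : ∀ p ∈ P, p.Prime) (hz : 1 ≤ z) : 0 < sieveG P z :=
  zero_lt_one.trans_le (one_le_sieveG hP hz)

lemma lam_empty (hP : ∀ p ∈ P, p.Prime) (hz : 1 ≤ z) : lam P z ∅ = 1 := by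
  have := (sieveG_pos hP hz).ne'
  simp [lam, prodP, sieveG]
  exact inv_mul_cancel₀ (by simpa [sieveG] using this)

lemma prodP_le_of_subset {T U : Finset ℕ} (h : T ⊆ U) (hU : ∀ p ∈ U, p.Prime) :
    prodP T ≤ prodP U :=
  prod_le_prod_of_subset_of_one_le h (fun p _ => Nat.cast_nonneg p)
    fun p hp _ => by exact_mod_cast (hU p hp).one_le

lemma lam_eq_zero (hP : ∀ p ∈ P, p.Prime) {T : Finset ℕ} (hT : T ⊆ P) (h : T ∉ sieveSet P z) :
    lam P z T = 0 := by
  have : (sieveSet P z).filter (fun U => T ⊆ U) = ∅ := filter_eq_empty_iff.2 fun U hU hTU => h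
    (mem_filter.2 ⟨mem_powerset.2 hT,
      (prodP_le_of_subset hTU (mem_sieveSet_prime hP hU)).trans (mem_filter.1 hU).2⟩)
  simp [lam, this]

lemma abs_lam_le (hP : ∀ p ∈ P, p.Prime) (hz : 1 ≤ z) {T : Finset ℕ} (hT : T ⊆ P) :
    |lam P z T| ≤ prodP T := by
  have hG := sieveG_pos hP hz
  have hpos : ∀ U ∈ sieveSet P z, (0 : ℝ) ≤ 1 / phiP U := fun U hU =>
    (one_div_pos.2 (phiP_pos (mem_sieveSet_prime hP hU))).le
  have h0 : 0 ≤ ∑ U ∈ (sieveSet P z).filter (fun U => T ⊆ U), 1 / phiP U :=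
    sum_nonneg fun U hU => hpos U (mem_filter.1 hU).1
  rw [lam, abs_mul, abs_div, abs_mul, abs_of_pos (prodP_pos fun p hp => hP p (hT hp)),
    abs_neg_one_pow, mul_one, abs_of_pos hG, abs_of_nonneg h0, div_mul_eq_mul_div,
    div_le_iff₀ hG]
  exact mul_le_mul_of_nonneg_left
    (sum_le_sum_of_subset_of_nonneg (filter_subset _ _) fun U hU _ => hpos U hU)
    (prodP_pos fun p hp => hP p (hT hp)).le

lemma alternating_between {U W : Finset ℕ} (h : U ⊆ W) :
    ∑ T ∈ W.powerset.filter (fun T => U ⊆ T), (-1 : ℝ) ^ T.card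
      = if W = U then (-1) ^ U.card else 0 := by
  have e : W.powerset.filter (fun T => U ⊆ T) = (W \ U).powerset.image (fun R => U ∪ R) := by
    ext T
    simp only [mem_filter, mem_powerset, mem_image]
    constructor
    · rintro ⟨h1, h2⟩
      exact ⟨T \ U, sdiff_subset_sdiff h1 (Subset.refl U), union_sdiff_of_subset h2⟩
    · rintro ⟨R, hR, rfl⟩
      exact ⟨union_subset h (hR.trans sdiff_subset), subset_union_left⟩
  have hdisj : ∀ R ∈ (W \ U).powerset, Disjoint U R := fun R hR =>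
    disjoint_left.2 fun x hx hxR => (mem_sdiff.1 (mem_powerset.1 hR hxR)).2 hx
  rw [e, sum_image]
  · have : ∀ R ∈ (W \ U).powerset, (-1 : ℝ) ^ (U ∪ R).card = (-1) ^ U.card * (-1) ^ R.card :=
      fun R hR => by rw [card_union_of_disjoint (hdisj R hR), pow_add]
    rw [sum_congr rfl this, ← mul_sum]
    have hz : (∑ R ∈ (W \ U).powerset, (-1 : ℝ) ^ R.card)
        = if W \ U = ∅ then 1 else 0 := by
      have h' := congrArg (fun n : ℤ => (n : ℝ)) (sum_powerset_neg_one_pow_card (x := W \ U))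
      push_cast at h'
      exact h'
    rw [hz]
    by_cases hWU : W = U
    · simp [hWU]
    · have : W \ U ≠ ∅ := fun h0 => hWU (Subset.antisymm (sdiff_eq_empty_iff_subset.1 h0) h)
      simp [hWU, this]
  · intro R hR R' hR' hRR
    have h1 := congrArg (fun S => S \ U) hRR
    simp only at h1
    rwa [union_sdiff_cancel_left (hdisj R hR), union_sdiff_cancel_left (hdisj R' hR')] at h1

lemma sum_lam_div (hP : ∀ p ∈ P, p.Prime) (hz : 1 ≤ z) {U : Finset ℕ} :
    ∑ T ∈ P.powerset.filter (fun T => U ⊆ T), lam P z T / prodP T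
      = if U ∈ sieveSet P z then (-1) ^ U.card / (phiP U * sieveG P z) else 0 := by
  classical
  have hG := (sieveG_pos hP hz).ne'
  have e : ∀ T ∈ P.powerset.filter (fun T => U ⊆ T), lam P z T / prodP T
      = ∑ W ∈ sieveSet P z, if T ⊆ W then (-1 : ℝ) ^ T.card / (phiP W * sieveG P z) else 0 := by
    intro T hT
    have hT' := mem_powerset.1 (mem_filter.1 hT).1
    rw [lam, sum_filter, mul_sum, sum_div]
    refine sum_congr rfl fun W hW => ?_
    have h1 := (prodP_pos fun p hp => hP p (hT' hp)).ne'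
    have h2 := (phiP_pos (mem_sieveSet_prime hP hW)).ne'
    split_ifs with h
    · field_simp
    · simp
  rw [sum_congr rfl e, sum_comm]
  have e2 : ∀ W ∈ sieveSet P z,
      (∑ T ∈ P.powerset.filter (fun T => U ⊆ T),
          if T ⊆ W then (-1 : ℝ) ^ T.card / (phiP W * sieveG P z) else 0)
        = if W = U then (-1) ^ U.card / (phiP U * sieveG P z) else 0 := by
    intro W hW
    have hWP := mem_powerset.1 (mem_filter.1 hW).1
    by_cases hUW : U ⊆ W
    · rw [← sum_filter, filter_filter]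
      have : P.powerset.filter (fun T => U ⊆ T ∧ T ⊆ W) = W.powerset.filter (fun T => U ⊆ T) := by
        ext T
        simp only [mem_filter, mem_powerset]
        exact ⟨fun h => ⟨h.2.2, h.2.1⟩, fun h => ⟨h.1.trans hWP, h.2, h.1⟩⟩
      rw [this, ← sum_div, alternating_between hUW]
      by_cases hWU : W = U
      · simp [hWU]
      · simp [hWU]
    · have hWU : W ≠ U := fun h => hUW (h ▸ Subset.refl U)
      rw [if_neg hWU]
      refine sum_eq_zero fun T hT => if_neg fun h => hUW ((mem_filter.1 hT).2.trans h)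
  rw [sum_congr rfl e2, sum_ite_eq']

lemma prodP_union_mul_inter (T T' : Finset ℕ) :
    prodP (T ∪ T') * prodP (T ∩ T') = prodP T * prodP T' :=
  prod_union_inter

lemma prodP_eq_sum (T : Finset ℕ) : prodP T = ∑ U ∈ T.powerset, phiP U := by
  unfold prodP phiP
  rw [← prod_one_add]
  exact prod_congr rfl fun p _ => by ring

/-- The value of the quadratic form. -/
lemma quad_eq (hP : ∀ p ∈ P, p.Prime) (hz : 1 ≤ z) :
    ∑ T ∈ P.powerset, ∑ T' ∈ P.powerset, lam P z T * lam P z T' / prodP (T ∪ T')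
      = 1 / sieveG P z := by
  classical
  have hG := (sieveG_pos hP hz).ne'
  have e : ∀ T ∈ P.powerset, ∀ T' ∈ P.powerset, lam P z T * lam P z T' / prodP (T ∪ T')
      = ∑ U ∈ P.powerset, phiP U * ((if U ⊆ T then lam P z T / prodP T else 0)
          * (if U ⊆ T' then lam P z T' / prodP T' else 0)) := by
    intro T hT T' hT'
    have h1 : ∀ p ∈ T, p.Prime := fun p hp => hP p (mem_powerset.1 hT hp)
    have h2 : ∀ p ∈ T', p.Prime := fun p hp => hP p (mem_powerset.1 hT' hp)
    have h3 : ∀ p ∈ T ∪ T', p.Prime := fun p hp => (mem_union.1 hp).elim (h1 p) (h2 p)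
    calc lam P z T * lam P z T' / prodP (T ∪ T')
        = prodP (T ∩ T') * (lam P z T / prodP T * (lam P z T' / prodP T')) := by
          have a := (prodP_pos h1).ne'
          have c := (prodP_pos h2).ne'
          have d := (prodP_pos h3).ne'
          have hu := prodP_union_mul_inter T T'
          field_simp
          linear_combination (-(lam P z T * lam P z T')) * hu
      _ = ∑ U ∈ (T ∩ T').powerset, phiP U * (lam P z T / prodP T * (lam P z T' / prodP T')) := by
          rw [prodP_eq_sum, sum_mul]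
      _ = ∑ U ∈ P.powerset.filter (fun U => U ⊆ T ∧ U ⊆ T'),
            phiP U * (lam P z T / prodP T * (lam P z T' / prodP T')) := by
          refine sum_congr ?_ fun _ _ => rfl
          ext U
          simp only [mem_powerset, mem_filter, subset_inter_iff]
          exact ⟨fun h => ⟨h.1.trans (mem_powerset.1 hT), h⟩, fun h => h.2⟩
      _ = _ := by
          rw [sum_filter]
          refine sum_congr rfl fun U _ => ?_
          by_cases hU : U ⊆ T <;> by_cases hU' : U ⊆ T' <;> simp [hU, hU']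
  rw [sum_congr rfl fun T hT => sum_congr rfl (e T hT)]
  rw [sum_congr rfl fun T _ => sum_comm, sum_comm]
  have e2 : ∀ U ∈ P.powerset,
      (∑ T ∈ P.powerset, ∑ T' ∈ P.powerset, phiP U *
        ((if U ⊆ T then lam P z T / prodP T else 0)
          * (if U ⊆ T' then lam P z T' / prodP T' else 0)))
      = if U ∈ sieveSet P z then 1 / phiP U / sieveG P z ^ 2 else 0 := by
    intro U hU
    rw [sum_congr rfl fun T _ => (mul_sum _ _ _).symm, ← mul_sum, ← sum_mul_sum, ← sum_filter,
      sum_lam_div hP hz]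
    have hU0 := (phiP_pos fun p hp => hP p (mem_powerset.1 hU hp)).ne'
    split_ifs with h
    · field_simp
      rw [← pow_mul]
      simp
    · simp
  rw [sum_congr rfl e2, ← sum_filter,
    show P.powerset.filter (fun U => U ∈ sieveSet P z) = sieveSet P z from by
      ext U; simp [sieveSet],
    ← sum_div, ← sieveG]
  field_simp

/-- Markov's inequality gives the lower bound for `G`. -/
lemma sieveG_ge (hP : ∀ p ∈ P, p.Prime) (hz : 1 < z)
    (hlog : ∑ p ∈ P, Real.log p / (p : ℝ) ≤ Real.log z / 2) :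
    (∏ p ∈ P, (p : ℝ) / ((p : ℝ) - 1)) / 2 ≤ sieveG P z := by
  classical
  set F := ∏ p ∈ P, (p : ℝ) / ((p : ℝ) - 1) with hF
  have h2 : ∀ p ∈ P, (2 : ℝ) ≤ p := fun p hp => by exact_mod_cast (hP p hp).two_le
  have hall : ∀ Q ⊆ P, ∑ U ∈ Q.powerset, 1 / phiP U = ∏ p ∈ Q, (p : ℝ) / ((p : ℝ) - 1) := by
    intro Q hQ
    have : ∀ U ∈ Q.powerset, 1 / phiP U = ∏ p ∈ U, 1 / ((p : ℝ) - 1) := fun U _ => by
      simp [phiP, prod_inv_distrib]
    rw [sum_congr rfl this, ← prod_one_add]
    refine prod_congr rfl fun p hp => ?_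
    have : (p : ℝ) - 1 ≠ 0 := by linarith [h2 p (hQ hp)]
    field_simp
    ring
  have hlogz : 0 < Real.log z := Real.log_pos hz
  have hpos : ∀ U ∈ P.powerset, (0 : ℝ) < phiP U := fun U hU =>
    phiP_pos fun p hp => hP p (mem_powerset.1 hU hp)
  have hmom : ∑ U ∈ P.powerset, Real.log (prodP U) / phiP U
      = F * ∑ p ∈ P, Real.log p / (p : ℝ) := by
    have e : ∀ U ∈ P.powerset, Real.log (prodP U) / phiP U
        = ∑ p ∈ P, if p ∈ U then Real.log p * (1 / phiP U) else 0 := by
      intro U hU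
      have hUP := mem_powerset.1 hU
      rw [prodP, Real.log_prod fun p hp => by
          exact_mod_cast (hP p (hUP hp)).pos.ne', ← sum_filter,
        filter_mem_eq_inter, inter_eq_right.2 hUP, ← sum_mul, mul_one_div]
    rw [sum_congr rfl e, sum_comm, mul_sum]
    refine sum_congr rfl fun p hp => ?_
    rw [← sum_filter, ← mul_sum]
    have e2 : P.powerset.filter (fun U => p ∈ U) = (P.erase p).powerset.image (insert p) := by
      ext U
      simp only [mem_filter, mem_powerset, mem_image]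
      constructor
      · rintro ⟨h1, h2⟩
        exact ⟨U.erase p, erase_subset_erase p h1, insert_erase h2⟩
      · rintro ⟨R, hR, rfl⟩
        exact ⟨insert_subset hp (hR.trans (erase_subset _ _)), mem_insert_self p R⟩
    have hne : ∀ R ∈ (P.erase p).powerset, p ∉ R := fun R hR h =>
      notMem_erase p P (mem_powerset.1 hR h)
    rw [e2, sum_image fun R hR R' hR' h => by
      have := congrArg (fun S => S.erase p) h
      simpa [erase_insert (hne R hR), erase_insert (hne R' hR')] using this]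
    have e3 : ∀ R ∈ (P.erase p).powerset, 1 / phiP (insert p R)
        = 1 / ((p : ℝ) - 1) * (1 / phiP R) := fun R hR => by
      rw [phiP, prod_insert (hne R hR), one_div_mul_one_div]
      rfl
    rw [sum_congr rfl e3, ← mul_sum, hall _ (erase_subset _ _), hF, ← mul_prod_erase P _ hp]
    have : (p : ℝ) - 1 ≠ 0 := by linarith [h2 p hp]
    have : (p : ℝ) ≠ 0 := by linarith [h2 p hp]
    field_simp
  have hF0 : 0 ≤ F := prod_nonneg fun p hp => div_nonneg (by linarith [h2 p hp])
    (by linarith [h2 p hp])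
  have htail : ∑ U ∈ P.powerset.filter (fun U => ¬ prodP U ≤ z), 1 / phiP U ≤ F / 2 := by
    have h1 : Real.log z * ∑ U ∈ P.powerset.filter (fun U => ¬ prodP U ≤ z), 1 / phiP U
        ≤ F * ∑ p ∈ P, Real.log p / (p : ℝ) := by
      rw [← hmom, mul_sum]
      refine le_trans (sum_le_sum fun U hU => ?_) (sum_le_sum_of_subset_of_nonneg
        (filter_subset _ _) fun U hU _ => div_nonneg (Real.log_nonneg ?_) (hpos U hU).le)
      · obtain ⟨hU1, hU2⟩ := mem_filter.1 hU
        rw [mul_one_div]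
        exact div_le_div_of_nonneg_right
          (Real.log_le_log (by linarith) (not_le.1 hU2).le) (hpos U hU1).le
      · rw [prodP_eq_natCast]
        exact_mod_cast Finset.one_le_prod' fun p hp => (hP p (mem_powerset.1 hU hp)).one_le
    have h3 := mul_le_mul_of_nonneg_left hlog hF0
    refine le_of_mul_le_mul_left ?_ hlogz
    linarith
  have := sum_filter_add_sum_filter_not P.powerset (fun U => prodP U ≤ z) (fun U => 1 / phiP U)
  rw [hall P (Subset.refl P), ← hF] at this
  rw [sieveG, sieveSet]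
  linarith

lemma sum_abs_lam_le (hP : ∀ p ∈ P, p.Prime) (hz : 1 ≤ z) :
    ∑ T ∈ P.powerset, |lam P z T| ≤ z * z := by
  have hsub : sieveSet P z ⊆ P.powerset := filter_subset _ _
  rw [← sum_subset hsub fun T hT hT' => by
    rw [lam_eq_zero hP (mem_powerset.1 hT) hT', abs_zero]]
  refine le_trans (sum_le_sum fun T hT => (abs_lam_le hP hz (mem_powerset.1 (hsub hT))).trans
    (mem_filter.1 hT).2) ?_
  rw [sum_const, nsmul_eq_mul]
  refine mul_le_mul_of_nonneg_right ?_ (by linarith)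
  have hinj : Set.InjOn (fun T : Finset ℕ => ∏ p ∈ T, p) (sieveSet P z : Set (Finset ℕ)) := by
    intro T hT T' hT' h
    have a := Nat.primeFactors_prod (mem_sieveSet_prime hP hT)
    have c := Nat.primeFactors_prod (mem_sieveSet_prime hP hT')
    simp only at h
    rw [← a, h, c]
  have hc := card_le_card_of_injOn (t := Finset.Icc 1 ⌊z⌋₊) _ (fun T hT => by
    refine Finset.mem_Icc.2 ⟨Finset.one_le_prod' fun p hp => (mem_sieveSet_prime hP hT p hp).one_le,
      Nat.le_floor ?_⟩
    rw [← prodP_eq_natCast]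
    exact (mem_filter.1 hT).2) hinj
  rw [Nat.card_Icc, Nat.add_sub_cancel] at hc
  exact le_trans (by exact_mod_cast hc) (Nat.floor_le (by linarith))

/-- The square of the sieve sum. -/
noncomputable def sieveSq (P : Finset ℕ) (z : ℝ) (x : ℤ) : ℝ :=
  (∑ T ∈ P.powerset, lam P z T * if ((∏ p ∈ T, p : ℕ) : ℤ) ∣ x then (1 : ℝ) else 0) ^ 2

lemma indicator_le_sieveSq (hP : ∀ p ∈ P, p.Prime) (hz : 1 ≤ z) (A : ℤ) (B : ℕ) (a : ℤ) :
    (if Avoid P A B a then (1 : ℝ) else 0) ≤ sieveSq P z (a * B + A) := by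
  by_cases h : Avoid P A B a
  · rw [if_pos h, sieveSq, sum_eq_single ∅]
    · simp [lam_empty hP hz]
    · intro T hT hne
      obtain ⟨p, hp⟩ := nonempty_iff_ne_empty.2 hne
      rw [if_neg, mul_zero]
      intro hd
      exact h p (mem_powerset.1 hT hp) ((prod_dvd_iff_forall T
        (fun q hq => hP q (mem_powerset.1 hT hq)) _).1 hd p hp)
    · simp
  · rw [if_neg h]
    exact sq_nonneg _

lemma sieveSq_eq (hP : ∀ p ∈ P, p.Prime) (x : ℤ) :
    sieveSq P z x = ∑ T ∈ P.powerset, ∑ T' ∈ P.powerset, (lam P z T * lam P z T') *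
      if ((∏ p ∈ T ∪ T', p : ℕ) : ℤ) ∣ x then (1 : ℝ) else 0 := by
  rw [sieveSq, pow_two, sum_mul_sum]
  refine sum_congr rfl fun T hT => sum_congr rfl fun T' hT' => ?_
  have h1 : ∀ p ∈ T, p.Prime := fun p hp => hP p (mem_powerset.1 hT hp)
  have h2 : ∀ p ∈ T', p.Prime := fun p hp => hP p (mem_powerset.1 hT' hp)
  have h3 : ∀ p ∈ T ∪ T', p.Prime := fun p hp => (mem_union.1 hp).elim (h1 p) (h2 p)
  have : ((((∏ p ∈ T, p : ℕ) : ℤ) ∣ x) ∧ (((∏ p ∈ T', p : ℕ) : ℤ) ∣ x))
      ↔ ((∏ p ∈ T ∪ T', p : ℕ) : ℤ) ∣ x := by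
    simp only [prod_dvd_iff_forall _ h1, prod_dvd_iff_forall _ h2, prod_dvd_iff_forall _ h3]
    exact ⟨fun h p hp => (mem_union.1 hp).elim (h.1 p) (h.2 p),
      fun h => ⟨fun p hp => h p (mem_union_left _ hp), fun p hp => h p (mem_union_right _ hp)⟩⟩
  rw [mul_mul_mul_comm, ite_zero_mul_ite_zero, mul_one]
  congr 1
  exact if_congr this rfl rfl

/-- The sieved count of pairs. -/
theorem card_pairSet_selberg (q r : ℕ) (hq : 0 < q) (hr : 0 < r) (P P' : Finset ℕ)
    (hPq : P ⊆ q.primeFactors) (hPr : P' ⊆ r.primeFactors) (B B' : ℕ) (A A' : ℤ)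
    (hB : ∀ p ∈ P, ¬ p ∣ B) (hB' : ∀ p ∈ P', ¬ p ∣ B') (θ θ' η z : ℝ) (hη : 0 ≤ η) (hz : 1 ≤ z) :
    (((pairSet q r θ θ' η).filter (fun p => Avoid P A B p.1 ∧ Avoid P' A' B' p.2)).card : ℝ)
      ≤ 2 * η * q * r * (1 / sieveG P z) * (1 / sieveG P' z) + Nat.gcd q r * z ^ 8 := by
  classical
  have hP : ∀ p ∈ P, p.Prime := fun p hp => Nat.prime_of_mem_primeFactors (hPq hp)
  have hP' : ∀ p ∈ P', p.Prime := fun p hp => Nat.prime_of_mem_primeFactors (hPr hp)
  set S := pairSet q r θ θ' η with hS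
  set c : Finset ℕ → Finset ℕ → ℝ := fun E F => ((S.filter (fun p : ℤ × ℤ =>
    ((∏ l ∈ E, l : ℕ) : ℤ) ∣ p.1 * B + A ∧ ((∏ l ∈ F, l : ℕ) : ℤ) ∣ p.2 * B' + A')).card : ℝ)
  set w := fun T1 T2 T3 T4 => (lam P z T1 * lam P z T2) * (lam P' z T3 * lam P' z T4)
  set R := (P.powerset ×ˢ P.powerset) ×ˢ (P'.powerset ×ˢ P'.powerset)
  set M := 2 * η * q * r
  have h1 : (((S.filter (fun p => Avoid P A B p.1 ∧ Avoid P' A' B' p.2)).card : ℕ) : ℝ)
      ≤ ∑ i ∈ R, w i.1.1 i.1.2 i.2.1 i.2.2 * c (i.1.1 ∪ i.1.2) (i.2.1 ∪ i.2.2) := by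
    rw [natCast_card_filter]
    calc ∑ p ∈ S, (if Avoid P A B p.1 ∧ Avoid P' A' B' p.2 then (1 : ℝ) else 0)
        ≤ ∑ p ∈ S, sieveSq P z (p.1 * B + A) * sieveSq P' z (p.2 * B' + A') := by
          refine sum_le_sum fun p _ => ?_
          rw [show (if Avoid P A B p.1 ∧ Avoid P' A' B' p.2 then (1 : ℝ) else 0)
            = (if Avoid P A B p.1 then (1 : ℝ) else 0) * (if Avoid P' A' B' p.2 then 1 else 0) by
              rw [ite_zero_mul_ite_zero, mul_one]]
          exact mul_le_mul (indicator_le_sieveSq hP hz A B p.1)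
            (indicator_le_sieveSq hP' hz A' B' p.2) (by split_ifs <;> norm_num) (sq_nonneg _)
      _ = ∑ p ∈ S, ∑ i ∈ R, w i.1.1 i.1.2 i.2.1 i.2.2 *
            (if ((∏ l ∈ i.1.1 ∪ i.1.2, l : ℕ) : ℤ) ∣ p.1 * B + A ∧
              ((∏ l ∈ i.2.1 ∪ i.2.2, l : ℕ) : ℤ) ∣ p.2 * B' + A' then (1 : ℝ) else 0) := by
          refine sum_congr rfl fun p _ => ?_
          rw [sieveSq_eq hP, sieveSq_eq hP',
            ← sum_product' P.powerset P.powerset, ← sum_product' P'.powerset P'.powerset,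
            sum_mul_sum, ← sum_product']
          refine sum_congr rfl fun i _ => ?_
          rw [mul_mul_mul_comm, ite_zero_mul_ite_zero, mul_one]
      _ = _ := by
          rw [sum_comm]
          refine sum_congr rfl fun i _ => ?_
          rw [← mul_sum]
          simp only [c]
          rw [natCast_card_filter]
  refine h1.trans ?_
  have hc : ∀ i ∈ R, w i.1.1 i.1.2 i.2.1 i.2.2 * c (i.1.1 ∪ i.1.2) (i.2.1 ∪ i.2.2)
      ≤ M * ((lam P z i.1.1 * lam P z i.1.2 / prodP (i.1.1 ∪ i.1.2))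
          * (lam P' z i.2.1 * lam P' z i.2.2 / prodP (i.2.1 ∪ i.2.2)))
        + Nat.gcd q r * ((|lam P z i.1.1| * |lam P z i.1.2|)
          * (|lam P' z i.2.1| * |lam P' z i.2.2|)) := by
    intro i hi
    simp only [R, mem_product, mem_powerset] at hi
    set E := i.1.1 ∪ i.1.2
    set F := i.2.1 ∪ i.2.2
    have hE : E ⊆ P := union_subset hi.1.1 hi.1.2
    have hF : F ⊆ P' := union_subset hi.2.1 hi.2.2
    have h := card_pairSet_dvd q r _ _ hq hr
      ((prod_dvd_prod_of_subset _ _ _ (hE.trans hPq)).trans q.prod_primeFactors_dvd)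
      ((prod_dvd_prod_of_subset _ _ _ (hF.trans hPr)).trans r.prod_primeFactors_dvd) B B' A A'
      (isCoprime_prod E (fun p hp => hP p (hE hp)) B fun p hp => hB p (hE hp))
      (isCoprime_prod F (fun p hp => hP' p (hF hp)) B' fun p hp => hB' p (hF hp)) θ θ' η hη
    rw [← hS, ← prodP_eq_natCast, ← prodP_eq_natCast] at h
    set wi := w i.1.1 i.1.2 i.2.1 i.2.2
    have habs : |wi| = (|lam P z i.1.1| * |lam P z i.1.2|)
        * (|lam P' z i.2.1| * |lam P' z i.2.2|) := by simp only [wi, w, abs_mul]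
    have hb := le_abs_self (wi * (c E F - M / (prodP E * prodP F)))
    rw [abs_mul] at hb
    have hh := hb.trans (mul_le_mul_of_nonneg_left h (abs_nonneg wi))
    rw [habs] at hh
    have e : M * ((lam P z i.1.1 * lam P z i.1.2 / prodP E)
        * (lam P' z i.2.1 * lam P' z i.2.2 / prodP F)) = wi * (M / (prodP E * prodP F)) := by
      simp only [wi, w]
      ring
    rw [e]
    linarith
  refine (sum_le_sum hc).trans ?_
  rw [sum_add_distrib, ← mul_sum, ← mul_sum]
  refine add_le_add (le_of_eq ?_) (mul_le_mul_of_nonneg_left ?_ (Nat.cast_nonneg _))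
  · rw [sum_product]
    dsimp only
    rw [← sum_mul_sum, sum_product, sum_product]
    dsimp only
    rw [quad_eq hP hz, quad_eq hP' hz]
    ring
  · rw [sum_product]
    dsimp only
    rw [← sum_mul_sum, sum_product, sum_product]
    dsimp only
    rw [← sum_mul_sum, ← sum_mul_sum]
    have a := sum_abs_lam_le hP hz
    have a' := sum_abs_lam_le hP' hz
    have n1 : 0 ≤ ∑ T ∈ P.powerset, |lam P z T| := sum_nonneg fun _ _ => abs_nonneg _
    have n2 : 0 ≤ ∑ T ∈ P'.powerset, |lam P' z T| := sum_nonneg fun _ _ => abs_nonneg _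
    calc _ ≤ (z * z) * (z * z) * ((z * z) * (z * z)) :=
          mul_le_mul (mul_le_mul a a n1 (by positivity)) (mul_le_mul a' a' n2 (by positivity))
            (by positivity) (by positivity)
      _ = z ^ 8 := by ring

end Vale.Agent.P028.ExtraLog
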