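import Mathlib
import Vale.Agent.P028.ExtraLog.Selberg
import Vale.Agent.P028.ExtraLog.Kill
import Vale.Agent.P028.ExtraLog.Primes

/-!
# Overlaps at large scale

If the scale of a pair is at least a fixed power of `log` of the pair then the overlap is at most a
constant times the product of the masses.
-/

namespace Vale.Agent.P028.ExtraLog

open Finset

/-- `b = log₂ L + 1` in logarithmic terms. -/
lemma natLog_succ_le (L : ℕ) : ((Nat.log 2 L + 1 : ℕ) : ℝ) ≤ 2 * (1 + Real.log L) := by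
  rcases Nat.eq_zero_or_pos L with rfl | hL
  · simp
  have h1 : ((2 : ℝ) ^ Nat.log 2 L) ≤ L := by exact_mod_cast Nat.pow_log_le_self 2 hL.ne'
  have h2 := Real.log_le_log (by positivity) h1
  rw [Real.log_pow] at h2
  have hl : (1 / 2 : ℝ) ≤ Real.log 2 := by
    have := Real.one_sub_inv_le_log_of_pos (show (0 : ℝ) < 2 by norm_num)
    norm_num at this
    linarith
  have hn : (0 : ℝ) ≤ (Nat.log 2 L : ℝ) := Nat.cast_nonneg _
  push_cast
  nlinarith

/-- `v / φ v` is at most any power of `log v`. -/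
lemma exists_ratio_le (η : ℝ) (hη : 0 < η) :
    ∃ C : ℝ, 1 ≤ C ∧ ∀ L v : ℕ, 0 < L → v ≤ 2 ^ L → (v : ℝ) ≤ C * (L : ℝ) ^ η * Nat.totient v := by
  refine ⟨Real.exp 12 * (2 * (1 + 8 / η)) ^ (8 : ℝ), ?_, fun L v hL hv => ?_⟩
  · refine one_le_mul_of_one_le_of_one_le (Real.one_le_exp (by norm_num)) ?_
    refine Real.one_le_rpow ?_ (by norm_num)
    have : 0 ≤ 8 / η := by positivity
    linarith
  set b := Nat.log 2 L + 1
  have hLb : L ≤ 2 ^ b := (Nat.lt_pow_succ_log_self (by norm_num) L).le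
  have h := sum_inv_primeFactors_le v L b hv hLb
  have hb0 : (0 : ℝ) < b := by positivity
  have hL1 : (1 : ℝ) ≤ L := by exact_mod_cast hL
  have hb1 : (b : ℝ) ≤ 2 * (1 + 8 / η) * (L : ℝ) ^ (η / 8) := by
    refine (natLog_succ_le L).trans ?_
    have h1 := Real.log_le_rpow_div (by linarith : (0 : ℝ) ≤ L) (by positivity : 0 < η / 8)
    have h2 : 1 ≤ (L : ℝ) ^ (η / 8) := Real.one_le_rpow hL1 (by positivity)
    have h3 : (L : ℝ) ^ (η / 8) / (η / 8) = 8 / η * (L : ℝ) ^ (η / 8) := by field_simp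
    rw [h3] at h1
    linarith
  calc (v : ℝ) ≤ Nat.totient v * Real.exp (2 * ∑ p ∈ v.primeFactors, 1 / (p : ℝ)) :=
        le_totient_mul_exp v
    _ ≤ Nat.totient v * (Real.exp 12 * (b : ℝ) ^ (8 : ℝ)) := by
        refine mul_le_mul_of_nonneg_left ?_ (Nat.cast_nonneg _)
        rw [Real.rpow_def_of_pos hb0, ← Real.exp_add]
        exact Real.exp_le_exp.2 (by linarith)
    _ ≤ Nat.totient v * (Real.exp 12 * ((2 * (1 + 8 / η)) ^ (8 : ℝ) * (L : ℝ) ^ η)) := by
        gcongr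
        calc (b : ℝ) ^ (8 : ℝ) ≤ (2 * (1 + 8 / η) * (L : ℝ) ^ (η / 8)) ^ (8 : ℝ) :=
              Real.rpow_le_rpow hb0.le hb1 (by norm_num)
          _ = _ := by
              rw [Real.mul_rpow (by positivity) (by positivity), ← Real.rpow_mul (by positivity),
                show η / 8 * 8 = η by ring]
    _ = _ := by ring

lemma psi_le_ratio_mass (γ : ℝ) {δ : ℕ → ℝ} (hδ : Radii δ) {v : ℕ} (hv : 0 < v) {R : ℝ}
    (hR : (v : ℝ) ≤ R * Nat.totient v) (hR0 : 0 ≤ R) : (v : ℝ) * δ v ≤ R * mass γ δ v := by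
  have h := totient_div_le_propKeep γ δ v
  have hv' : (0 : ℝ) < v := by exact_mod_cast hv
  rw [div_le_iff₀ hv'] at h
  have h1 : (v : ℝ) ≤ R * (propKeep γ δ v * v) := hR.trans (mul_le_mul_of_nonneg_left h hR0)
  calc (v : ℝ) * δ v ≤ R * (propKeep γ δ v * v) * δ v := mul_le_mul_of_nonneg_right h1 (hδ.2 v).1
    _ = _ := by unfold mass; ring

/-- The part of `propKeep` carried by the small primes. -/
lemma smallKeep_le (γ : ℝ) (δ : ℕ → ℝ) (v L a b : ℕ) (hv : v ≤ 2 ^ L) (ha : 0 < a)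
    (hLb : L ≤ 2 ^ b) :
    ∏ p ∈ (exclPrimes γ δ v).filter (fun p => p ≤ 2 ^ a), (1 - 1 / (p : ℝ))
      ≤ propKeep γ δ v * Real.exp (2 * (4 * b / a + 1)) := by
  set big := (exclPrimes γ δ v).filter (fun p => ¬ p ≤ 2 ^ a)
  have hp : ∀ p ∈ exclPrimes γ δ v, p.Prime := fun p hp =>
    Nat.prime_of_mem_primeFactors (mem_filter.1 hp).1
  have hbp : ∀ p ∈ big, p.Prime := fun p h => hp p (mem_filter.1 h).1
  have h1 : (∏ p ∈ big, (1 - 1 / (p : ℝ))) * ∏ p ∈ big, (p : ℝ) / ((p : ℝ) - 1) = 1 := by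
    rw [← prod_mul_distrib]
    refine prod_eq_one fun p h => ?_
    have h2 : (2 : ℝ) ≤ p := by exact_mod_cast (hbp p h).two_le
    have : (p : ℝ) - 1 ≠ 0 := by linarith
    field_simp
  have h2 : ∏ p ∈ big, (p : ℝ) / ((p : ℝ) - 1) ≤ Real.exp (2 * (4 * b / a + 1)) := by
    refine (prod_ratio_le_exp big hbp).trans (Real.exp_le_exp.2 ?_)
    refine mul_le_mul_of_nonneg_left ?_ zero_le_two
    refine le_trans (sum_le_sum_of_subset_of_nonneg ?_ fun p _ _ => by positivity)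
      (sum_inv_primeFactors_gt v L a hv ha b hLb)
    intro p h
    obtain ⟨hpe, hp2⟩ := mem_filter.1 h
    exact mem_filter.2 ⟨(mem_filter.1 hpe).1, not_le.1 hp2⟩
  calc ∏ p ∈ (exclPrimes γ δ v).filter (fun p => p ≤ 2 ^ a), (1 - 1 / (p : ℝ))
      = propKeep γ δ v * ∏ p ∈ big, (p : ℝ) / ((p : ℝ) - 1) := by
        rw [propKeep, ← prod_filter_mul_prod_filter_not (exclPrimes γ δ v) (fun p => p ≤ 2 ^ a),
          mul_assoc]
        rw [h1, mul_one]
    _ ≤ _ := mul_le_mul_of_nonneg_left h2 (propKeep_pos γ δ v).le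

lemma inv_sieveG_le (γ : ℝ) (δ : ℕ → ℝ) (v a : ℕ) (ha : 0 < a) :
    1 / sieveG ((exclPrimes γ δ v).filter fun p => p ≤ 2 ^ a) ((2 : ℝ) ^ (32 * a))
      ≤ 2 * ∏ p ∈ (exclPrimes γ δ v).filter (fun p => p ≤ 2 ^ a), (1 - 1 / (p : ℝ)) := by
  set P := (exclPrimes γ δ v).filter fun p => p ≤ 2 ^ a
  have hP : ∀ p ∈ P, p.Prime := fun p hp =>
    Nat.prime_of_mem_primeFactors (mem_filter.1 (mem_filter.1 hp).1).1
  have hz : (1 : ℝ) < (2 : ℝ) ^ (32 * a) := one_lt_pow₀ one_lt_two (by omega)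
  have hl : (1 / 2 : ℝ) ≤ Real.log 2 := by
    have := Real.one_sub_inv_le_log_of_pos (show (0 : ℝ) < 2 by norm_num)
    norm_num at this
    linarith
  have hlog : ∑ p ∈ P, Real.log p / (p : ℝ) ≤ Real.log ((2 : ℝ) ^ (32 * a)) / 2 := by
    refine (sum_log_div_le P hP a fun p hp => (mem_filter.1 hp).2).trans ?_
    rw [Real.log_pow]
    push_cast
    have : (0 : ℝ) ≤ a := Nat.cast_nonneg a
    nlinarith
  have hG := sieveG_ge hP hz hlog
  have hG0 := sieveG_pos hP hz.le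
  rw [div_le_iff₀ hG0]
  set F := ∏ p ∈ P, (p : ℝ) / ((p : ℝ) - 1)
  set S := ∏ p ∈ P, (1 - 1 / (p : ℝ))
  have hSF : S * F = 1 := by
    simp only [S, F]
    rw [← prod_mul_distrib]
    refine prod_eq_one fun p h => ?_
    have h2 : (2 : ℝ) ≤ p := by exact_mod_cast (hP p h).two_le
    have : (p : ℝ) - 1 ≠ 0 := by linarith
    field_simp
  have hS : 0 ≤ S := prod_nonneg fun p h => by
    have h2 : (2 : ℝ) ≤ p := by exact_mod_cast (hP p h).two_le
    rw [sub_nonneg, div_le_one (by linarith)]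
    linarith
  calc (1 : ℝ) = 2 * S * (F / 2) := by linear_combination (-1 : ℝ) * hSF
    _ ≤ 2 * S * sieveG P _ := mul_le_mul_of_nonneg_left hG (by positivity)

/-- The sieved bound for one overlap. -/
lemma overlap_sieved (γ : ℝ) {δ : ℕ → ℝ} (hδ : Radii δ) {v w : ℕ} (hv : 0 < δ v) (hw : 0 < δ w)
    (L a b : ℕ) (hvL : v ≤ 2 ^ L) (hwL : w ≤ 2 ^ L) (ha : 0 < a) (hLb : L ≤ 2 ^ b) :
    overlap γ δ v w
      ≤ 64 * Real.exp (2 * (4 * (b : ℝ) / a + 1)) ^ 2 * (mass γ δ v * mass γ δ w)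
        + 4 * ((v : ℝ) * δ v * ((w : ℝ) * δ w)
            * (((2 : ℝ) ^ (32 * a)) ^ 8 / (scaleOf δ v w + scaleOf δ w v))) := by
  classical
  have hv0 : 0 < v := Nat.pos_of_ne_zero fun h => by rw [h, hδ.1] at hv; exact lt_irrefl 0 hv
  have hw0 : 0 < w := Nat.pos_of_ne_zero fun h => by rw [h, hδ.1] at hw; exact lt_irrefl 0 hw
  set K := Real.exp (2 * (4 * (b : ℝ) / a + 1))
  set z : ℝ := (2 : ℝ) ^ (32 * a)
  have hz1 : (1 : ℝ) ≤ z := one_le_pow₀ one_le_two
  set D := scaleOf δ v w + scaleOf δ w v with hDdef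
  have hlcm : (0 : ℝ) < (Nat.lcm v w : ℕ) := by exact_mod_cast Nat.lcm_pos hv0 hw0
  have hD0 : 0 < D := by
    simp only [hDdef, scaleOf]
    rw [Nat.lcm_comm w v]
    positivity
  set P := (exclPrimes γ δ v).filter fun p => p ≤ 2 ^ a
  set P' := (exclPrimes γ δ w).filter fun p => p ≤ 2 ^ a
  have hcard : ((keptPairs γ δ v w).card : ℝ)
      ≤ 2 * (δ v + δ w) * v * w * (1 / sieveG P z) * (1 / sieveG P' z)
        + Nat.gcd v w * z ^ 8 := by
    refine le_trans ?_ (card_pairSet_selberg v w hv0 hw0 P P'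
      (fun p hp => (mem_filter.1 (mem_filter.1 hp).1).1)
      (fun p hp => (mem_filter.1 (mem_filter.1 hp).1).1) (denB γ δ v) (denB γ δ w)
      (numA γ δ v) (numA γ δ w) (fun p hp => (mem_filter.1 (mem_filter.1 hp).1).2)
      (fun p hp => (mem_filter.1 (mem_filter.1 hp).1).2) γ γ (δ v + δ w) z (by linarith) hz1)
    exact_mod_cast card_le_card fun p hp => by
      obtain ⟨h1, h2, h3⟩ := mem_filter.1 hp
      exact mem_filter.2 ⟨h1, fun q hq => h2 q (mem_filter.1 hq).1,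
        fun q hq => h3 q (mem_filter.1 hq).1⟩
  have hgl : ((Nat.gcd v w : ℕ) : ℝ) * (Nat.lcm v w : ℕ) = (v : ℝ) * w := by
    exact_mod_cast Nat.gcd_mul_lcm v w
  have hg : (Nat.gcd v w : ℝ) = (v : ℝ) * w * (δ v + δ w) / D := by
    rw [eq_div_iff hD0.ne', hDdef]
    unfold scaleOf
    rw [Nat.lcm_comm w v]
    linear_combination (δ v + δ w) * hgl
  have hm1 : min (δ v) (δ w) * (δ v + δ w) ≤ 2 * (δ v * δ w) := by
    rcases le_total (δ v) (δ w) with h | h
    · rw [min_eq_left h]; nlinarith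
    · rw [min_eq_right h]; nlinarith
  have hG : ∀ u : ℕ, 0 ≤ 1 / sieveG ((exclPrimes γ δ u).filter fun p => p ≤ 2 ^ a) z := fun u =>
    (one_div_pos.2 (sieveG_pos (fun p hp =>
      Nat.prime_of_mem_primeFactors (mem_filter.1 (mem_filter.1 hp).1).1) hz1)).le
  have hK : ∀ u : ℕ, u ≤ 2 ^ L →
      1 / sieveG ((exclPrimes γ δ u).filter fun p => p ≤ 2 ^ a) z
        ≤ 2 * (propKeep γ δ u * K) := fun u hu =>
    (inv_sieveG_le γ δ u a ha).trans (mul_le_mul_of_nonneg_left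
      (smallKeep_le γ δ u L a b hu ha hLb) zero_le_two)
  have hm0 : 0 ≤ 2 * min (δ v) (δ w) := mul_nonneg zero_le_two (le_min hv.le hw.le)
  have hpv := propKeep_pos γ δ v
  calc overlap γ δ v w
      ≤ 2 * min (δ v) (δ w) * ((keptPairs γ δ v w).card : ℝ) := overlap_le γ hδ hv0 hw0
    _ ≤ 2 * min (δ v) (δ w) * (2 * (δ v + δ w) * v * w * (1 / sieveG P z) * (1 / sieveG P' z)
          + Nat.gcd v w * z ^ 8) := mul_le_mul_of_nonneg_left hcard hm0
    _ = (min (δ v) (δ w) * (δ v + δ w)) * ((v : ℝ) * w) *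
          (4 * ((1 / sieveG P z) * (1 / sieveG P' z)) + 2 * z ^ 8 / D) := by rw [hg]; ring
    _ ≤ (2 * (δ v * δ w)) * ((v : ℝ) * w) *
          (4 * ((2 * (propKeep γ δ v * K)) * (2 * (propKeep γ δ w * K))) + 2 * z ^ 8 / D) := by
        refine mul_le_mul (mul_le_mul_of_nonneg_right hm1 (by positivity))
          (add_le_add (mul_le_mul_of_nonneg_left (mul_le_mul (hK v hvL) (hK w hwL) (hG w)
            (by positivity)) (by norm_num)) le_rfl) ?_ (by positivity)
        exact add_nonneg (mul_nonneg (by norm_num) (mul_nonneg (hG v) (hG w))) (by positivity)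
    _ = 32 * K ^ 2 * (mass γ δ v * mass γ δ w)
        + 4 * ((v : ℝ) * δ v * ((w : ℝ) * δ w) * (z ^ 8 / D)) := by unfold mass; ring
    _ ≤ _ := by
        have := mass_nonneg (fun q => (hδ.2 q).1) γ v
        have := mass_nonneg (fun q => (hδ.2 q).1) γ w
        gcongr
        norm_num

/-- Overlaps at large scale. -/
theorem exists_overlap_large (η : ℝ) (hη : 0 < η) (hη1 : η ≤ 1) :
    ∃ C : ℝ, 0 ≤ C ∧ ∀ (γ : ℝ) (δ : ℕ → ℝ), Radii δ → ∀ L v w : ℕ, 0 < L → 0 < δ v → 0 < δ w →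
      v ≤ 2 ^ L → w ≤ 2 ^ L → (L : ℝ) ^ η ≤ scaleOf δ v w + scaleOf δ w v →
      overlap γ δ v w ≤ C * (mass γ δ v * mass γ δ w) := by
  obtain ⟨C₁, hC₁, hrat⟩ := exists_ratio_le (η / 16) (by linarith)
  set K : ℝ := Real.exp (2 * (4 * (2048 / η + 1) + 1))
  refine ⟨max (16 * C₁ ^ 2 * 2 ^ 1024) (64 * K ^ 2 + 4 * C₁ ^ 2), le_max_of_le_left (by positivity),
    fun γ δ hδ L v w hL hv hw hvL hwL hD => ?_⟩
  classical
  have hv0 : 0 < v := Nat.pos_of_ne_zero fun h => by rw [h, hδ.1] at hv; exact lt_irrefl 0 hv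
  have hw0 : 0 < w := Nat.pos_of_ne_zero fun h => by rw [h, hδ.1] at hw; exact lt_irrefl 0 hw
  have hL1 : (1 : ℝ) ≤ L := by exact_mod_cast hL
  set D := scaleOf δ v w + scaleOf δ w v
  set H := (L : ℝ) ^ η with hH
  have hH1 : 1 ≤ H := Real.one_le_rpow hL1 hη.le
  have hD0 : 0 < D := lt_of_lt_of_le (by linarith) hD
  have hmv := mass_nonneg (fun q => (hδ.2 q).1) γ v
  have hmw := mass_nonneg (fun q => (hδ.2 q).1) γ w
  set R := C₁ * (L : ℝ) ^ (η / 16)
  have hR0 : 0 ≤ R := by positivity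
  have hψv := psi_le_ratio_mass γ hδ hv0 (hrat L v hL hvL) hR0
  have hψw := psi_le_ratio_mass γ hδ hw0 (hrat L w hL hwL) hR0
  set ψv := (v : ℝ) * δ v with hψv'
  set ψw := (w : ℝ) * δ w with hψw'
  have hψv0 : 0 ≤ ψv := by positivity
  have hψw0 : 0 ≤ ψw := by positivity
  have hR2 : R * R = C₁ ^ 2 * (L : ℝ) ^ (η / 8) := by
    rw [show η / 8 = η / 16 + η / 16 by ring, Real.rpow_add (by linarith)]
    ring
  have hψψ : ψv * ψw ≤ C₁ ^ 2 * (L : ℝ) ^ (η / 8) * (mass γ δ v * mass γ δ w) := by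
    calc ψv * ψw ≤ (R * mass γ δ v) * (R * mass γ δ w) :=
          mul_le_mul hψv hψw hψw0 (by positivity)
      _ = _ := by rw [← hR2]; ring
  set c := η * Real.logb 2 L with hcdef
  set a := ⌊c / 1024⌋₊ with hadef
  have hlogb : 0 ≤ Real.logb 2 L := Real.logb_nonneg one_lt_two hL1
  have hLlog : (L : ℝ) = 2 ^ Real.logb 2 L :=
    (Real.rpow_logb two_pos (by norm_num) (by linarith)).symm
  have hHc : H = (2 : ℝ) ^ c := by
    rw [hH, hcdef, mul_comm, Real.rpow_mul zero_le_two, ← hLlog]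
  have hc0 : 0 ≤ c := mul_nonneg hη.le hlogb
  rcases Nat.eq_zero_or_pos a with ha | ha
  · have hc : c < 1024 := by
      have := Nat.floor_eq_zero.1 (hadef.symm.trans ha)
      rw [div_lt_one (by norm_num)] at this
      exact this
    have hbd : (L : ℝ) ^ (η / 8) ≤ 2 ^ 1024 := by
      calc (L : ℝ) ^ (η / 8) ≤ H := Real.rpow_le_rpow_of_exponent_le hL1 (by linarith)
        _ ≤ (2 : ℝ) ^ ((1024 : ℕ) : ℝ) := by
            rw [hHc]
            exact Real.rpow_le_rpow_of_exponent_le one_le_two (by push_cast; linarith)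
        _ = 2 ^ 1024 := Real.rpow_natCast 2 1024
    refine (overlap_le_ratio γ hδ hv hw).trans ?_
    have h1 : 1 / D ≤ 1 := by rw [div_le_one hD0]; linarith
    calc 8 * ψv * ψw * (1 + 1 / D) ≤ 8 * ψv * ψw * 2 := by gcongr; linarith
      _ = 16 * (ψv * ψw) := by ring
      _ ≤ 16 * (C₁ ^ 2 * 2 ^ 1024 * (mass γ δ v * mass γ δ w)) := by
          refine mul_le_mul_of_nonneg_left (hψψ.trans ?_) (by norm_num)
          gcongr
      _ = 16 * C₁ ^ 2 * 2 ^ 1024 * (mass γ δ v * mass γ δ w) := by ring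
      _ ≤ _ := mul_le_mul_of_nonneg_right (le_max_left _ _) (by positivity)
  · set b := Nat.log 2 L + 1 with hbdef
    have hLb : L ≤ 2 ^ b := (Nat.lt_pow_succ_log_self (by norm_num) L).le
    set z : ℝ := (2 : ℝ) ^ (32 * a)
    have hz1 : (1 : ℝ) ≤ z := one_le_pow₀ one_le_two
    have haR : (1 : ℝ) ≤ a := by exact_mod_cast ha
    have hac : (a : ℝ) * 1024 ≤ c := by
      have := Nat.floor_le (show 0 ≤ c / 1024 by positivity)
      rw [← hadef] at this
      linarith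
    have hz8 : z ^ 8 ≤ (L : ℝ) ^ (η / 4) := by
      calc z ^ 8 = (2 : ℝ) ^ (((256 * a : ℕ) : ℝ)) := by
            rw [Real.rpow_natCast, ← pow_mul]; ring_nf
        _ ≤ (2 : ℝ) ^ (Real.logb 2 L * (η / 4)) := by
            refine Real.rpow_le_rpow_of_exponent_le one_le_two ?_
            push_cast
            have : c = Real.logb 2 L * η := mul_comm _ _
            linarith
        _ = _ := by rw [Real.rpow_mul zero_le_two, ← hLlog]
    have hba : 4 * (b : ℝ) / a ≤ 4 * (2048 / η + 1) := by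
      have h1 : ((Nat.log 2 L : ℕ) : ℝ) ≤ Real.logb 2 L := by
        have h1 : ((2 : ℝ) ^ Nat.log 2 L) ≤ L := by exact_mod_cast Nat.pow_log_le_self 2 hL.ne'
        rw [Real.le_logb_iff_rpow_le one_lt_two (by linarith), Real.rpow_natCast]
        exact h1
      have h2 : c < 2048 * a := by
        have := Nat.lt_floor_add_one (c / 1024)
        rw [← hadef, div_lt_iff₀ (by norm_num)] at this
        linarith
      have h3 : Real.logb 2 L ≤ 2048 / η * a := by
        rw [div_mul_eq_mul_div, le_div_iff₀ hη]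
        linarith
      rw [div_le_iff₀ (by linarith), hbdef]
      push_cast
      nlinarith
    have hov := overlap_sieved γ hδ hv hw L a b hvL hwL ha hLb
    set Kb := Real.exp (2 * (4 * (b : ℝ) / a + 1))
    have hKb : Kb ≤ K := Real.exp_le_exp.2 (by linarith)
    have t2 : ψv * ψw * (z ^ 8 / D) ≤ C₁ ^ 2 * (mass γ δ v * mass γ δ w) := by
      calc ψv * ψw * (z ^ 8 / D)
          ≤ (C₁ ^ 2 * (L : ℝ) ^ (η / 8) * (mass γ δ v * mass γ δ w)) * ((L : ℝ) ^ (η / 4) / H) := by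
            refine mul_le_mul hψψ ?_ (by positivity) (by positivity)
            exact div_le_div₀ (by positivity) hz8 (by linarith) hD
        _ = C₁ ^ 2 * (mass γ δ v * mass γ δ w)
              * ((L : ℝ) ^ (η / 8) * (L : ℝ) ^ (η / 4) / H) := by ring
        _ ≤ C₁ ^ 2 * (mass γ δ v * mass γ δ w) * 1 := by
            refine mul_le_mul_of_nonneg_left ?_ (by positivity)
            rw [div_le_one (by linarith), ← Real.rpow_add (by linarith)]
            exact Real.rpow_le_rpow_of_exponent_le hL1 (by linarith)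
        _ = _ := mul_one _
    calc overlap γ δ v w
        ≤ 64 * Kb ^ 2 * (mass γ δ v * mass γ δ w) + 4 * (ψv * ψw * (z ^ 8 / D)) := hov
      _ ≤ 64 * K ^ 2 * (mass γ δ v * mass γ δ w) + 4 * (ψv * ψw * (z ^ 8 / D)) := by gcongr
      _ ≤ (64 * K ^ 2 + 4 * C₁ ^ 2) * (mass γ δ v * mass γ δ w) := by linarith
      _ ≤ _ := mul_le_mul_of_nonneg_right (le_max_right _ _) (by positivity)

end Vale.Agent.P028.ExtraLog
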