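import Mathlib
import Vale.Agent.P028.ExtraLog.Primes
import Vale.Agent.P028.ExtraLog.Pattern

/-!
# The weight of a pattern set through its logarithmic measure
-/

namespace Vale.Agent.P028.ExtraLog

open Finset

/-- The squared weight used in Cauchy–Schwarz. -/
noncomputable def sqWeight (C : ℝ) (n : ℕ) : ℝ := patWeight C n ^ 2 * n

lemma sqWeight_nonneg (C : ℝ) (n : ℕ) : 0 ≤ sqWeight C n := by
  unfold sqWeight; positivity

lemma exists_sum_sqWeight_pow_le (C : ℝ) (hC : 0 ≤ C) :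
    ∃ c : ℝ, 0 ≤ c ∧ ∀ p : ℕ, p.Prime → ∀ N : ℕ,
      ∑ k ∈ range (N + 1), sqWeight C (p ^ k) ≤ 1 + c * (1 / (p : ℝ)) := by
  have hs : Summable fun k : ℕ => (k : ℝ) ^ 8 * (1 / 2 : ℝ) ^ k :=
    summable_pow_mul_geometric_of_norm_lt_one 8 (by norm_num)
  refine ⟨2 * C ^ 2 * ∑' k : ℕ, (k : ℝ) ^ 8 * (1 / 2 : ℝ) ^ k,
    mul_nonneg (by positivity) (tsum_nonneg fun k => by positivity), fun p hp N => ?_⟩
  have hp2 : (2 : ℝ) ≤ p := by exact_mod_cast hp.two_le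
  rw [sum_range_succ']
  have h0 : sqWeight C (p ^ 0) = 1 := by simp [sqWeight, patWeight_one]
  rw [h0, add_comm]
  refine add_le_add le_rfl ?_
  calc ∑ k ∈ range N, sqWeight C (p ^ (k + 1))
      ≤ ∑ k ∈ range N, 2 * C ^ 2 / p * (((k + 1 : ℕ) : ℝ) ^ 8 * (1 / 2 : ℝ) ^ (k + 1)) := by
        refine sum_le_sum fun k _ => ?_
        rw [sqWeight, patWeight_prime_pow C hp (Nat.succ_ne_zero k)]
        push_cast
        rw [div_pow, one_div_pow, div_mul_eq_mul_div, div_mul_eq_mul_div, mul_one_div,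
          mul_div_assoc', div_div, div_le_div_iff₀ (by positivity) (by positivity)]
        have h1 : (2 : ℝ) ^ k ≤ (p : ℝ) ^ k := pow_le_pow_left₀ (by norm_num) hp2 k
        calc (C * ((k : ℝ) + 1) ^ 4) ^ 2 * (p : ℝ) ^ (k + 1) * (2 ^ (k + 1) * (p : ℝ))
            = 2 * C ^ 2 * ((k : ℝ) + 1) ^ 8 * (p : ℝ) ^ (k + 2) * 2 ^ k := by ring
          _ ≤ 2 * C ^ 2 * ((k : ℝ) + 1) ^ 8 * (p : ℝ) ^ (k + 2) * (p : ℝ) ^ k :=
              mul_le_mul_of_nonneg_left h1 (by positivity)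
          _ = _ := by rw [Nat.succ_eq_add_one]; ring
    _ = 2 * C ^ 2 / p * ∑ k ∈ range N, ((k + 1 : ℕ) : ℝ) ^ 8 * (1 / 2 : ℝ) ^ (k + 1) :=
        (mul_sum _ _ _).symm
    _ ≤ 2 * C ^ 2 / p * ∑' k : ℕ, (k : ℝ) ^ 8 * (1 / 2 : ℝ) ^ k := by
        refine mul_le_mul_of_nonneg_left ?_ (by positivity)
        have := hs.sum_le_tsum (range (N + 1)) fun k _ => by positivity
        rw [sum_range_succ'] at this
        simpa using this
    _ = _ := by ring

/-- `∑_{n ≤ 2 ^ b} sqWeight n` grows at most like a power of `b`. -/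
lemma exists_sum_sqWeight_le (C : ℝ) (hC : 0 ≤ C) :
    ∃ K c : ℝ, 0 ≤ K ∧ 0 ≤ c ∧ ∀ b : ℕ, 0 < b →
      ∑ n ∈ Finset.Icc 1 (2 ^ b), sqWeight C n ≤ K * (b : ℝ) ^ c := by
  obtain ⟨c, hc, h⟩ := exists_sum_sqWeight_pow_le C hC
  refine ⟨Real.exp (5 * c), 4 * c, (Real.exp_pos _).le, by linarith, fun b hb => ?_⟩
  set N := 2 ^ b with hN
  set S := (range (N + 1)).filter Nat.Prime with hSdef
  have hmul : ∀ m n : ℕ, Nat.Coprime m n → sqWeight C (m * n) = sqWeight C m * sqWeight C n := by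
    intro m n hmn
    simp only [sqWeight, patWeight_mul C hmn]
    push_cast
    ring
  have hall : (Finset.Icc 1 N).filter (fun n => n.primeFactors ⊆ S) = Finset.Icc 1 N := by
    refine filter_eq_self.2 fun n hn p hp => mem_filter.2 ⟨mem_range.2 ?_,
      Nat.prime_of_mem_primeFactors hp⟩
    have := Finset.mem_Icc.1 hn
    have := Nat.le_of_mem_primeFactors hp
    omega
  have hS : ∀ p ∈ S, p.Prime := fun p hp => (mem_filter.1 hp).2
  have he := sum_le_euler (sqWeight C) (sqWeight_nonneg C) (by simp [sqWeight, patWeight_one])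
    hmul N S hS
  rw [hall] at he
  refine he.trans ?_
  refine le_trans (prod_le_prod (fun p _ => sum_nonneg fun k _ => sqWeight_nonneg C _)
    fun p hp => (h p (hS p hp) N).trans
      (le_of_eq_of_le (add_comm _ _) (Real.add_one_le_exp _))) ?_
  rw [← Real.exp_sum, ← mul_sum]
  have hsum := sum_inv_primes_le S hS b fun p hp => by
    have := mem_range.1 (mem_filter.1 hp).1
    omega
  have hb' : (0 : ℝ) < b := by exact_mod_cast hb
  rw [Real.rpow_def_of_pos hb', ← Real.exp_add]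
  refine Real.exp_le_exp.2 ?_
  nlinarith [mul_le_mul_of_nonneg_left hsum hc]

/-- The pattern weight is at most a power of `b` times the square root of `∑ 1 / (s t)`. -/
lemma exists_patSum_le (C : ℝ) (hC : 0 ≤ C) :
    ∃ K c : ℝ, 0 ≤ K ∧ 0 ≤ c ∧ ∀ b : ℕ, 0 < b → ∀ P : Finset (ℕ × ℕ),
      P ⊆ Finset.Icc 1 (2 ^ b) ×ˢ Finset.Icc 1 (2 ^ b) →
        patSum C P ≤ K * (b : ℝ) ^ c * Real.sqrt (∑ q ∈ P, 1 / ((q.1 : ℝ) * q.2)) := by
  obtain ⟨K, c, hK, hc, h⟩ := exists_sum_sqWeight_le C hC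
  refine ⟨K, c, hK, hc, fun b hb P hP => ?_⟩
  have hcs := Real.sum_mul_le_sqrt_mul_sqrt P
    (fun q => patWeight C q.1 * patWeight C q.2 * Real.sqrt ((q.1 : ℝ) * q.2))
    (fun q => 1 / Real.sqrt ((q.1 : ℝ) * q.2))
  have e1 : patSum C P = ∑ q ∈ P, patWeight C q.1 * patWeight C q.2
      * Real.sqrt ((q.1 : ℝ) * q.2) * (1 / Real.sqrt ((q.1 : ℝ) * q.2)) := by
    refine sum_congr rfl fun q hq => ?_
    obtain ⟨h1, h2⟩ := mem_product.1 (hP hq)
    have hq1 : (1 : ℝ) ≤ q.1 := by exact_mod_cast (Finset.mem_Icc.1 h1).1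
    have hq2 : (1 : ℝ) ≤ q.2 := by exact_mod_cast (Finset.mem_Icc.1 h2).1
    field_simp
  rw [e1]
  refine hcs.trans ?_
  refine mul_le_mul ?_ (le_of_eq ?_) (Real.sqrt_nonneg _)
    (mul_nonneg hK (Real.rpow_nonneg (Nat.cast_nonneg b) c))
  · rw [← Real.sqrt_sq (mul_nonneg hK (Real.rpow_nonneg (Nat.cast_nonneg b) c))]
    refine Real.sqrt_le_sqrt ?_
    calc ∑ q ∈ P, (patWeight C q.1 * patWeight C q.2 * Real.sqrt ((q.1 : ℝ) * q.2)) ^ 2
        = ∑ q ∈ P, sqWeight C q.1 * sqWeight C q.2 := by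
          refine sum_congr rfl fun q _ => ?_
          rw [mul_pow, Real.sq_sqrt (by positivity), sqWeight, sqWeight]
          ring
      _ ≤ ∑ q ∈ Finset.Icc 1 (2 ^ b) ×ˢ Finset.Icc 1 (2 ^ b), sqWeight C q.1 * sqWeight C q.2 :=
          sum_le_sum_of_subset_of_nonneg hP fun q _ _ =>
            mul_nonneg (sqWeight_nonneg _ _) (sqWeight_nonneg _ _)
      _ = (∑ n ∈ Finset.Icc 1 (2 ^ b), sqWeight C n) ^ 2 := by
          rw [sum_product, pow_two, sum_mul_sum]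
      _ ≤ _ := pow_le_pow_left₀ (sum_nonneg fun n _ => sqWeight_nonneg C n) (h b hb) 2
  · congr 1
    refine sum_congr rfl fun q _ => ?_
    rw [div_pow, one_pow, Real.sq_sqrt (by positivity)]

end Vale.Agent.P028.ExtraLog
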