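import Mathlib
import Vale.Agent.P028.ExtraLog.LargeScale
import Vale.Agent.P028.ExtraLog.PatBound

/-!
# The overlaps between two finite families

The pairs are split by their scales.  Large scales are handled by the sieve, middle scales and
very unbalanced or small scales by the gcd-sum theorem, and balanced tiny scales by the pattern
inequality.
-/

namespace Vale.Agent.P028.ExtraLog

open Finset

/-- The weight `φ q δ q`. -/
noncomputable def phiMass (δ : ℕ → ℝ) (q : ℕ) : ℝ := (Nat.totient q : ℝ) * δ q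

lemma phiMass_nonneg {δ : ℕ → ℝ} (hδ : Radii δ) (q : ℕ) : 0 ≤ phiMass δ q :=
  mul_nonneg (Nat.cast_nonneg _) (hδ.2 q).1

/-- A bound for edge sums at the exponent `b`, transported to the scales `r₁, r₂`. -/
lemma scaled_le {δ : ℕ → ℝ} (hδ : Radii δ) {V W : Finset ℕ} (hV : ∀ v ∈ V, 0 < v)
    (hW : ∀ w ∈ W, 0 < w) {E : Finset (ℕ × ℕ)} (hE : E ⊆ V ×ˢ W) {r₁ r₂ K b : ℝ} (hr₁ : 0 < r₁)
    (hr₂ : 0 < r₂) (h₁ : ∀ e ∈ E, scaleOf δ e.1 e.2 ≤ r₁) (h₂ : ∀ e ∈ E, scaleOf δ e.2 e.1 ≤ r₂)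
    (hgw : ∀ x y : ℕ → ℝ, Adm V W x y E →
      edgeSum x y E ≤ K * ((∑ v ∈ V, x v) * (∑ w ∈ W, y w)) ^ b) :
    ∑ e ∈ E, phiMass δ e.1 * phiMass δ e.2
      ≤ K * (r₁ * r₂) ^ (1 - b) *
          ((∑ v ∈ V, phiMass δ v) * (∑ w ∈ W, phiMass δ w)) ^ b := by
  have hA : Adm V W (fun v => phiMass δ v / r₁) (fun w => phiMass δ w / r₂) E := by
    refine ⟨hE, hV, hW, fun v => div_nonneg (phiMass_nonneg hδ v) hr₁.le,
      fun w => div_nonneg (phiMass_nonneg hδ w) hr₂.le, fun e he => ?_, fun e he => ?_⟩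
    · rw [div_mul_eq_mul_div, div_le_iff₀ hr₁, phiMass, mul_assoc, mul_comm (δ e.1)]
      exact mul_le_mul_of_nonneg_left (h₁ e he) (Nat.cast_nonneg _)
    · rw [div_mul_eq_mul_div, div_le_iff₀ hr₂, phiMass, mul_assoc, mul_comm (δ e.2),
        Nat.lcm_comm e.1 e.2]
      exact mul_le_mul_of_nonneg_left (h₂ e he) (Nat.cast_nonneg _)
  have h := hgw _ _ hA
  rw [edgeSum, ← sum_div, ← sum_div] at h
  set X := ∑ v ∈ V, phiMass δ v
  set Y := ∑ w ∈ W, phiMass δ w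
  have hX : 0 ≤ X := sum_nonneg fun v _ => phiMass_nonneg hδ v
  have hY : 0 ≤ Y := sum_nonneg fun v _ => phiMass_nonneg hδ v
  have hr : 0 < r₁ * r₂ := mul_pos hr₁ hr₂
  have e1 : ∑ e ∈ E, phiMass δ e.1 / r₁ * (phiMass δ e.2 / r₂)
      = (∑ e ∈ E, phiMass δ e.1 * phiMass δ e.2) / (r₁ * r₂) := by
    rw [sum_div]
    exact sum_congr rfl fun e _ => by rw [div_mul_div_comm]
  rw [e1, div_mul_div_comm, Real.div_rpow (mul_nonneg hX hY) hr.le, div_le_iff₀ hr] at h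
  refine h.trans (le_of_eq ?_)
  rw [Real.rpow_sub hr, Real.rpow_one]
  field_simp

/-- The dyadic level of a scale. -/
noncomputable def lvl (r : ℝ) : ℕ := ⌊-Real.logb 2 r⌋₊

lemma lvl_spec {r : ℝ} (h0 : 0 < r) (h1 : r ≤ 1) :
    r ≤ (2 : ℝ) ^ (-(lvl r : ℝ)) ∧ (2 : ℝ) ^ (-((lvl r : ℝ) + 1)) < r := by
  have hn : 0 ≤ -Real.logb 2 r := neg_nonneg.2 (Real.logb_nonpos one_lt_two h0.le h1)
  have a := Nat.floor_le hn
  have c := Nat.lt_floor_add_one (-Real.logb 2 r)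
  have e : (2 : ℝ) ^ Real.logb 2 r = r := Real.rpow_logb two_pos (by norm_num) h0
  constructor
  · calc r = (2 : ℝ) ^ Real.logb 2 r := e.symm
      _ ≤ _ := Real.rpow_le_rpow_of_exponent_le one_le_two (by unfold lvl; linarith)
  · calc (2 : ℝ) ^ (-((lvl r : ℝ) + 1)) < (2 : ℝ) ^ Real.logb 2 r :=
          Real.rpow_lt_rpow_of_exponent_lt one_lt_two (by unfold lvl; linarith)
      _ = r := e

lemma sum_geom_pairs_le {q : ℝ} (h0 : 0 ≤ q) (h1 : q < 1) (S : Finset (ℕ × ℕ)) :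
    ∑ i ∈ S, q ^ i.1 * q ^ i.2 ≤ (1 / (1 - q)) ^ 2 := by
  have hs := summable_geometric_of_lt_one h0 h1
  have hsub : S ⊆ S.image Prod.fst ×ˢ S.image Prod.snd := fun i hi =>
    mem_product.2 ⟨mem_image_of_mem _ hi, mem_image_of_mem _ hi⟩
  refine (sum_le_sum_of_subset_of_nonneg hsub fun i _ _ => by positivity).trans ?_
  rw [sum_product]
  dsimp only
  rw [← sum_mul_sum, pow_two, one_div, ← tsum_geometric_of_lt_one h0 h1]
  exact mul_le_mul (hs.sum_le_tsum _ fun i _ => pow_nonneg h0 i)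
    (hs.sum_le_tsum _ fun i _ => pow_nonneg h0 i) (sum_nonneg fun i _ => pow_nonneg h0 i)
    (tsum_nonneg fun i => pow_nonneg h0 i)

/-- The edges whose scales are at the levels `i`. -/
noncomputable def atScales (δ : ℕ → ℝ) (E : Finset (ℕ × ℕ)) (i : ℕ × ℕ) : Finset (ℕ × ℕ) :=
  E.filter fun e => (lvl (scaleOf δ e.1 e.2), lvl (scaleOf δ e.2 e.1)) = i

/-- The decay rate in the levels. -/
noncomputable def decayRate : ℝ := (2 : ℝ) ^ (-(1 / 250) : ℝ)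

lemma decayRate_pow (n : ℕ) : decayRate ^ n = (2 : ℝ) ^ (-(1 / 250) * (n : ℝ)) := by
  rw [decayRate, Real.rpow_mul zero_le_two, Real.rpow_natCast]

/-- The middle scales `1 ≤ D < H`. -/
lemma middle_le {δ : ℕ → ℝ} (hδ : Radii δ) {V W : Finset ℕ} (hV : ∀ v ∈ V, 0 < v)
    (hW : ∀ w ∈ W, 0 < w) {E : Finset (ℕ × ℕ)} (hE : E ⊆ V ×ˢ W) {H K b : ℝ} (hH : 1 ≤ H)
    (hK : 0 ≤ K) (hb : 1 / 2 ≤ b)
    (h : ∀ e ∈ E, scaleOf δ e.1 e.2 + scaleOf δ e.2 e.1 ≤ H)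
    (hgw : ∀ x y : ℕ → ℝ, Adm V W x y E →
      edgeSum x y E ≤ K * ((∑ v ∈ V, x v) * (∑ w ∈ W, y w)) ^ b) :
    ∑ e ∈ E, phiMass δ e.1 * phiMass δ e.2
      ≤ K * H * ((∑ v ∈ V, phiMass δ v) * (∑ w ∈ W, phiMass δ w)) ^ b := by
  refine (scaled_le hδ hV hW hE (zero_lt_one.trans_le hH) (zero_lt_one.trans_le hH)
    (fun e he => by linarith [h e he, scaleOf_nonneg hδ e.2 e.1])
    (fun e he => by linarith [h e he, scaleOf_nonneg hδ e.1 e.2]) hgw).trans ?_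
  refine mul_le_mul_of_nonneg_right (mul_le_mul_of_nonneg_left ?_ hK)
    (Real.rpow_nonneg (mul_nonneg (sum_nonneg fun v _ => phiMass_nonneg hδ v)
      (sum_nonneg fun v _ => phiMass_nonneg hδ v)) b)
  calc (H * H) ^ (1 - b) = H ^ (2 * (1 - b)) := by
        rw [Real.rpow_mul (by linarith), Real.rpow_two, pow_two]
    _ ≤ H ^ (1 : ℝ) := Real.rpow_le_rpow_of_exponent_le hH (by linarith)
    _ = H := Real.rpow_one H

/-- The small scales with bounded level. -/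
lemma low_levels_le {δ : ℕ → ℝ} (hδ : Radii δ) {V W : Finset ℕ} (hV : ∀ v ∈ V, 0 < v)
    (hW : ∀ w ∈ W, 0 < w) {E : Finset (ℕ × ℕ)} (hE : E ⊆ V ×ˢ W) {K b : ℝ} (M : ℕ) (hK : 0 ≤ K)
    (hb : 1 / 2 ≤ b)
    (hpos : ∀ e ∈ E, 0 < scaleOf δ e.1 e.2 ∧ 0 < scaleOf δ e.2 e.1)
    (h1 : ∀ e ∈ E, scaleOf δ e.1 e.2 + scaleOf δ e.2 e.1 < 1)
    (hM : ∀ e ∈ E, min (lvl (scaleOf δ e.1 e.2)) (lvl (scaleOf δ e.2 e.1)) ≤ M)
    (hgw : ∀ E' ⊆ E, ∀ x y : ℕ → ℝ, Adm V W x y E' →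
      edgeSum x y E' ≤ K * ((∑ v ∈ V, x v) * (∑ w ∈ W, y w)) ^ b) :
    ∑ e ∈ E, phiMass δ e.1 * phiMass δ e.2 / (scaleOf δ e.1 e.2 + scaleOf δ e.2 e.1)
      ≤ 2 * K * ((M : ℝ) + 1) * (2 : ℝ) ^ ((2 * b - 1) * (M : ℝ)) *
          ((∑ v ∈ V, phiMass δ v) * (∑ w ∈ W, phiMass δ w)) ^ b := by
  set Z := ((∑ v ∈ V, phiMass δ v) * (∑ w ∈ W, phiMass δ w)) ^ b
  have hZ : 0 ≤ Z := Real.rpow_nonneg (mul_nonneg (sum_nonneg fun v _ => phiMass_nonneg hδ v)
    (sum_nonneg fun v _ => phiMass_nonneg hδ v)) b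
  rw [← sum_fiberwise_of_maps_to
    (g := fun e : ℕ × ℕ => min (lvl (scaleOf δ e.1 e.2)) (lvl (scaleOf δ e.2 e.1)))
    (t := range (M + 1)) fun e he => mem_range.2 (Nat.lt_succ_of_le (hM e he))]
  calc ∑ m ∈ range (M + 1), ∑ e ∈ E.filter (fun e =>
          min (lvl (scaleOf δ e.1 e.2)) (lvl (scaleOf δ e.2 e.1)) = m),
        phiMass δ e.1 * phiMass δ e.2 / (scaleOf δ e.1 e.2 + scaleOf δ e.2 e.1)
      ≤ ∑ _m ∈ range (M + 1), 2 * K * (2 : ℝ) ^ ((2 * b - 1) * (M : ℝ)) * Z := by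
        refine sum_le_sum fun m hm => ?_
        set E' := E.filter (fun e =>
          min (lvl (scaleOf δ e.1 e.2)) (lvl (scaleOf δ e.2 e.1)) = m)
        set r := (2 : ℝ) ^ (-(m : ℝ)) with hr
        have hr0 : 0 < r := Real.rpow_pos_of_pos two_pos _
        have hfact : ∀ e ∈ E', scaleOf δ e.1 e.2 ≤ r ∧ scaleOf δ e.2 e.1 ≤ r ∧
            1 / (scaleOf δ e.1 e.2 + scaleOf δ e.2 e.1) ≤ (2 : ℝ) ^ ((m : ℝ) + 1) := by
          intro e he
          obtain ⟨heE, hmin⟩ := mem_filter.1 he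
          obtain ⟨p1, p2⟩ := hpos e heE
          have hs := h1 e heE
          obtain ⟨a1, c1⟩ := lvl_spec p1 (by linarith)
          obtain ⟨a2, c2⟩ := lvl_spec p2 (by linarith)
          have l1 : (m : ℝ) ≤ lvl (scaleOf δ e.1 e.2) := by
            exact_mod_cast hmin ▸ min_le_left _ _
          have l2 : (m : ℝ) ≤ lvl (scaleOf δ e.2 e.1) := by
            exact_mod_cast hmin ▸ min_le_right _ _
          refine ⟨a1.trans (Real.rpow_le_rpow_of_exponent_le one_le_two (by linarith)),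
            a2.trans (Real.rpow_le_rpow_of_exponent_le one_le_two (by linarith)), ?_⟩
          have hlow : (2 : ℝ) ^ (-((m : ℝ) + 1)) ≤ scaleOf δ e.1 e.2 + scaleOf δ e.2 e.1 := by
            rcases min_choice (lvl (scaleOf δ e.1 e.2)) (lvl (scaleOf δ e.2 e.1)) with h | h <;>
              rw [hmin] at h <;> rw [h] <;> linarith
          rw [Real.rpow_neg zero_le_two] at hlow
          rw [one_div]
          exact inv_le_of_inv_le₀ (Real.rpow_pos_of_pos two_pos _) hlow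
        have hsc := scaled_le hδ hV hW ((filter_subset _ _).trans hE) hr0 hr0
          (fun e he => (hfact e he).1) (fun e he => (hfact e he).2.1) (hgw _ (filter_subset _ _))
        calc ∑ e ∈ E', phiMass δ e.1 * phiMass δ e.2 / (scaleOf δ e.1 e.2 + scaleOf δ e.2 e.1)
            ≤ ∑ e ∈ E', phiMass δ e.1 * phiMass δ e.2 * (2 : ℝ) ^ ((m : ℝ) + 1) := by
              refine sum_le_sum fun e he => ?_
              rw [div_eq_mul_one_div]
              exact mul_le_mul_of_nonneg_left (hfact e he).2.2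
                (mul_nonneg (phiMass_nonneg hδ _) (phiMass_nonneg hδ _))
          _ ≤ (K * (r * r) ^ (1 - b) * Z) * (2 : ℝ) ^ ((m : ℝ) + 1) := by
              rw [← sum_mul]
              exact mul_le_mul_of_nonneg_right hsc (Real.rpow_nonneg zero_le_two _)
          _ = 2 * K * (2 : ℝ) ^ ((2 * b - 1) * (m : ℝ)) * Z := by
              have e1 : (r * r) ^ (1 - b) * (2 : ℝ) ^ ((m : ℝ) + 1)
                  = 2 * (2 : ℝ) ^ ((2 * b - 1) * (m : ℝ)) := by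
                rw [hr, ← Real.rpow_add two_pos, ← Real.rpow_mul zero_le_two,
                  Real.rpow_add two_pos (m : ℝ), Real.rpow_one, ← mul_assoc,
                  ← Real.rpow_add two_pos, mul_comm]
                congr 2
                ring
              linear_combination (K * Z) * e1
          _ ≤ _ := by
              gcongr
              all_goals first
                | linarith
                | exact_mod_cast Nat.le_of_lt_succ (mem_range.1 hm)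
    _ = _ := by rw [sum_const, card_range, nsmul_eq_mul]; push_cast; ring

/-- The small scales with large level. -/
lemma high_levels_le (γ : ℝ) {δ : ℕ → ℝ} (hδ : Radii δ) {V W : Finset ℕ} (L : ℕ) (hL : 0 < L)
    (hV : ∀ v ∈ V, 0 < δ v ∧ v ≤ 2 ^ L) (hW : ∀ w ∈ W, 0 < δ w ∧ w ≤ 2 ^ L)
    {E : Finset (ℕ × ℕ)} (hE : E ⊆ V ×ˢ W) (hne : ∀ e ∈ E, e.1 ≠ e.2 ∧ overlap γ δ e.1 e.2 ≠ 0)
    (hD : ∀ e ∈ E, scaleOf δ e.1 e.2 + scaleOf δ e.2 e.1 < 1) (M : ℕ) (hM20 : 20 ≤ M)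
    (hM : ∀ e ∈ E, M < min (lvl (scaleOf δ e.1 e.2)) (lvl (scaleOf δ e.2 e.1)))
    {K₀ K₁ c C : ℝ} (hK₀ : 0 ≤ K₀) (hK₁ : 0 ≤ K₁) (hC : (8000 / (1 / 100)) ^ 2 ≤ C) (hc : 0 ≤ c)
    (hgw : ∀ E' ⊆ E, ∀ x y : ℕ → ℝ, Adm V W x y E' →
      edgeSum x y E' ≤ K₀ * ((∑ v ∈ V, x v) * (∑ w ∈ W, y w)) ^ (101 / 200 : ℝ))
    (hpat : ∀ P : Finset (ℕ × ℕ), P ⊆ Finset.Icc 1 (2 ^ L) ×ˢ Finset.Icc 1 (2 ^ L) →
      patSum C P ≤ K₁ * (L : ℝ) ^ c * Real.sqrt (∑ q ∈ P, 1 / ((q.1 : ℝ) * q.2)))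
    (hLM : (L : ℝ) ^ ((c + 1) * (99 / 200)) ≤ (2 : ℝ) ^ ((M : ℝ) / 200)) :
    ∑ e ∈ E, phiMass δ e.1 * phiMass δ e.2 / (scaleOf δ e.1 e.2 + scaleOf δ e.2 e.1)
      ≤ 2 * (K₀ + (24 * K₁) ^ (99 / 200 : ℝ)) * (1 / (1 - decayRate)) ^ 2 *
          ((∑ v ∈ V, phiMass δ v) * (∑ w ∈ W, phiMass δ w)) ^ (101 / 200 : ℝ) := by
  classical
  have hVp : ∀ v ∈ V, 0 < v := fun v hv => Nat.pos_of_ne_zero fun h => by
    have := (hV v hv).1; rw [h, hδ.1] at this; exact lt_irrefl 0 this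
  have hWp : ∀ w ∈ W, 0 < w := fun w hw => Nat.pos_of_ne_zero fun h => by
    have := (hW w hw).1; rw [h, hδ.1] at this; exact lt_irrefl 0 this
  set Z := ((∑ v ∈ V, phiMass δ v) * (∑ w ∈ W, phiMass δ w)) ^ (101 / 200 : ℝ)
  have hZ : 0 ≤ Z := Real.rpow_nonneg (mul_nonneg (sum_nonneg fun v _ => phiMass_nonneg hδ v)
    (sum_nonneg fun v _ => phiMass_nonneg hδ v)) _
  set B := 2 * (K₀ + (24 * K₁) ^ (99 / 200 : ℝ))
  have hB : 0 ≤ B := by positivity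
  set I := E.image fun e => (lvl (scaleOf δ e.1 e.2), lvl (scaleOf δ e.2 e.1))
  rw [← sum_fiberwise_of_maps_to
    (g := fun e : ℕ × ℕ => (lvl (scaleOf δ e.1 e.2), lvl (scaleOf δ e.2 e.1))) (t := I)
    fun e he => mem_image_of_mem _ he]
  suffices hcell : ∀ i ∈ I, ∑ e ∈ atScales δ E i,
      phiMass δ e.1 * phiMass δ e.2 / (scaleOf δ e.1 e.2 + scaleOf δ e.2 e.1)
        ≤ B * Z * (decayRate ^ i.1 * decayRate ^ i.2) by
    refine (sum_le_sum hcell).trans ?_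
    rw [← mul_sum]
    have hq : decayRate < 1 := Real.rpow_lt_one_of_one_lt_of_neg one_lt_two (by norm_num)
    have := sum_geom_pairs_le (Real.rpow_nonneg zero_le_two _) hq I
    calc B * Z * ∑ i ∈ I, decayRate ^ i.1 * decayRate ^ i.2
        ≤ B * Z * (1 / (1 - decayRate)) ^ 2 := mul_le_mul_of_nonneg_left this (mul_nonneg hB hZ)
      _ = _ := by ring
  rintro ⟨m₁, m₂⟩ hi
  obtain ⟨e₀, he₀, hi0⟩ := mem_image.1 hi
  simp only [Prod.mk.injEq] at hi0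
  set m := min m₁ m₂ with hm
  have hmM : M < m := by
    have := hM e₀ he₀
    rw [hi0.1, hi0.2] at this
    exact this
  set r₁ := (2 : ℝ) ^ (-(m₁ : ℝ)) with hr₁
  set r₂ := (2 : ℝ) ^ (-(m₂ : ℝ)) with hr₂
  set E' := atScales δ E (m₁, m₂)
  have hfact : ∀ e ∈ E', scaleOf δ e.1 e.2 ≤ r₁ ∧ scaleOf δ e.2 e.1 ≤ r₂ ∧
      (2 : ℝ) ^ (-((m₁ : ℝ) + 1)) < scaleOf δ e.1 e.2 ∧
      (2 : ℝ) ^ (-((m₂ : ℝ) + 1)) < scaleOf δ e.2 e.1 := by
    intro e he
    obtain ⟨heE, hlv⟩ := mem_filter.1 he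
    simp only [Prod.mk.injEq] at hlv
    obtain ⟨hv, hw⟩ := mem_product.1 (hE heE)
    have hs := hD e heE
    have p1 : 0 < scaleOf δ e.1 e.2 :=
      mul_pos (by exact_mod_cast Nat.lcm_pos (hVp _ hv) (hWp _ hw)) (hV _ hv).1
    have p2 : 0 < scaleOf δ e.2 e.1 :=
      mul_pos (by exact_mod_cast Nat.lcm_pos (hWp _ hw) (hVp _ hv)) (hW _ hw).1
    obtain ⟨a1, c1⟩ := lvl_spec p1 (by linarith)
    obtain ⟨a2, c2⟩ := lvl_spec p2 (by linarith)
    rw [hlv.1] at a1 c1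
    rw [hlv.2] at a2 c2
    exact ⟨a1, a2, c1, c2⟩
  have hsubE : E' ⊆ E := filter_subset _ _
  have hdiv : ∑ e ∈ E', phiMass δ e.1 * phiMass δ e.2 / (scaleOf δ e.1 e.2 + scaleOf δ e.2 e.1)
      ≤ (2 : ℝ) ^ ((m : ℝ) + 1) * ∑ e ∈ E', phiMass δ e.1 * phiMass δ e.2 := by
    rw [mul_sum]
    refine sum_le_sum fun e he => ?_
    obtain ⟨-, -, c1, c2⟩ := hfact e he
    have hlow : (2 : ℝ) ^ (-((m : ℝ) + 1)) ≤ scaleOf δ e.1 e.2 + scaleOf δ e.2 e.1 := by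
      have p1 := scaleOf_nonneg hδ e.1 e.2
      have p2 := scaleOf_nonneg hδ e.2 e.1
      rcases min_choice m₁ m₂ with h | h <;> rw [hm, h] <;> linarith
    rw [Real.rpow_neg zero_le_two] at hlow
    rw [div_eq_inv_mul]
    exact mul_le_mul_of_nonneg_right (inv_le_of_inv_le₀ (Real.rpow_pos_of_pos two_pos _) hlow)
      (mul_nonneg (phiMass_nonneg hδ _) (phiMass_nonneg hδ _))
  have hr12 : (r₁ * r₂) ^ (1 - 101 / 200 : ℝ)
      = (2 : ℝ) ^ (-((m₁ : ℝ) + m₂) * (99 / 200)) := by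
    rw [hr₁, hr₂, ← Real.rpow_add two_pos, ← Real.rpow_mul zero_le_two]
    congr 1
    ring
  have hdec : decayRate ^ m₁ * decayRate ^ m₂
      = (2 : ℝ) ^ (-(1 / 250) * ((m₁ : ℝ) + m₂)) := by
    rw [decayRate_pow, decayRate_pow, ← Real.rpow_add two_pos]
    congr 1
    ring
  show ∑ e ∈ E', _ ≤ B * Z * (decayRate ^ m₁ * decayRate ^ m₂)
  rw [hdec]
  by_cases hbal : (20 : ℝ) * (max m₁ m₂ : ℕ) ≤ 21 * m
  swap
  · -- unbalanced levels
    rw [not_le] at hbal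
    have hsc := scaled_le hδ hVp hWp (hsubE.trans hE) (Real.rpow_pos_of_pos two_pos _)
      (Real.rpow_pos_of_pos two_pos _) (fun e he => (hfact e he).1) (fun e he => (hfact e he).2.1)
      (hgw E' hsubE)
    have hexp : (m : ℝ) - ((m₁ : ℝ) + m₂) * (99 / 200) ≤ -(1 / 250) * ((m₁ : ℝ) + m₂) := by
      have hsum : (m : ℝ) + (max m₁ m₂ : ℕ) = (m₁ : ℝ) + m₂ := by
        exact_mod_cast min_add_max m₁ m₂
      have : (0 : ℝ) ≤ m := Nat.cast_nonneg m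
      linarith
    calc ∑ e ∈ E', _ ≤ (2 : ℝ) ^ ((m : ℝ) + 1) *
            (K₀ * (r₁ * r₂) ^ (1 - 101 / 200 : ℝ) * Z) :=
          hdiv.trans (mul_le_mul_of_nonneg_left hsc (Real.rpow_nonneg zero_le_two _))
      _ = (2 * K₀) * Z * (2 : ℝ) ^ ((m : ℝ) - ((m₁ : ℝ) + m₂) * (99 / 200)) := by
          rw [hr12, sub_eq_add_neg (m : ℝ), ← neg_mul, Real.rpow_add two_pos,
            Real.rpow_add two_pos, Real.rpow_one]
          ring
      _ ≤ B * Z * (2 : ℝ) ^ (-(1 / 250) * ((m₁ : ℝ) + m₂)) := by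
          refine mul_le_mul (mul_le_mul_of_nonneg_right ?_ hZ)
            (Real.rpow_le_rpow_of_exponent_le one_le_two hexp) (Real.rpow_nonneg zero_le_two _)
            (mul_nonneg hB hZ)
          have : (0 : ℝ) ≤ (24 * K₁) ^ (99 / 200 : ℝ) := Real.rpow_nonneg (by positivity) _
          linarith
  · -- balanced levels
    set y := (2 : ℝ) ^ (-(m : ℝ)) with hy
    have hy0 : 0 < y := Real.rpow_pos_of_pos two_pos _
    have hmR : (20 : ℝ) ≤ m := by exact_mod_cast hM20.trans hmM.le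
    have hy20 : y ≤ 1 / 2 ^ 20 := by
      rw [hy, one_div, ← Real.rpow_natCast (2 : ℝ) 20, ← Real.rpow_neg zero_le_two]
      exact Real.rpow_le_rpow_of_exponent_le one_le_two (by push_cast; linarith)
    have hm1 : (m : ℝ) ≤ m₁ := by exact_mod_cast min_le_left m₁ m₂
    have hm2 : (m : ℝ) ≤ m₂ := by exact_mod_cast min_le_right m₁ m₂
    have hm1' : (20 : ℝ) * m₁ ≤ 21 * m := by
      have : (m₁ : ℝ) ≤ (max m₁ m₂ : ℕ) := by exact_mod_cast le_max_left m₁ m₂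
      linarith
    have hm2' : (20 : ℝ) * m₂ ≤ 21 * m := by
      have : (m₂ : ℝ) ≤ (max m₁ m₂ : ℕ) := by exact_mod_cast le_max_right m₁ m₂
      linarith
    have hlow : ∀ n : ℕ, (20 : ℝ) * n ≤ 21 * m →
        y ^ (11 / 10 : ℝ) ≤ (2 : ℝ) ^ (-((n : ℝ) + 1)) := by
      intro n hn
      rw [hy, ← Real.rpow_mul zero_le_two]
      exact Real.rpow_le_rpow_of_exponent_le one_le_two (by linarith)
    set P := patSet γ y (2 ^ L)
    have hP : ∀ e ∈ E', pattern e ∈ P := by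
      intro e he
      obtain ⟨hv, hw⟩ := mem_product.1 (hE (hsubE he))
      obtain ⟨a1, a2, c1, c2⟩ := hfact e he
      exact pattern_mem_patSet γ hδ (hne e (hsubE he)).1 (hV _ hv).1 (hW _ hw).1 (hV _ hv).2
        (hW _ hw).2 (hne e (hsubE he)).2 hy0 hy20
        (a1.trans (Real.rpow_le_rpow_of_exponent_le one_le_two (by linarith)))
        ((hlow m₁ hm1').trans c1.le)
        (a2.trans (Real.rpow_le_rpow_of_exponent_le one_le_two (by linarith)))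
        ((hlow m₂ hm2').trans c2.le)
    have hC0 : (8000 / (2 * (101 / 200 : ℝ) - 1)) ^ 2 ≤ C := by norm_num at hC ⊢; linarith
    have hsc := scaled_le hδ hVp hWp (hsubE.trans hE) (Real.rpow_pos_of_pos two_pos _)
      (Real.rpow_pos_of_pos two_pos _) (fun e he => (hfact e he).1) (fun e he => (hfact e he).2.1)
      (K := patSum C P ^ (1 - 101 / 200 : ℝ)) (b := 101 / 200)
      (fun x y' hA => edgeSum_le_patSum (by norm_num) (by norm_num) hC0 V W x y' E' hA P hP)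
    have hy4 : y ≤ 1 / 4 := hy20.trans (by norm_num)
    have hps : patSum C P ≤ (24 * K₁) * (L : ℝ) ^ (c + 1) * y ^ (1 / 20 : ℝ) := by
      refine (hpat P (patSet_subset γ y _)).trans ?_
      have hsum := sum_patSet_le γ y hy0 hy4 L hL
      have hL0 : (0 : ℝ) < L := by exact_mod_cast hL
      have hsq : Real.sqrt (∑ q ∈ P, 1 / ((q.1 : ℝ) * q.2)) ≤ 24 * L * y ^ (1 / 20 : ℝ) := by
        rw [← Real.sqrt_sq (show 0 ≤ 24 * (L : ℝ) * y ^ (1 / 20 : ℝ) by positivity)]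
        refine Real.sqrt_le_sqrt (hsum.trans ?_)
        have e : (y ^ (1 / 20 : ℝ)) ^ 2 = y ^ (1 / 10 : ℝ) := by
          rw [← Real.rpow_natCast, ← Real.rpow_mul hy0.le]; norm_num
        rw [mul_pow, mul_pow, e]
        gcongr
        norm_num
      calc K₁ * (L : ℝ) ^ c * Real.sqrt _ ≤ K₁ * (L : ℝ) ^ c * (24 * L * y ^ (1 / 20 : ℝ)) :=
            mul_le_mul_of_nonneg_left hsq (mul_nonneg hK₁ (Real.rpow_nonneg hL0.le c))
        _ = _ := by rw [Real.rpow_add hL0, Real.rpow_one]; ring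
    have hps0 : 0 ≤ patSum C P := sum_nonneg fun q _ => mul_nonneg
      (patWeight_nonneg (le_trans (sq_nonneg _) hC) _)
      (patWeight_nonneg (le_trans (sq_nonneg _) hC) _)
    have hL0 : (0 : ℝ) ≤ L := Nat.cast_nonneg L
    have hps' : patSum C P ^ (1 - 101 / 200 : ℝ)
        ≤ (24 * K₁) ^ (99 / 200 : ℝ) * (2 : ℝ) ^ ((m : ℝ) / 200)
            * (2 : ℝ) ^ (-(m : ℝ) / 20 * (99 / 200)) := by
      rw [show (1 - 101 / 200 : ℝ) = 99 / 200 by norm_num]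
      refine (Real.rpow_le_rpow hps0 hps (by norm_num)).trans ?_
      rw [Real.mul_rpow (by positivity) (Real.rpow_nonneg hy0.le _),
        Real.mul_rpow (by positivity) (Real.rpow_nonneg hL0 _), ← Real.rpow_mul hL0,
        ← Real.rpow_mul hy0.le, hy, ← Real.rpow_mul zero_le_two]
      refine mul_le_mul (mul_le_mul_of_nonneg_left (hLM.trans ?_) (Real.rpow_nonneg (by positivity) _))
        (le_of_eq (by ring_nf)) (Real.rpow_nonneg zero_le_two _) (by positivity)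
      refine Real.rpow_le_rpow_of_exponent_le one_le_two ?_
      have : (M : ℝ) ≤ m := by exact_mod_cast hmM.le
      linarith
    have hexp : (m : ℝ) / 200 + -(m : ℝ) / 20 * (99 / 200) + (m : ℝ)
        + -((m₁ : ℝ) + m₂) * (99 / 200) ≤ -(1 / 250) * ((m₁ : ℝ) + m₂) := by
      have hsum : (m : ℝ) + (max m₁ m₂ : ℕ) = (m₁ : ℝ) + m₂ := by
        exact_mod_cast min_add_max m₁ m₂
      have : (m : ℝ) ≤ (max m₁ m₂ : ℕ) := by exact_mod_cast min_le_max (a := m₁) (b := m₂)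
      linarith
    calc ∑ e ∈ E', _ ≤ (2 : ℝ) ^ ((m : ℝ) + 1) *
            (patSum C P ^ (1 - 101 / 200 : ℝ) * (r₁ * r₂) ^ (1 - 101 / 200 : ℝ) * Z) :=
          hdiv.trans (mul_le_mul_of_nonneg_left hsc (Real.rpow_nonneg zero_le_two _))
      _ ≤ (2 : ℝ) ^ ((m : ℝ) + 1) * ((24 * K₁) ^ (99 / 200 : ℝ) * (2 : ℝ) ^ ((m : ℝ) / 200)
            * (2 : ℝ) ^ (-(m : ℝ) / 20 * (99 / 200)) * (r₁ * r₂) ^ (1 - 101 / 200 : ℝ) * Z) := by
          refine mul_le_mul_of_nonneg_left (mul_le_mul_of_nonneg_right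
            (mul_le_mul_of_nonneg_right hps' ?_) hZ) (Real.rpow_nonneg zero_le_two _)
          exact Real.rpow_nonneg (by positivity) _
      _ = (2 * (24 * K₁) ^ (99 / 200 : ℝ)) * Z * (2 : ℝ) ^ ((m : ℝ) / 200
            + -(m : ℝ) / 20 * (99 / 200) + (m : ℝ) + -((m₁ : ℝ) + m₂) * (99 / 200)) := by
          rw [hr12]
          simp only [Real.rpow_add two_pos, Real.rpow_one]
          ring
      _ ≤ B * Z * (2 : ℝ) ^ (-(1 / 250) * ((m₁ : ℝ) + m₂)) := by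
          refine mul_le_mul (mul_le_mul_of_nonneg_right ?_ hZ)
            (Real.rpow_le_rpow_of_exponent_le one_le_two hexp) (Real.rpow_nonneg zero_le_two _)
            (mul_nonneg hB hZ)
          linarith

end Vale.Agent.P028.ExtraLog
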