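import Mathlib
import Vale.Agent.P028.ExtraLog.PairBound

/-!
# The bound for all overlaps between two finite families
-/

namespace Vale.Agent.P028.ExtraLog

open Finset

/-- The threshold level for the small scales. -/
noncomputable def levelCap (C₀ : ℝ) (L : ℕ) : ℕ := 20 + ⌈C₀ * Real.logb 2 L⌉₊

lemma levelCap_bounds {C₀ : ℝ} (hC₀ : 0 ≤ C₀) {L : ℕ} (hL : 0 < L) {θ η : ℝ} (hθ : 0 ≤ θ)
    (hθ1 : θ ≤ 1) (hη : 0 < η) (hθC : θ * C₀ ≤ η) :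
    ((levelCap C₀ L : ℝ) + 1) * (2 : ℝ) ^ (θ * (levelCap C₀ L : ℝ))
      ≤ (22 + 2 * C₀ / η) * 2 ^ 21 * (L : ℝ) ^ (2 * η) := by
  have hL1 : (1 : ℝ) ≤ L := by exact_mod_cast hL
  have hlb : 0 ≤ Real.logb 2 L := Real.logb_nonneg one_lt_two hL1
  have hup : (levelCap C₀ L : ℝ) ≤ C₀ * Real.logb 2 L + 21 := by
    have := Nat.ceil_lt_add_one (mul_nonneg hC₀ hlb)
    unfold levelCap
    push_cast
    linarith
  have hlog : Real.logb 2 L ≤ 2 * ((L : ℝ) ^ η / η) := by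
    have h1 := Real.log_le_rpow_div (by linarith : (0 : ℝ) ≤ L) hη
    have h2 : (1 / 2 : ℝ) ≤ Real.log 2 := by
      have := Real.one_sub_inv_le_log_of_pos (show (0 : ℝ) < 2 by norm_num)
      norm_num at this
      linarith
    rw [Real.logb, div_le_iff₀ (by linarith)]
    have h3 : 0 ≤ (L : ℝ) ^ η / η := by positivity
    nlinarith
  have hLη : 1 ≤ (L : ℝ) ^ η := Real.one_le_rpow hL1 hη.le
  have h1 : (levelCap C₀ L : ℝ) + 1 ≤ (22 + 2 * C₀ / η) * (L : ℝ) ^ η := by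
    have a := mul_le_mul_of_nonneg_left hlog hC₀
    have e : C₀ * (2 * ((L : ℝ) ^ η / η)) = 2 * C₀ / η * (L : ℝ) ^ η := by ring
    nlinarith
  have h2 : (2 : ℝ) ^ (θ * (levelCap C₀ L : ℝ)) ≤ 2 ^ 21 * (L : ℝ) ^ η := by
    calc (2 : ℝ) ^ (θ * (levelCap C₀ L : ℝ)) ≤ (2 : ℝ) ^ (((21 : ℕ) : ℝ) + Real.logb 2 L * η) := by
          refine Real.rpow_le_rpow_of_exponent_le one_le_two ?_
          have a := mul_le_mul_of_nonneg_left hup hθ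
          have c := mul_le_mul_of_nonneg_right hθC hlb
          push_cast
          nlinarith
      _ = 2 ^ 21 * (L : ℝ) ^ η := by
          rw [Real.rpow_add two_pos, Real.rpow_natCast, Real.rpow_mul zero_le_two,
            Real.rpow_logb two_pos (by norm_num) (by linarith)]
  calc ((levelCap C₀ L : ℝ) + 1) * (2 : ℝ) ^ (θ * (levelCap C₀ L : ℝ))
      ≤ ((22 + 2 * C₀ / η) * (L : ℝ) ^ η) * (2 ^ 21 * (L : ℝ) ^ η) :=
        mul_le_mul h1 h2 (Real.rpow_nonneg zero_le_two _) (by positivity)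
    _ = _ := by
        rw [show (2 : ℝ) * η = η + η by ring, Real.rpow_add (by linarith)]
        ring

lemma rpow_le_levelCap {C₀ e : ℝ} {L : ℕ} (hL : 0 < L) (he : 200 * e ≤ C₀) :
    (L : ℝ) ^ e ≤ (2 : ℝ) ^ ((levelCap C₀ L : ℝ) / 200) := by
  have hL1 : (1 : ℝ) ≤ L := by exact_mod_cast hL
  have hlb : 0 ≤ Real.logb 2 L := Real.logb_nonneg one_lt_two hL1
  calc (L : ℝ) ^ e = (2 : ℝ) ^ (Real.logb 2 L * e) := by
        rw [Real.rpow_mul zero_le_two, Real.rpow_logb two_pos (by norm_num) (by linarith)]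
    _ ≤ _ := by
        refine Real.rpow_le_rpow_of_exponent_le one_le_two ?_
        have := Nat.le_ceil (C₀ * Real.logb 2 L)
        have a := mul_le_mul_of_nonneg_left he hlb
        unfold levelCap
        push_cast
        linarith

lemma exists_small_param {η C₀ : ℝ} (hη : 0 < η) (hC₀ : 0 ≤ C₀) :
    ∃ θ : ℝ, 0 < θ ∧ θ ≤ 1 / 100 ∧ θ * C₀ ≤ η := by
  refine ⟨min (1 / 100) (η / (C₀ + 1)), lt_min (by norm_num) (by positivity), min_le_left _ _, ?_⟩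
  refine (mul_le_mul_of_nonneg_right (min_le_right _ _) hC₀).trans ?_
  rw [div_mul_eq_mul_div, div_le_iff₀ (by linarith)]
  nlinarith

/-- The three ranges of scales. -/
lemma pair_bound_of (γ : ℝ) {δ : ℕ → ℝ} (hδ : Radii δ) (L : ℕ) {V W : Finset ℕ}
    (hV : ∀ v ∈ V, 0 < δ v ∧ v ≤ 2 ^ L) (hW : ∀ w ∈ W, 0 < δ w ∧ w ≤ 2 ^ L) {H R A C : ℝ}
    (hA : 0 ≤ A) (hH : 1 ≤ H) (hC : 0 ≤ C)
    (hR : ∀ q : ℕ, q ≤ 2 ^ L → (q : ℝ) ≤ R * Nat.totient q)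
    (hlarge : ∀ v w : ℕ, 0 < δ v → 0 < δ w → v ≤ 2 ^ L → w ≤ 2 ^ L →
      H ≤ scaleOf δ v w + scaleOf δ w v → overlap γ δ v w ≤ C * (mass γ δ v * mass γ δ w))
    (hmid : ∀ E ⊆ V ×ˢ W, (∀ e ∈ E, scaleOf δ e.1 e.2 + scaleOf δ e.2 e.1 ≤ H) →
      ∑ e ∈ E, phiMass δ e.1 * phiMass δ e.2 ≤ A)
    (hsmall : ∀ E ⊆ V ×ˢ W, (∀ e ∈ E, scaleOf δ e.1 e.2 + scaleOf δ e.2 e.1 < 1 ∧ e.1 ≠ e.2 ∧
      overlap γ δ e.1 e.2 ≠ 0) →
      ∑ e ∈ E, phiMass δ e.1 * phiMass δ e.2 / (scaleOf δ e.1 e.2 + scaleOf δ e.2 e.1) ≤ A) :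
    ∑ e ∈ (V ×ˢ W).filter (fun e => e.1 ≠ e.2), overlap γ δ e.1 e.2
      ≤ C * ((∑ v ∈ V, mass γ δ v) * (∑ w ∈ W, mass γ δ w)) + 32 * R ^ 2 * A := by
  classical
  set S := (V ×ˢ W).filter (fun e => e.1 ≠ e.2)
  set D := fun e : ℕ × ℕ => scaleOf δ e.1 e.2 + scaleOf δ e.2 e.1
  have hpos : ∀ e ∈ S, 0 < δ e.1 ∧ 0 < δ e.2 ∧ e.1 ≤ 2 ^ L ∧ e.2 ≤ 2 ^ L := fun e he => by
    obtain ⟨a, c⟩ := mem_product.1 (mem_filter.1 he).1
    exact ⟨(hV _ a).1, (hW _ c).1, (hV _ a).2, (hW _ c).2⟩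
  have hD0 : ∀ e ∈ S, 0 < D e := fun e he => by
    obtain ⟨h1, h2, -, -⟩ := hpos e he
    have p1 : 0 < e.1 := Nat.pos_of_ne_zero fun h => by rw [h, hδ.1] at h1; exact lt_irrefl 0 h1
    have p2 : 0 < e.2 := Nat.pos_of_ne_zero fun h => by rw [h, hδ.1] at h2; exact lt_irrefl 0 h2
    have : 0 < scaleOf δ e.1 e.2 := mul_pos (by exact_mod_cast Nat.lcm_pos p1 p2) h1
    linarith [scaleOf_nonneg hδ e.2 e.1]
  have hbd : ∀ e ∈ S, overlap γ δ e.1 e.2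
      ≤ 8 * R ^ 2 * (phiMass δ e.1 * phiMass δ e.2) * (1 + 1 / D e) := fun e he => by
    obtain ⟨h1, h2, h3, h4⟩ := hpos e he
    refine (overlap_le_ratio γ hδ h1 h2).trans (mul_le_mul_of_nonneg_right ?_
      (by have := hD0 e he; positivity))
    have a := mul_le_mul_of_nonneg_right (hR _ h3) (hδ.2 e.1).1
    have c := mul_le_mul_of_nonneg_right (hR _ h4) (hδ.2 e.2).1
    have p : 0 ≤ (e.2 : ℝ) * δ e.2 := mul_nonneg (Nat.cast_nonneg _) h2.le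
    have q : 0 ≤ R * Nat.totient e.1 * δ e.1 :=
      le_trans (mul_nonneg (Nat.cast_nonneg _) h1.le) a
    calc 8 * ((e.1 : ℝ) * δ e.1) * ((e.2 : ℝ) * δ e.2)
        ≤ 8 * (R * Nat.totient e.1 * δ e.1) * (R * Nat.totient e.2 * δ e.2) :=
          mul_le_mul (mul_le_mul_of_nonneg_left a (by norm_num)) c p (by linarith)
      _ = _ := by unfold phiMass; ring
  rw [← sum_filter_add_sum_filter_not S (fun e => H ≤ D e),
    ← sum_filter_add_sum_filter_not (S.filter fun e => ¬ H ≤ D e) (fun e => 1 ≤ D e)]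
  have c1 : ∑ e ∈ S.filter (fun e => H ≤ D e), overlap γ δ e.1 e.2
      ≤ C * ((∑ v ∈ V, mass γ δ v) * (∑ w ∈ W, mass γ δ w)) := by
    rw [sum_mul_sum, ← sum_product' V W fun v w => mass γ δ v * mass γ δ w, mul_sum]
    refine (sum_le_sum fun e he => ?_).trans (sum_le_sum_of_subset_of_nonneg
      ((filter_subset _ _).trans (filter_subset _ _)) fun e _ _ => mul_nonneg hC (mul_nonneg
        (mass_nonneg (fun q => (hδ.2 q).1) γ _) (mass_nonneg (fun q => (hδ.2 q).1) γ _)))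
    obtain ⟨heS, hH'⟩ := mem_filter.1 he
    obtain ⟨h1, h2, h3, h4⟩ := hpos e heS
    exact hlarge _ _ h1 h2 h3 h4 hH'
  have hR2 : 0 ≤ R ^ 2 := sq_nonneg R
  have c2 : ∑ e ∈ (S.filter fun e => ¬ H ≤ D e).filter (fun e => 1 ≤ D e), overlap γ δ e.1 e.2
      ≤ 16 * R ^ 2 * A := by
    set E := (S.filter fun e => ¬ H ≤ D e).filter (fun e => 1 ≤ D e)
    have hE : E ⊆ V ×ˢ W := (filter_subset _ _).trans ((filter_subset _ _).trans (filter_subset _ _))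
    calc ∑ e ∈ E, overlap γ δ e.1 e.2
        ≤ ∑ e ∈ E, 16 * R ^ 2 * (phiMass δ e.1 * phiMass δ e.2) := by
          refine sum_le_sum fun e he => ?_
          obtain ⟨he', h1⟩ := mem_filter.1 he
          refine (hbd e (mem_filter.1 he').1).trans ?_
          have : 1 / D e ≤ 1 := by rw [div_le_one (by linarith)]; exact h1
          have h0 : 0 ≤ R ^ 2 * (phiMass δ e.1 * phiMass δ e.2) :=
            mul_nonneg hR2 (mul_nonneg (phiMass_nonneg hδ _) (phiMass_nonneg hδ _))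
          have := mul_le_mul_of_nonneg_left this h0
          linarith
      _ ≤ _ := by
          rw [← mul_sum]
          refine mul_le_mul_of_nonneg_left (hmid E hE fun e he => ?_) (by positivity)
          exact (not_le.1 (mem_filter.1 (mem_filter.1 he).1).2).le
  have c3 : ∑ e ∈ (S.filter fun e => ¬ H ≤ D e).filter (fun e => ¬ 1 ≤ D e), overlap γ δ e.1 e.2
      ≤ 16 * R ^ 2 * A := by
    rw [← sum_filter_ne_zero]
    set E := ((S.filter fun e => ¬ H ≤ D e).filter (fun e => ¬ 1 ≤ D e)).filter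
      (fun e => overlap γ δ e.1 e.2 ≠ 0)
    have hmem : ∀ e ∈ E, e ∈ S ∧ D e < 1 ∧ overlap γ δ e.1 e.2 ≠ 0 := fun e he => by
      obtain ⟨h1, h2⟩ := mem_filter.1 he
      obtain ⟨h3, h4⟩ := mem_filter.1 h1
      exact ⟨(mem_filter.1 h3).1, not_le.1 h4, h2⟩
    calc ∑ e ∈ E, overlap γ δ e.1 e.2
        ≤ ∑ e ∈ E, 16 * R ^ 2 * (phiMass δ e.1 * phiMass δ e.2 / D e) := by
          refine sum_le_sum fun e he => ?_
          obtain ⟨heS, h1, -⟩ := hmem e he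
          have h0 := hD0 e heS
          refine (hbd e heS).trans ?_
          have : 1 + 1 / D e ≤ 2 / D e := by
            rw [show (2 : ℝ) / D e = 1 / D e + 1 / D e by ring]
            have : 1 ≤ 1 / D e := by rw [le_div_iff₀ h0]; linarith
            linarith
          have h0' : 0 ≤ 8 * R ^ 2 * (phiMass δ e.1 * phiMass δ e.2) :=
            mul_nonneg (by positivity) (mul_nonneg (phiMass_nonneg hδ _) (phiMass_nonneg hδ _))
          calc _ ≤ 8 * R ^ 2 * (phiMass δ e.1 * phiMass δ e.2) * (2 / D e) :=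
                mul_le_mul_of_nonneg_left this h0'
            _ = _ := by ring
      _ ≤ _ := by
          rw [← mul_sum]
          refine mul_le_mul_of_nonneg_left (hsmall E (fun e he =>
            (mem_filter.1 (hmem e he).1).1) fun e he => ?_) (by positivity)
          obtain ⟨heS, h1, h2⟩ := hmem e he
          exact ⟨h1, (mem_filter.1 heS).2, h2⟩
  linarith

/-- All pairs of scale below `1`. -/
lemma small_scales_le (γ : ℝ) {δ : ℕ → ℝ} (hδ : Radii δ) (L : ℕ) (hL : 0 < L) {V W : Finset ℕ}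
    (hV : ∀ v ∈ V, 0 < δ v ∧ v ≤ 2 ^ L) (hW : ∀ w ∈ W, 0 < δ w ∧ w ≤ 2 ^ L)
    {E : Finset (ℕ × ℕ)} (hE : E ⊆ V ×ˢ W)
    (h : ∀ e ∈ E, scaleOf δ e.1 e.2 + scaleOf δ e.2 e.1 < 1 ∧ e.1 ≠ e.2 ∧
      overlap γ δ e.1 e.2 ≠ 0)
    {C₀ η b K K₀ K₁ c C : ℝ} (hC₀ : 0 ≤ C₀) (hη : 0 < η) (hb : 1 / 2 ≤ b) (hb1 : b ≤ 1)
    (hbC : (2 * b - 1) * C₀ ≤ η / 4) (hK : 0 ≤ K) (hK₀ : 0 ≤ K₀) (hK₁ : 0 ≤ K₁) (hc : 0 ≤ c)
    (hC : (8000 / (1 / 100)) ^ 2 ≤ C) (hcC : 200 * ((c + 1) * (99 / 200)) ≤ C₀)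
    (hgw : ∀ E' : Finset (ℕ × ℕ), ∀ x y : ℕ → ℝ, Adm V W x y E' →
      edgeSum x y E' ≤ K * ((∑ v ∈ V, x v) * (∑ w ∈ W, y w)) ^ b)
    (hgw₀ : ∀ E' : Finset (ℕ × ℕ), ∀ x y : ℕ → ℝ, Adm V W x y E' →
      edgeSum x y E' ≤ K₀ * ((∑ v ∈ V, x v) * (∑ w ∈ W, y w)) ^ (101 / 200 : ℝ))
    (hpat : ∀ P : Finset (ℕ × ℕ), P ⊆ Finset.Icc 1 (2 ^ L) ×ˢ Finset.Icc 1 (2 ^ L) →
      patSum C P ≤ K₁ * (L : ℝ) ^ c * Real.sqrt (∑ q ∈ P, 1 / ((q.1 : ℝ) * q.2))) :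
    ∑ e ∈ E, phiMass δ e.1 * phiMass δ e.2 / (scaleOf δ e.1 e.2 + scaleOf δ e.2 e.1)
      ≤ (2 * K * ((22 + 2 * C₀ / (η / 4)) * 2 ^ 21)
          + 2 * (K₀ + (24 * K₁) ^ (99 / 200 : ℝ)) * (1 / (1 - decayRate)) ^ 2) * (L : ℝ) ^ (η / 2)
        * (((∑ v ∈ V, phiMass δ v) * ∑ w ∈ W, phiMass δ w) ^ b
          + ((∑ v ∈ V, phiMass δ v) * ∑ w ∈ W, phiMass δ w) ^ (101 / 200 : ℝ)) := by
  classical
  have hVp : ∀ v ∈ V, 0 < v := fun v hv => Nat.pos_of_ne_zero fun h => by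
    have := (hV v hv).1; rw [h, hδ.1] at this; exact lt_irrefl 0 this
  have hWp : ∀ w ∈ W, 0 < w := fun w hw => Nat.pos_of_ne_zero fun h => by
    have := (hW w hw).1; rw [h, hδ.1] at this; exact lt_irrefl 0 this
  set M := levelCap C₀ L with hM
  rw [← sum_filter_add_sum_filter_not E
    (fun e => min (lvl (scaleOf δ e.1 e.2)) (lvl (scaleOf δ e.2 e.1)) ≤ M)]
  obtain ⟨E₁, hE₁⟩ : ∃ E₁, E₁ = E.filter
      (fun e => min (lvl (scaleOf δ e.1 e.2)) (lvl (scaleOf δ e.2 e.1)) ≤ M) := ⟨_, rfl⟩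
  obtain ⟨E₂, hE₂⟩ : ∃ E₂, E₂ = E.filter
      (fun e => ¬ min (lvl (scaleOf δ e.1 e.2)) (lvl (scaleOf δ e.2 e.1)) ≤ M) := ⟨_, rfl⟩
  rw [← hE₁, ← hE₂]
  have m1 : ∀ e ∈ E₁, e ∈ E ∧ min (lvl (scaleOf δ e.1 e.2)) (lvl (scaleOf δ e.2 e.1)) ≤ M :=
    fun e he => mem_filter.1 (hE₁ ▸ he)
  have m2 : ∀ e ∈ E₂, e ∈ E ∧ ¬ min (lvl (scaleOf δ e.1 e.2)) (lvl (scaleOf δ e.2 e.1)) ≤ M :=
    fun e he => mem_filter.1 (hE₂ ▸ he)
  have hpos : ∀ e ∈ E₁, 0 < scaleOf δ e.1 e.2 ∧ 0 < scaleOf δ e.2 e.1 := fun e he => by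
    obtain ⟨a, c'⟩ := mem_product.1 (hE (m1 e he).1)
    have q1 : (0 : ℝ) < (Nat.lcm e.1 e.2 : ℕ) := by
      exact_mod_cast Nat.lcm_pos (hVp _ a) (hWp _ c')
    have q2 : (0 : ℝ) < (Nat.lcm e.2 e.1 : ℕ) := by
      exact_mod_cast Nat.lcm_pos (hWp _ c') (hVp _ a)
    exact ⟨mul_pos q1 (hV _ a).1, mul_pos q2 (hW _ c').1⟩
  have h1 := low_levels_le hδ hVp hWp (E := E₁) (fun e he => hE (m1 e he).1) M hK hb hpos
    (fun e he => (h e (m1 e he).1).1) (fun e he => (m1 e he).2) (fun E' _ => hgw E')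
  have hM20 : 20 ≤ M := by rw [hM]; exact Nat.le_add_right 20 _
  have hLM : (L : ℝ) ^ ((c + 1) * (99 / 200)) ≤ (2 : ℝ) ^ ((M : ℝ) / 200) := by
    rw [hM]; exact rpow_le_levelCap hL hcC
  have h2 := high_levels_le γ hδ L hL hV hW (E := E₂) (fun e he => hE (m2 e he).1)
    (fun e he => (h e (m2 e he).1).2) (fun e he => (h e (m2 e he).1).1) M
    hM20 (fun e he => not_le.1 (m2 e he).2) hK₀ hK₁
    hC hc (fun E' _ => hgw₀ E') hpat hLM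
  refine (add_le_add h1 h2).trans ?_
  have hcap := levelCap_bounds hC₀ hL (θ := 2 * b - 1) (by linarith) (by linarith)
    (show 0 < η / 4 by linarith) hbC
  rw [← hM, show 2 * (η / 4) = η / 2 by ring] at hcap
  have hXY : 0 ≤ (∑ v ∈ V, phiMass δ v) * ∑ w ∈ W, phiMass δ w :=
    mul_nonneg (sum_nonneg fun v _ => phiMass_nonneg hδ v)
      (sum_nonneg fun v _ => phiMass_nonneg hδ v)
  set Λ := (L : ℝ) ^ (η / 2)
  set Y1 := ((∑ v ∈ V, phiMass δ v) * ∑ w ∈ W, phiMass δ w) ^ b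
  set Y2 := ((∑ v ∈ V, phiMass δ v) * ∑ w ∈ W, phiMass δ w) ^ (101 / 200 : ℝ)
  have hY1 : 0 ≤ Y1 := Real.rpow_nonneg hXY _
  have hY2 : 0 ≤ Y2 := Real.rpow_nonneg hXY _
  set P₀ := 2 * (K₀ + (24 * K₁) ^ (99 / 200 : ℝ)) * (1 / (1 - decayRate)) ^ 2
  set T := (22 + 2 * C₀ / (η / 4)) * (2 : ℝ) ^ 21
  have hΛ : 1 ≤ Λ := Real.one_le_rpow (by exact_mod_cast hL) (by linarith)
  have hP₀ : 0 ≤ P₀ := mul_nonneg (mul_nonneg zero_le_two
    (add_nonneg hK₀ (Real.rpow_nonneg (by linarith) _))) (sq_nonneg _)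
  have hT : 0 ≤ T := by positivity
  have a1 := mul_le_mul_of_nonneg_left hcap (by positivity : 0 ≤ 2 * K * Y1)
  have a2 := mul_le_mul_of_nonneg_right (le_mul_of_one_le_right hP₀ hΛ) hY2
  have a3 : 0 ≤ 2 * K * T * Λ * Y2 := by positivity
  have a4 : 0 ≤ P₀ * Λ * Y1 := by positivity
  linarith

/-- All overlaps between two families. -/
theorem exists_pair_bound (η : ℝ) (hη : 0 < η) (hη1 : η ≤ 1) :
    ∃ b C : ℝ, 1 / 2 < b ∧ b ≤ 101 / 200 ∧ 0 ≤ C ∧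
      ∀ (γ : ℝ) (δ : ℕ → ℝ), Radii δ → ∀ L : ℕ, 0 < L → ∀ V W : Finset ℕ,
        (∀ v ∈ V, 0 < δ v ∧ v ≤ 2 ^ L) → (∀ w ∈ W, 0 < δ w ∧ w ≤ 2 ^ L) →
        ∑ e ∈ (V ×ˢ W).filter (fun e => e.1 ≠ e.2), overlap γ δ e.1 e.2
          ≤ C * ((∑ v ∈ V, mass γ δ v) * (∑ w ∈ W, mass γ δ w))
            + C * (L : ℝ) ^ η *
              (((∑ v ∈ V, phiMass δ v) * (∑ w ∈ W, phiMass δ w)) ^ b
                + ((∑ v ∈ V, phiMass δ v) * (∑ w ∈ W, phiMass δ w)) ^ (101 / 200 : ℝ)) := by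
  set Cw : ℝ := (8000 / (1 / 100)) ^ 2
  have hCw : 0 ≤ Cw := sq_nonneg _
  obtain ⟨K₁, c, hK₁, hc, hpat⟩ := exists_patSum_le Cw hCw
  obtain ⟨C₁, hC₁, hrat⟩ := exists_ratio_le (η / 8) (by linarith)
  obtain ⟨CL, hCL, hlarge⟩ := exists_overlap_large (η / 4) (by linarith) (by linarith)
  obtain ⟨K₀, hK₀, hgw₀⟩ := exists_gcdSum_bound (101 / 200) (by norm_num) (by norm_num)
  set C₀ : ℝ := 200 * ((c + 1) * (99 / 200))
  have hC₀ : 0 ≤ C₀ := by positivity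
  obtain ⟨θ, hθ, hθ1, hθC⟩ := exists_small_param (show 0 < η / 4 by linarith) hC₀
  set b := (1 + θ) / 2 with hbdef
  obtain ⟨K, hK, hgw⟩ := exists_gcdSum_bound b (by linarith) (by linarith)
  set Q := 2 * K * ((22 + 2 * C₀ / (η / 4)) * 2 ^ 21) + K
    + 2 * (K₀ + (24 * K₁) ^ (99 / 200 : ℝ)) * (1 / (1 - decayRate)) ^ 2 with hQ
  have hpow : (0 : ℝ) ≤ (24 * K₁) ^ (99 / 200 : ℝ) := Real.rpow_nonneg (by positivity) _
  have hQ0 : 0 ≤ Q := by positivity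
  refine ⟨b, CL + 32 * C₁ ^ 2 * Q, by linarith, by linarith, by positivity,
    fun γ δ hδ L hL V W hV hW => ?_⟩
  have hVp : ∀ v ∈ V, 0 < v := fun v hv => Nat.pos_of_ne_zero fun h => by
    have := (hV v hv).1; rw [h, hδ.1] at this; exact lt_irrefl 0 this
  have hWp : ∀ w ∈ W, 0 < w := fun w hw => Nat.pos_of_ne_zero fun h => by
    have := (hW w hw).1; rw [h, hδ.1] at this; exact lt_irrefl 0 this
  have hL1 : (1 : ℝ) ≤ L := by exact_mod_cast hL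
  have hXY : 0 ≤ (∑ v ∈ V, phiMass δ v) * ∑ w ∈ W, phiMass δ w :=
    mul_nonneg (sum_nonneg fun v _ => phiMass_nonneg hδ v)
      (sum_nonneg fun v _ => phiMass_nonneg hδ v)
  set Z := ((∑ v ∈ V, phiMass δ v) * ∑ w ∈ W, phiMass δ w) ^ b
    + ((∑ v ∈ V, phiMass δ v) * ∑ w ∈ W, phiMass δ w) ^ (101 / 200 : ℝ) with hZdef
  have hZb : 0 ≤ ((∑ v ∈ V, phiMass δ v) * ∑ w ∈ W, phiMass δ w) ^ b := Real.rpow_nonneg hXY _
  have hZ0 : 0 ≤ ((∑ v ∈ V, phiMass δ v) * ∑ w ∈ W, phiMass δ w) ^ (101 / 200 : ℝ) :=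
    Real.rpow_nonneg hXY _
  set Λ := (L : ℝ) ^ (η / 2)
  have hΛ : 1 ≤ Λ := Real.one_le_rpow hL1 (by linarith)
  set A := Q * Λ * Z
  have hA : 0 ≤ A := by positivity
  have hZZ : ∀ u : ℝ, 0 ≤ u → u ≤ Q → u * Λ * ((∑ v ∈ V, phiMass δ v) *
      ∑ w ∈ W, phiMass δ w) ^ b ≤ A := fun u hu huQ =>
    mul_le_mul (mul_le_mul_of_nonneg_right huQ (by linarith)) (le_add_of_nonneg_right hZ0) hZb
      (by positivity)
  have hmain := pair_bound_of γ hδ L hV hW (R := C₁ * (L : ℝ) ^ (η / 8)) hA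
    (Real.one_le_rpow hL1 (by linarith : (0 : ℝ) ≤ η / 4)) hCL (fun q hq => hrat L q hL hq)
    (fun v w h1 h2 h3 h4 h5 => hlarge γ δ hδ L v w hL h1 h2 h3 h4 h5) ?_ ?_
  · refine hmain.trans ?_
    have hm : 0 ≤ (∑ v ∈ V, mass γ δ v) * ∑ w ∈ W, mass γ δ w := mul_nonneg
      (sum_nonneg fun v _ => mass_nonneg (fun q => (hδ.2 q).1) γ v)
      (sum_nonneg fun v _ => mass_nonneg (fun q => (hδ.2 q).1) γ v)
    have e : (C₁ * (L : ℝ) ^ (η / 8)) ^ 2 * Λ ≤ C₁ ^ 2 * (L : ℝ) ^ η := by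
      rw [mul_pow, mul_assoc]
      refine mul_le_mul_of_nonneg_left ?_ (sq_nonneg C₁)
      rw [← Real.rpow_natCast ((L : ℝ) ^ (η / 8)) 2, ← Real.rpow_mul (by linarith),
        ← Real.rpow_add (by linarith)]
      exact Real.rpow_le_rpow_of_exponent_le hL1 (by push_cast; linarith)
    have hLη : 0 ≤ (L : ℝ) ^ η := Real.rpow_nonneg (by linarith) _
    calc CL * ((∑ v ∈ V, mass γ δ v) * ∑ w ∈ W, mass γ δ w)
          + 32 * (C₁ * (L : ℝ) ^ (η / 8)) ^ 2 * A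
        = CL * ((∑ v ∈ V, mass γ δ v) * ∑ w ∈ W, mass γ δ w)
          + 32 * ((C₁ * (L : ℝ) ^ (η / 8)) ^ 2 * Λ) * (Q * Z) := by ring
      _ ≤ CL * ((∑ v ∈ V, mass γ δ v) * ∑ w ∈ W, mass γ δ w)
          + 32 * (C₁ ^ 2 * (L : ℝ) ^ η) * (Q * Z) := by gcongr
      _ ≤ _ := by
          have p1 : 0 ≤ 32 * C₁ ^ 2 * Q * ((∑ v ∈ V, mass γ δ v) * ∑ w ∈ W, mass γ δ w) := by
            positivity
          have p2 : 0 ≤ CL * (L : ℝ) ^ η * Z := by positivity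
          linarith
  · intro E hE h
    refine (middle_le hδ hVp hWp hE (Real.one_le_rpow hL1 (by linarith : (0 : ℝ) ≤ η / 4)) hK
      (by linarith) h (fun x y hA' => hgw V W x y E hA')).trans
      (le_trans ?_ (hZZ K hK (by
        have : 0 ≤ 2 * K * ((22 + 2 * C₀ / (η / 4)) * 2 ^ 21) := by positivity
        have : 0 ≤ 2 * (K₀ + (24 * K₁) ^ (99 / 200 : ℝ)) * (1 / (1 - decayRate)) ^ 2 := by
          positivity
        linarith)))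
    refine mul_le_mul_of_nonneg_right (mul_le_mul_of_nonneg_left ?_ hK) hZb
    exact Real.rpow_le_rpow_of_exponent_le hL1 (by linarith)
  · intro E hE h
    refine (small_scales_le γ hδ L hL hV hW hE h hC₀ hη (by linarith) (by linarith)
      (by rw [show 2 * b - 1 = θ by rw [hbdef]; ring]; exact hθC) hK hK₀ hK₁ hc (le_refl Cw)
      le_rfl (fun E' x y hA' => hgw V W x y E' hA') (fun E' x y hA' => hgw₀ V W x y E' hA')
      (fun P hP => hpat L hL P hP)).trans ?_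
    exact mul_le_mul_of_nonneg_right
      (mul_le_mul_of_nonneg_right (by rw [hQ]; linarith) (by linarith)) (by positivity)

end Vale.Agent.P028.ExtraLog
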