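import Mathlib
import Vale.Agent.P028.ExtraLog.PairMain

/-!
# The weighted second moment

The integers are binned by the dyadic size of their logarithm; the weight on a bin decays like a
fixed small power of that logarithm.
-/

namespace Vale.Agent.P028.ExtraLog

open Finset MeasureTheory

/-- The bin of `q`. -/
def bin (q : ℕ) : ℕ := Nat.log 2 (Nat.log 2 q + 1)

/-- The weight of `q`. -/
noncomputable def weight (ε : ℝ) (q : ℕ) : ℝ := (2 : ℝ) ^ (-ε * (bin q : ℝ))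

lemma weight_pos (ε : ℝ) (q : ℕ) : 0 < weight ε q := Real.rpow_pos_of_pos two_pos _

lemma weight_le_one {ε : ℝ} (hε : 0 ≤ ε) (q : ℕ) : weight ε q ≤ 1 :=
  Real.rpow_le_one_of_one_le_of_nonpos one_le_two
    (mul_nonpos_of_nonpos_of_nonneg (neg_nonpos.2 hε) (Nat.cast_nonneg _))

lemma le_two_pow_of_bin_le {q J : ℕ} (h : bin q ≤ J) : q ≤ 2 ^ 2 ^ (J + 1) := by
  have h1 : q < 2 ^ (Nat.log 2 q).succ := Nat.lt_pow_succ_log_self (by norm_num) q
  have h2 : Nat.log 2 q + 1 < 2 ^ (bin q).succ :=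
    Nat.lt_pow_succ_log_self (by norm_num) (Nat.log 2 q + 1)
  have h3 : 2 ^ (bin q).succ ≤ 2 ^ (J + 1) := Nat.pow_le_pow_right (by norm_num) (by omega)
  exact h1.le.trans (Nat.pow_le_pow_right (by norm_num) (by omega))

lemma approxSet_eq_empty {γ : ℝ} {δ : ℕ → ℝ} {q : ℕ} (h : δ q ≤ 0) :
    approxSet γ δ q = ∅ := by
  refine Set.eq_empty_iff_forall_notMem.2 fun x => ?_
  rintro ⟨a, -, ha⟩
  linarith [abs_nonneg (x - ((a : ℝ) + γ) / q)]

/-- The overlap of a set with itself. -/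
lemma exists_overlap_self_le :
    ∃ C : ℝ, 0 ≤ C ∧ ∀ (γ : ℝ) (δ : ℕ → ℝ), Radii δ → ∀ q, 0 < q →
      overlap γ δ q q ≤ C * mass γ δ q := by
  obtain ⟨C, hC, hτ⟩ := exists_card_divisors_pow_le 2
  refine ⟨2 + 6 * C, by linarith, fun γ δ hδ q hq => ?_⟩
  have h := (abs_le.1 (approxSet_equidist γ hδ hq (x := 0) (y := 1) zero_le_one)).2
  rw [overlap, Set.inter_self]
  set τ : ℝ := (q.divisors.card : ℝ)
  have hp := propKeep_pos γ δ q
  have hw : 1 ≤ propKeep γ δ q * τ := one_le_propKeep_mul_card γ δ q hq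
  have h4 : τ ^ 2 ≤ C * q := hτ q hq
  have hτ0 : 0 ≤ τ := Nat.cast_nonneg _
  have h5 : τ ≤ C * ((q : ℝ) * propKeep γ δ q) := by
    calc τ = τ * 1 := (mul_one τ).symm
      _ ≤ τ * (propKeep γ δ q * τ) := mul_le_mul_of_nonneg_left hw hτ0
      _ = propKeep γ δ q * τ ^ 2 := by ring
      _ ≤ propKeep γ δ q * (C * q) := mul_le_mul_of_nonneg_left h4 hp.le
      _ = _ := by ring
  have h6 := mul_le_mul_of_nonneg_left h5 (by linarith [(hδ.2 q).1] : 0 ≤ 6 * δ q)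
  unfold mass at h ⊢
  linarith

/-- One bin against the total. -/
lemma bin_mass_le {δ : ℕ → ℝ} (hδ : Radii δ) (ε : ℝ) (S : Finset ℕ) (i : ℕ) :
    ∑ q ∈ S.filter (fun q => bin q = i), phiMass δ q
      ≤ (2 : ℝ) ^ (ε * (i : ℝ)) * ∑ q ∈ S, weight ε q * phiMass δ q := by
  rw [mul_sum]
  refine (sum_le_sum fun q hq => le_of_eq ?_).trans (sum_le_sum_of_subset_of_nonneg
    (filter_subset _ _) fun q _ _ => mul_nonneg (Real.rpow_nonneg zero_le_two _)
      (mul_nonneg (weight_pos ε q).le (phiMass_nonneg hδ q)))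
  rw [← (mem_filter.1 hq).2, weight, ← mul_assoc, ← Real.rpow_add two_pos]
  simp

/-- The decaying sum of one side. -/
lemma bin_side_sum_le {δ : ℕ → ℝ} (hδ : Radii δ) {ε : ℝ} (hε : 0 < ε) {b : ℝ} (hb : 0 ≤ b)
    (hb1 : b ≤ 101 / 200) (S : Finset ℕ) (I : Finset ℕ) :
    ∑ i ∈ I, (2 : ℝ) ^ (-(3 / 4) * ε * (i : ℝ)) *
        (∑ q ∈ S.filter (fun q => bin q = i), phiMass δ q) ^ b
      ≤ (∑ q ∈ S, weight ε q * phiMass δ q) ^ b * (1 / (1 - (2 : ℝ) ^ (-ε / 5))) := by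
  set T := ∑ q ∈ S, weight ε q * phiMass δ q
  have hT : 0 ≤ T := sum_nonneg fun q _ => mul_nonneg (weight_pos ε q).le (phiMass_nonneg hδ q)
  set r := (2 : ℝ) ^ (-ε / 5) with hr
  have hr0 : 0 ≤ r := Real.rpow_nonneg zero_le_two _
  have hr1 : r < 1 := Real.rpow_lt_one_of_one_lt_of_neg one_lt_two (by linarith)
  calc ∑ i ∈ I, (2 : ℝ) ^ (-(3 / 4) * ε * (i : ℝ)) *
        (∑ q ∈ S.filter (fun q => bin q = i), phiMass δ q) ^ b
      ≤ ∑ i ∈ I, T ^ b * r ^ i := by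
        refine sum_le_sum fun i _ => ?_
        have h1 := Real.rpow_le_rpow (sum_nonneg fun q _ => phiMass_nonneg hδ q)
          (bin_mass_le hδ ε S i) hb
        rw [Real.mul_rpow (Real.rpow_nonneg zero_le_two _) hT, ← Real.rpow_mul zero_le_two] at h1
        refine (mul_le_mul_of_nonneg_left h1 (Real.rpow_nonneg zero_le_two _)).trans ?_
        rw [mul_comm (T ^ b), ← mul_assoc, ← Real.rpow_add two_pos, hr,
          ← Real.rpow_natCast ((2 : ℝ) ^ (-ε / 5)) i, ← Real.rpow_mul zero_le_two]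
        refine mul_le_mul_of_nonneg_right (Real.rpow_le_rpow_of_exponent_le one_le_two ?_)
          (Real.rpow_nonneg hT b)
        have := mul_le_mul_of_nonneg_left hb1 (mul_nonneg hε.le (Nat.cast_nonneg i : (0 : ℝ) ≤ i))
        have : (0 : ℝ) ≤ ε * i := by positivity
        linarith
    _ = T ^ b * ∑ i ∈ I, r ^ i := (mul_sum _ _ _).symm
    _ ≤ _ := by
        refine mul_le_mul_of_nonneg_left ?_ (Real.rpow_nonneg hT b)
        rw [one_div, ← tsum_geometric_of_lt_one hr0 hr1]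
        exact (summable_geometric_of_lt_one hr0 hr1).sum_le_tsum _ fun i _ => pow_nonneg hr0 i

/-- The sum over all bins of one power. -/
lemma bin_power_sum_le {δ : ℕ → ℝ} (hδ : Radii δ) {ε : ℝ} (hε : 0 < ε) {b : ℝ} (hb : 0 ≤ b)
    (hb1 : b ≤ 101 / 200) (S I : Finset ℕ) :
    ∑ i ∈ I, ∑ j ∈ I, (2 : ℝ) ^ (-(3 / 4) * ε * (i : ℝ)) * (2 : ℝ) ^ (-(3 / 4) * ε * (j : ℝ)) *
        ((∑ q ∈ S.filter (fun q => bin q = i), phiMass δ q)
          * (∑ q ∈ S.filter (fun q => bin q = j), phiMass δ q)) ^ b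
      ≤ (∑ q ∈ S, weight ε q * phiMass δ q) ^ (2 * b) * (1 / (1 - (2 : ℝ) ^ (-ε / 5))) ^ 2 := by
  set f := fun i : ℕ => (2 : ℝ) ^ (-(3 / 4) * ε * (i : ℝ)) *
    (∑ q ∈ S.filter (fun q => bin q = i), phiMass δ q) ^ b
  set T := ∑ q ∈ S, weight ε q * phiMass δ q
  have hT : 0 ≤ T := sum_nonneg fun q _ => mul_nonneg (weight_pos ε q).le (phiMass_nonneg hδ q)
  have h := bin_side_sum_le hδ hε hb hb1 S I
  calc _ = (∑ i ∈ I, f i) * ∑ j ∈ I, f j := by
        rw [sum_mul_sum]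
        refine sum_congr rfl fun i _ => sum_congr rfl fun j _ => ?_
        rw [Real.mul_rpow (sum_nonneg fun q _ => phiMass_nonneg hδ q)
          (sum_nonneg fun q _ => phiMass_nonneg hδ q)]
        simp only [f]
        ring
    _ ≤ (T ^ b * (1 / (1 - (2 : ℝ) ^ (-ε / 5)))) * (T ^ b * (1 / (1 - (2 : ℝ) ^ (-ε / 5)))) :=
        mul_self_le_mul_self (sum_nonneg fun i _ => mul_nonneg (Real.rpow_nonneg zero_le_two _)
          (Real.rpow_nonneg (sum_nonneg fun q _ => phiMass_nonneg hδ q) b)) h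
    _ = _ := by
        rw [mul_comm (2 : ℝ) b, Real.rpow_mul hT, Real.rpow_two]
        ring

lemma rpow_le_sq_add_one {T c : ℝ} (hT : 0 ≤ T) (hc : 0 ≤ c) (hc2 : c ≤ 2) :
    T ^ c ≤ T ^ 2 + 1 := by
  rcases le_total T 1 with h | h
  · have := Real.rpow_le_one hT h hc
    have := sq_nonneg T
    linarith
  · have := Real.rpow_le_rpow_of_exponent_le h hc2
    rw [Real.rpow_two] at this
    linarith

lemma phiMass_le_mass (γ : ℝ) {δ : ℕ → ℝ} (hδ : Radii δ) (q : ℕ) :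
    phiMass δ q ≤ mass γ δ q := by
  rcases Nat.eq_zero_or_pos q with rfl | hq
  · simp [phiMass, mass]
  have hq' : (0 : ℝ) < q := by exact_mod_cast hq
  have h := totient_div_le_propKeep γ δ q
  rw [div_le_iff₀ hq'] at h
  calc phiMass δ q ≤ propKeep γ δ q * q * δ q := mul_le_mul_of_nonneg_right h (hδ.2 q).1
    _ = _ := by unfold mass; ring

/-- One pair of bins, with its weights. -/
lemma bin_pair_le (γ : ℝ) {δ : ℕ → ℝ} (hδ : Radii δ) {ε : ℝ} (hε : 0 < ε) (hε1 : ε ≤ 1) {b C : ℝ}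
    (hC : 0 ≤ C) (S : Finset ℕ) (hS : ∀ q ∈ S, 0 < δ q) (i j : ℕ)
    (h : ∀ L : ℕ, 0 < L → ∀ V W : Finset ℕ,
      (∀ v ∈ V, 0 < δ v ∧ v ≤ 2 ^ L) → (∀ w ∈ W, 0 < δ w ∧ w ≤ 2 ^ L) →
      ∑ e ∈ (V ×ˢ W).filter (fun e => e.1 ≠ e.2), overlap γ δ e.1 e.2
        ≤ C * ((∑ v ∈ V, mass γ δ v) * (∑ w ∈ W, mass γ δ w))
          + C * (L : ℝ) ^ (ε / 4) *
            (((∑ v ∈ V, phiMass δ v) * (∑ w ∈ W, phiMass δ w)) ^ b
              + ((∑ v ∈ V, phiMass δ v) * (∑ w ∈ W, phiMass δ w)) ^ (101 / 200 : ℝ))) :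
    (2 : ℝ) ^ (-ε * (i : ℝ)) * (2 : ℝ) ^ (-ε * (j : ℝ)) *
        ∑ e ∈ ((S.filter fun q => bin q = i) ×ˢ (S.filter fun q => bin q = j)).filter
          (fun e => e.1 ≠ e.2), overlap γ δ e.1 e.2
      ≤ C * ((∑ q ∈ S.filter (fun q => bin q = i), weight ε q * mass γ δ q)
            * (∑ q ∈ S.filter (fun q => bin q = j), weight ε q * mass γ δ q))
        + 2 * C * ((2 : ℝ) ^ (-(3 / 4) * ε * (i : ℝ)) * (2 : ℝ) ^ (-(3 / 4) * ε * (j : ℝ)) *
            (((∑ q ∈ S.filter (fun q => bin q = i), phiMass δ q)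
              * (∑ q ∈ S.filter (fun q => bin q = j), phiMass δ q)) ^ b
            + ((∑ q ∈ S.filter (fun q => bin q = i), phiMass δ q)
              * (∑ q ∈ S.filter (fun q => bin q = j), phiMass δ q)) ^ (101 / 200 : ℝ))) := by
  set L := 2 ^ (max i j + 1) with hLdef
  have hV : ∀ k ≤ max i j, ∀ v ∈ S.filter (fun q => bin q = k), 0 < δ v ∧ v ≤ 2 ^ L := by
    intro k hk v hv
    obtain ⟨h1, h2⟩ := mem_filter.1 hv
    exact ⟨hS v h1, le_two_pow_of_bin_le (h2 ▸ hk)⟩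
  have hb := h L (Nat.two_pow_pos _) _ _ (hV i (le_max_left i j)) (hV j (le_max_right i j))
  set Vi := S.filter (fun q => bin q = i)
  set Vj := S.filter (fun q => bin q = j)
  set wi := (2 : ℝ) ^ (-ε * (i : ℝ))
  set wj := (2 : ℝ) ^ (-ε * (j : ℝ))
  have hwi : 0 ≤ wi := Real.rpow_nonneg zero_le_two _
  have hwj : 0 ≤ wj := Real.rpow_nonneg zero_le_two _
  have ei : ∀ (k : ℕ), ∑ q ∈ S.filter (fun q => bin q = k), weight ε q * mass γ δ q
      = (2 : ℝ) ^ (-ε * (k : ℝ)) * ∑ q ∈ S.filter (fun q => bin q = k), mass γ δ q := fun k => by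
    rw [mul_sum]
    exact sum_congr rfl fun q hq => by rw [weight, (mem_filter.1 hq).2]
  set Z := ((∑ v ∈ Vi, phiMass δ v) * ∑ w ∈ Vj, phiMass δ w) ^ b
    + ((∑ v ∈ Vi, phiMass δ v) * ∑ w ∈ Vj, phiMass δ w) ^ (101 / 200 : ℝ)
  have hp : 0 ≤ (∑ v ∈ Vi, phiMass δ v) * ∑ w ∈ Vj, phiMass δ w := mul_nonneg
    (sum_nonneg fun v _ => phiMass_nonneg hδ v) (sum_nonneg fun v _ => phiMass_nonneg hδ v)
  have hZ : 0 ≤ Z := add_nonneg (Real.rpow_nonneg hp _) (Real.rpow_nonneg hp _)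
  have hw : wi * wj * (L : ℝ) ^ (ε / 4)
      ≤ 2 * ((2 : ℝ) ^ (-(3 / 4) * ε * (i : ℝ)) * (2 : ℝ) ^ (-(3 / 4) * ε * (j : ℝ))) := by
    have e : (L : ℝ) = (2 : ℝ) ^ ((max i j + 1 : ℕ) : ℝ) := by
      rw [Real.rpow_natCast, hLdef]; push_cast; rfl
    rw [e, ← Real.rpow_mul zero_le_two, ← Real.rpow_add two_pos, ← Real.rpow_add two_pos,
      ← Real.rpow_add two_pos]
    calc (2 : ℝ) ^ (-ε * (i : ℝ) + -ε * (j : ℝ) + ((max i j + 1 : ℕ) : ℝ) * (ε / 4))
        ≤ (2 : ℝ) ^ (1 + (-(3 / 4) * ε * (i : ℝ) + -(3 / 4) * ε * (j : ℝ))) := by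
          refine Real.rpow_le_rpow_of_exponent_le one_le_two ?_
          have h1 : ((max i j + 1 : ℕ) : ℝ) ≤ (i : ℝ) + j + 1 := by
            have : max i j + 1 ≤ i + j + 1 := by omega
            exact_mod_cast this
          have h2 := mul_le_mul_of_nonneg_right h1 (by linarith : (0 : ℝ) ≤ ε / 4)
          linarith
      _ = _ := by rw [Real.rpow_add two_pos, Real.rpow_one]
  rw [ei i, ei j]
  calc wi * wj * _ ≤ wi * wj * (C * ((∑ v ∈ Vi, mass γ δ v) * ∑ w ∈ Vj, mass γ δ w)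
        + C * (L : ℝ) ^ (ε / 4) * Z) := mul_le_mul_of_nonneg_left hb (mul_nonneg hwi hwj)
    _ = C * ((wi * ∑ v ∈ Vi, mass γ δ v) * (wj * ∑ w ∈ Vj, mass γ δ w))
        + C * (wi * wj * (L : ℝ) ^ (ε / 4)) * Z := by ring
    _ ≤ C * ((wi * ∑ v ∈ Vi, mass γ δ v) * (wj * ∑ w ∈ Vj, mass γ δ w))
        + C * (2 * ((2 : ℝ) ^ (-(3 / 4) * ε * (i : ℝ)) * (2 : ℝ) ^ (-(3 / 4) * ε * (j : ℝ)))) * Z :=
        add_le_add le_rfl (mul_le_mul_of_nonneg_right (mul_le_mul_of_nonneg_left hw hC) hZ)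
    _ = _ := by ring

/-- The second moment bound. -/
theorem exists_second_moment (ε : ℝ) (hε : 0 < ε) (hε1 : ε ≤ 1) :
    ∃ C : ℝ, 0 ≤ C ∧ ∀ (γ : ℝ) (δ : ℕ → ℝ), Radii δ → ∀ S : Finset ℕ,
      ∑ q ∈ S, ∑ r ∈ S, weight ε q * weight ε r * overlap γ δ q r
        ≤ C * ((∑ q ∈ S, weight ε q * (2 * mass γ δ q)) ^ 2
          + (∑ q ∈ S, weight ε q * (2 * mass γ δ q)) + 1) := by
  obtain ⟨b, C, hb, hb1, hC, hpair⟩ := exists_pair_bound (ε / 4) (by linarith) (by linarith)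
  obtain ⟨Cs, hCs, hself⟩ := exists_overlap_self_le
  set G := (1 / (1 - (2 : ℝ) ^ (-ε / 5))) ^ 2
  have hG : 0 ≤ G := sq_nonneg _
  refine ⟨C + Cs + 4 * C * G, by positivity, fun γ δ hδ S => ?_⟩
  classical
  have hm0 : ∀ q, 0 ≤ weight ε q * (2 * mass γ δ q) := fun q =>
    mul_nonneg (weight_pos ε q).le (mul_nonneg zero_le_two (mass_nonneg (fun q => (hδ.2 q).1) γ q))
  set U := S.filter (fun q => 0 < δ q)
  have hz : ∀ q ∈ S, q ∉ U → ∀ r, overlap γ δ q r = 0 := fun q hq hqU r => by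
    have : δ q ≤ 0 := by simpa [U, hq] using hqU
    simp [overlap, approxSet_eq_empty this]
  have hred : ∑ q ∈ S, ∑ r ∈ S, weight ε q * weight ε r * overlap γ δ q r
      = ∑ q ∈ U, ∑ r ∈ U, weight ε q * weight ε r * overlap γ δ q r := by
    rw [← sum_subset (filter_subset _ _) fun q hq hqU => sum_eq_zero fun r _ => by
      rw [hz q hq hqU r, mul_zero]]
    refine sum_congr rfl fun q _ => (sum_subset (filter_subset _ _) fun r hr hrU => ?_).symm
    rw [overlap_comm, hz r hr hrU q, mul_zero]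
  rw [hred]
  have hUS : ∑ q ∈ U, weight ε q * (2 * mass γ δ q) ≤ ∑ q ∈ S, weight ε q * (2 * mass γ δ q) :=
    sum_le_sum_of_subset_of_nonneg (filter_subset _ _) fun q _ _ => hm0 q
  have hUpos : ∀ q ∈ U, 0 < δ q := fun q hq => (mem_filter.1 hq).2
  set T₀ := ∑ q ∈ U, weight ε q * phiMass δ q
  set M₀ := ∑ q ∈ U, weight ε q * mass γ δ q
  have hT₀ : 0 ≤ T₀ := sum_nonneg fun q _ => mul_nonneg (weight_pos ε q).le (phiMass_nonneg hδ q)
  have hTM : T₀ ≤ M₀ := sum_le_sum fun q _ =>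
    mul_le_mul_of_nonneg_left (phiMass_le_mass γ hδ q) (weight_pos ε q).le
  set f : ℕ × ℕ → ℝ := fun e => weight ε e.1 * weight ε e.2 * overlap γ δ e.1 e.2
  rw [← sum_product' U U fun q r => weight ε q * weight ε r * overlap γ δ q r,
    ← sum_filter_add_sum_filter_not (U ×ˢ U) (fun e => e.1 = e.2)]
  have hdiag : ∑ e ∈ (U ×ˢ U).filter (fun e => e.1 = e.2), f e ≤ Cs * M₀ := by
    rw [mul_sum]
    calc ∑ e ∈ (U ×ˢ U).filter (fun e => e.1 = e.2), f e
        = ∑ q ∈ U, f (q, q) := by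
          refine sum_bij' (fun e _ => e.1) (fun q _ => (q, q))
            (fun e he => (mem_product.1 (mem_filter.1 he).1).1)
            (fun q hq => mem_filter.2 ⟨mem_product.2 ⟨hq, hq⟩, rfl⟩)
            (fun e he => Prod.ext rfl (mem_filter.1 he).2) (fun q _ => rfl)
            fun e he => ?_
          exact congrArg f (Prod.ext rfl (mem_filter.1 he).2.symm)
      _ ≤ _ := by
          refine sum_le_sum fun q hq => ?_
          have hq0 : 0 < q := Nat.pos_of_ne_zero fun h => by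
            have := hUpos q hq; rw [h, hδ.1] at this; exact lt_irrefl 0 this
          have hw0 := (weight_pos ε q).le
          have hw1 := weight_le_one hε.le q
          calc f (q, q) ≤ weight ε q * 1 * (Cs * mass γ δ q) :=
                mul_le_mul (mul_le_mul_of_nonneg_left hw1 hw0) (hself γ δ hδ q hq0)
                  (overlap_nonneg γ δ q q) (by linarith)
            _ = _ := by ring
  have hoff : ∑ e ∈ (U ×ˢ U).filter (fun e => ¬ e.1 = e.2), f e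
      ≤ C * M₀ ^ 2 + 4 * C * G * (M₀ ^ 2 + 1) := by
    set I := U.image bin
    rw [← sum_fiberwise_of_maps_to (g := fun e : ℕ × ℕ => (bin e.1, bin e.2)) (t := I ×ˢ I)
      fun e he => by
        obtain ⟨a, c⟩ := mem_product.1 (mem_filter.1 he).1
        exact mem_product.2 ⟨mem_image_of_mem _ a, mem_image_of_mem _ c⟩]
    rw [sum_product]
    set Mb := fun i => ∑ q ∈ U.filter (fun q => bin q = i), weight ε q * mass γ δ q
    set P := fun i j => ((∑ q ∈ U.filter (fun q => bin q = i), phiMass δ q)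
      * (∑ q ∈ U.filter (fun q => bin q = j), phiMass δ q))
    set u := fun i : ℕ => (2 : ℝ) ^ (-(3 / 4) * ε * (i : ℝ))
    have hcell : ∀ i j, ∑ e ∈ ((U ×ˢ U).filter (fun e => ¬ e.1 = e.2)).filter
        (fun e => (bin e.1, bin e.2) = (i, j)), f e
        ≤ C * (Mb i * Mb j) + 2 * C * (u i * u j * (P i j ^ b + P i j ^ (101 / 200 : ℝ))) := by
      intro i j
      refine le_trans (le_of_eq ?_) (bin_pair_le γ hδ hε hε1 hC U hUpos i j (hpair γ δ hδ))
      rw [mul_sum]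
      refine sum_congr ?_ fun e he => ?_
      · ext e
        simp only [mem_filter, mem_product, Prod.mk.injEq]
        tauto
      · obtain ⟨h1, -⟩ := mem_filter.1 he
        obtain ⟨a, c⟩ := mem_product.1 h1
        simp only [f, weight, (mem_filter.1 a).2, (mem_filter.1 c).2]
    refine (sum_le_sum fun i _ => sum_le_sum fun j _ => hcell i j).trans ?_
    have e1 : ∑ i ∈ I, ∑ j ∈ I, C * (Mb i * Mb j) = C * M₀ ^ 2 := by
      have hM : ∑ i ∈ I, Mb i = M₀ :=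
        sum_fiberwise_of_maps_to (fun q hq => mem_image_of_mem _ hq) _
      rw [← hM, pow_two, sum_mul_sum, mul_sum]
      exact sum_congr rfl fun i _ => (mul_sum _ _ _).symm
    have hsq : ∀ c : ℝ, 0 ≤ c → c ≤ 101 / 200 →
        ∑ i ∈ I, ∑ j ∈ I, u i * u j * P i j ^ c ≤ (M₀ ^ 2 + 1) * G := fun c hc hc1 => by
      refine (bin_power_sum_le hδ hε hc hc1 U I).trans (mul_le_mul_of_nonneg_right ?_ hG)
      refine (rpow_le_sq_add_one hT₀ (by linarith) (by linarith)).trans ?_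
      have := pow_le_pow_left₀ hT₀ hTM 2
      linarith
    have p1 := hsq b (by linarith) hb1
    have p2 := hsq (101 / 200) (by norm_num) le_rfl
    simp only [sum_add_distrib]
    rw [e1]
    simp only [mul_add, sum_add_distrib, ← mul_sum]
    have q1 := mul_le_mul_of_nonneg_left p1 (by linarith : 0 ≤ 2 * C)
    have q2 := mul_le_mul_of_nonneg_left p2 (by linarith : 0 ≤ 2 * C)
    linarith
  refine (add_le_add hdiag hoff).trans ?_
  set X := ∑ q ∈ S, weight ε q * (2 * mass γ δ q)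
  have h2 : 2 * M₀ ≤ X := by
    refine le_trans (le_of_eq ?_) hUS
    rw [mul_sum]
    exact sum_congr rfl fun q _ => by ring
  have hM0 : 0 ≤ M₀ := hT₀.trans hTM
  have hX : M₀ ≤ X := by linarith
  have hX2 := pow_le_pow_left₀ hM0 hX 2
  have r1 := mul_le_mul_of_nonneg_left hX hCs
  have r2 := mul_le_mul_of_nonneg_left hX2 hC
  have r3 := mul_le_mul_of_nonneg_left hX2 (by positivity : 0 ≤ 4 * C * G)
  have hX0 : 0 ≤ X := hM0.trans hX
  have : 0 ≤ C * (X + 1) := by positivity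
  have : 0 ≤ Cs * (X ^ 2 + 1) := by positivity
  have : 0 ≤ 4 * C * G * X := by positivity
  linarith

end Vale.Agent.P028.ExtraLog
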