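import Mathlib
import Vale.Agent.P028.Criterion

/-!
# The full-measure criterion with weights
-/

namespace Vale.Agent.P028.ExtraLog

open MeasureTheory Set Filter Metric

/-- The weighted second moment inequality. -/
lemma second_moment_ineq_weighted (l : ℕ → ℝ) (G : ℕ → Set ℝ) (hG : ∀ q, MeasurableSet (G q)) (W : Set ℝ)
    (hW : MeasurableSet W) (hWfin : volume W ≠ ⊤) (S : Finset ℕ) (t : ℝ) :
    2 * t * ∑ q ∈ S, l q * volume.real (G q ∩ W)
      ≤ (∑ q ∈ S, ∑ r ∈ S, l q * l r * volume.real (G q ∩ G r ∩ W)) + t ^ 2 * volume.real W := by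
  have hint : ∀ A : Set ℝ, MeasurableSet A → A ⊆ W →
      Integrable (A.indicator fun _ : ℝ => (1 : ℝ)) ∧
        ∫ x, A.indicator (fun _ : ℝ => (1 : ℝ)) x = volume.real A := by
    intro A hA hAW
    refine ⟨?_, ?_⟩
    · rw [integrable_indicator_iff hA]
      exact integrableOn_const (measure_ne_top_of_subset hAW hWfin)
    · rw [integral_indicator_const _ hA]
      simp
  set F : ℝ → ℝ := fun x => ∑ q ∈ S, ∑ r ∈ S, l q * l r * (G q ∩ G r ∩ W).indicator (fun _ => (1 : ℝ)) x with hF
  set H : ℝ → ℝ := fun x => ∑ q ∈ S, l q * (G q ∩ W).indicator (fun _ => (1 : ℝ)) x with hH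
  set K : ℝ → ℝ := W.indicator fun _ => (1 : ℝ) with hK
  have h1 : ∀ q r, G q ∩ G r ∩ W ⊆ W := fun q r => Set.inter_subset_right
  have h2 : ∀ q, G q ∩ W ⊆ W := fun q => Set.inter_subset_right
  have hFi : Integrable F := integrable_finsetSum _ fun q _ => integrable_finsetSum _ fun r _ =>
    (hint _ (((hG q).inter (hG r)).inter hW) (h1 q r)).1.const_mul _
  have hHi : Integrable H := integrable_finsetSum _ fun q _ =>
    (hint _ ((hG q).inter hW) (h2 q)).1.const_mul _
  have hKi : Integrable K := (hint _ hW le_rfl).1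
  have hpos : ∀ x, 0 ≤ F x - 2 * t * H x + t ^ 2 * K x := by
    intro x
    by_cases hx : x ∈ W
    · set u : ℝ := ∑ q ∈ S, l q * (G q).indicator (fun _ => (1 : ℝ)) x with hu
      have eH : H x = u := by
        rw [hH, hu]
        refine Finset.sum_congr rfl fun q _ => ?_
        by_cases hq : x ∈ G q <;> simp [hq, hx]
      have eF : F x = u * u := by
        rw [hF, hu, Finset.sum_mul_sum]
        refine Finset.sum_congr rfl fun q _ => Finset.sum_congr rfl fun r _ => ?_
        by_cases hq : x ∈ G q <;> by_cases hr : x ∈ G r <;> simp [hq, hr, hx]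
      have eK : K x = 1 := by simp [hK, hx]
      rw [eF, eH, eK]
      nlinarith [sq_nonneg (u - t)]
    · simp [hF, hH, hK, hx]
  have := integral_nonneg (μ := volume) (f := fun x => F x - 2 * t * H x + t ^ 2 * K x) (fun x => hpos x)
  rw [integral_add, integral_sub, integral_const_mul, integral_const_mul] at this
  · have eF : ∫ x, F x = ∑ q ∈ S, ∑ r ∈ S, l q * l r * volume.real (G q ∩ G r ∩ W) := by
      rw [hF, integral_finsetSum _ fun q _ => integrable_finsetSum _ fun r _ =>
        (hint _ (((hG q).inter (hG r)).inter hW) (h1 q r)).1.const_mul _]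
      refine Finset.sum_congr rfl fun q _ => ?_
      rw [integral_finsetSum _ fun r _ =>
        (hint _ (((hG q).inter (hG r)).inter hW) (h1 q r)).1.const_mul _]
      exact Finset.sum_congr rfl fun r _ => by
        rw [integral_const_mul, (hint _ (((hG q).inter (hG r)).inter hW) (h1 q r)).2]
    have eH : ∫ x, H x = ∑ q ∈ S, l q * volume.real (G q ∩ W) := by
      rw [hH, integral_finsetSum _ fun q _ => (hint _ ((hG q).inter hW) (h2 q)).1.const_mul _]
      exact Finset.sum_congr rfl fun q _ => by
        rw [integral_const_mul, (hint _ ((hG q).inter hW) (h2 q)).2]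
    have eK : ∫ x, K x = volume.real W := (hint _ hW le_rfl).2
    rw [eF, eH, eK] at this
    linarith
  · exact hFi
  · exact hHi.const_mul _
  · exact hFi.sub (hHi.const_mul _)
  · exact hKi.const_mul _

open Classical in
/-- The criterion. -/
theorem null_of_criterion_weighted (l : ℕ → ℝ) (hl : ∀ q, 0 ≤ l q) (G : ℕ → Set ℝ) (m : ℕ → ℝ) (hopen : ∀ q, IsOpen (G q))
    (hper : ∀ q x, x + 1 ∈ G q ↔ x ∈ G q) (hm : ∀ q, 0 ≤ m q)
    (hdiv : ¬ Summable fun q => l q * m q)
    (heq : ∀ ε > (0 : ℝ), ∀ M : ℕ, 0 < M → ∃ n₀, ∀ q ≥ n₀, ∀ j < M,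
      |volume.real (G q ∩ cell M j) - m q / M| ≤ ε * m q)
    (C : ℝ) (hC : 0 ≤ C)
    (hsq : ∀ S : Finset ℕ, (∀ q ∈ S, 0 < q) →
      ∑ q ∈ S, ∑ r ∈ S, l q * l r * volume.real (G q ∩ G r ∩ Set.Ico 0 1)
        ≤ C * ((∑ q ∈ S, l q * m q) ^ 2 + (∑ q ∈ S, l q * m q) + 1)) :
    volume {x : ℝ | ¬ {q : ℕ | x ∈ G q}.Infinite} = 0 := by
  set V : ℕ → Set ℝ := fun n => Set.Icc 0 1 ∩ ⋂ q ≥ n, (G q)ᶜ with hV
  have hVc : ∀ n, IsCompact (V n) := fun n =>
    isCompact_Icc.inter_right (isClosed_biInter fun q _ => (hopen q).isClosed_compl)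
  have hVsub : ∀ n, V n ⊆ Set.Icc 0 1 := fun n => Set.inter_subset_left
  have hnull : ∀ n, volume (V n) = 0 := by
    intro n
    suffices h : volume.real (V n) = 0 by
      exact (measureReal_eq_zero_iff (hVc n).measure_lt_top.ne).1 h
    refine le_antisymm (le_of_forall_pos_le_add fun κ hκ => ?_) measureReal_nonneg
    rw [zero_add]
    set s : ℝ := min 1 (κ / (3 * C + 4)) with hs
    have hs0 : 0 < s := lt_min one_pos (by positivity)
    have hs1 : s ≤ 1 := min_le_left _ _
    have hsκ : s * (3 * C + 4) ≤ κ := by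
      have := (le_div_iff₀ (by positivity : (0 : ℝ) < 3 * C + 4)).1 (min_le_right (1 : ℝ) (κ / (3 * C + 4)))
      linarith
    set ε : ℝ := s ^ 2 with hε
    have hε0 : 0 < ε := by positivity
    -- thickening
    have ht := tendsto_measure_cthickening_of_isCompact (μ := volume) (hVc n)
    have hlt : volume (V n) < volume (V n) + ENNReal.ofReal ε :=
      ENNReal.lt_add_right (hVc n).measure_lt_top.ne (by simp [hε0])
    obtain ⟨η, hη, hηV⟩ := Metric.eventually_nhds_iff.1 (ht.eventually_lt_const hlt)
    obtain ⟨M₀, hM₀⟩ := exists_nat_gt (1 / η)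
    set M : ℕ := M₀ + 1 with hM
    have hM0 : 0 < M := Nat.succ_pos _
    have hM' : (0 : ℝ) < M := by exact_mod_cast hM0
    have hMη : (1 : ℝ) / M < η := by
      rw [div_lt_iff₀ hM']
      rw [div_lt_iff₀ hη] at hM₀
      rw [hM]; push_cast; nlinarith
    set F : Finset ℕ := (Finset.range M).filter fun j => (cell M j ∩ V n).Nonempty with hF
    set U : Set ℝ := ⋃ j ∈ F, cell M j with hU
    have hUm : MeasurableSet U := Finset.measurableSet_biUnion _ fun j _ => measurableSet_Ico
    have hUsub : U ⊆ Set.Ico 0 1 := by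
      refine Set.iUnion₂_subset fun j hj => cell_subset ?_
      exact Finset.mem_range.1 (Finset.mem_filter.1 hj).1
    have hUcth : U ⊆ Metric.cthickening (1 / (M : ℝ)) (V n) := by
      refine Set.iUnion₂_subset fun j hj x hx => ?_
      obtain ⟨y, hy, hyV⟩ := (Finset.mem_filter.1 hj).2
      refine Metric.mem_cthickening_of_dist_le x y _ _ hyV ?_
      rw [Real.dist_eq, abs_le]
      obtain ⟨x1, x2⟩ := hx
      obtain ⟨y1, y2⟩ := hy
      have e : ((j : ℝ) + 1) / M = (j : ℝ) / M + 1 / M := add_div _ _ _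
      constructor <;> linarith
    have hVU : V n ⊆ U ∪ {1} := by
      intro x hx
      rcases eq_or_lt_of_le (hVsub n hx).2 with h1 | h1
      · exact Or.inr h1
      left
      have h0 : 0 ≤ x := (hVsub n hx).1
      have hxM : 0 ≤ x * M := by positivity
      have hjM : ⌊x * M⌋₊ < M := by
        rw [Nat.floor_lt hxM]
        nlinarith
      have hmem : x ∈ cell M ⌊x * M⌋₊ := by
        constructor
        · rw [div_le_iff₀ hM']; exact Nat.floor_le hxM
        · rw [lt_div_iff₀ hM']; exact Nat.lt_floor_add_one _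
      exact Set.mem_biUnion (Finset.mem_filter.2 ⟨Finset.mem_range.2 hjM, x, hmem, hx⟩) hmem
    have hUfin : volume U ≠ ⊤ := measure_ne_top_of_subset hUsub (by simp)
    set W : Set ℝ := U \ V n with hW
    have hWm : MeasurableSet W := hUm.diff (hVc n).measurableSet
    have hWfin : volume W ≠ ⊤ := measure_ne_top_of_subset Set.sdiff_subset hUfin
    have hWsub : W ⊆ Set.Ico 0 1 := Set.sdiff_subset.trans hUsub
    have hWvol : volume.real W ≤ ε := by
      have hb : Bornology.IsBounded (Metric.cthickening (1 / (M : ℝ)) (V n)) :=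
        (hVc n).isBounded.cthickening
      have hfin := hb.measure_lt_top (μ := volume)
      have h1 : volume.real (Metric.cthickening (1 / (M : ℝ)) (V n)) ≤ volume.real (V n) + ε := by
        have h := (hηV (y := 1 / (M : ℝ)) (by
          rw [Real.dist_eq, sub_zero, abs_of_pos (by positivity)]; exact hMη)).le
        have := ENNReal.toReal_mono
          (ENNReal.add_ne_top.2 ⟨(hVc n).measure_lt_top.ne, ENNReal.ofReal_ne_top⟩) h
        rw [ENNReal.toReal_add (hVc n).measure_lt_top.ne ENNReal.ofReal_ne_top,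
          ENNReal.toReal_ofReal hε0.le] at this
        exact this
      have hVsubC : V n ⊆ Metric.cthickening (1 / (M : ℝ)) (V n) :=
        Metric.self_subset_cthickening _
      have h2 := measureReal_sdiff (μ := volume) hVsubC (hVc n).measurableSet hfin.ne
      have h3 : volume.real W ≤ volume.real (Metric.cthickening (1 / (M : ℝ)) (V n) \ V n) :=
        measureReal_mono (Set.sdiff_subset_sdiff_left hUcth)
          (measure_ne_top_of_subset Set.sdiff_subset hfin.ne)
      linarith
    -- the test family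
    obtain ⟨n₀, hn₀⟩ := heq (ε / M) (by positivity) M hM0
    set n₁ := max (max n n₀) 1 with hn₁
    have htend := (not_summable_iff_tendsto_nat_atTop_of_nonneg (fun q => mul_nonneg (hl q) (hm q))).1 hdiv
    obtain ⟨N, hNn, hN⟩ := ((eventually_ge_atTop n₁).and
      (htend.eventually_ge_atTop (∑ i ∈ Finset.range n₁, l i * m i + 1))).exists
    set S := Finset.Ico n₁ N with hS
    set T := ∑ q ∈ S, l q * m q with hT
    have hT1 : 1 ≤ T := by
      rw [hT, hS, Finset.sum_Ico_eq_sub _ hNn]
      linarith
    have hlow : ((F.card : ℝ) / M - ε) * T ≤ ∑ q ∈ S, l q * volume.real (G q ∩ W) := by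
      rw [hT, Finset.mul_sum]
      refine Finset.sum_le_sum fun q hq => ?_
      rw [mul_left_comm]
      refine mul_le_mul_of_nonneg_left ?_ (hl q)
      have hq' : n₁ ≤ q := (Finset.mem_Ico.1 hq).1
      have hqV : G q ∩ W = ⋃ j ∈ F, G q ∩ cell M j := by
        rw [← Set.inter_iUnion₂, ← hU, hW]
        refine le_antisymm (Set.inter_subset_inter_right _ Set.sdiff_subset) fun x hx => ?_
        refine ⟨hx.1, hx.2, fun hxV => ?_⟩
        exact (Set.mem_iInter₂.1 hxV.2 q (le_trans (le_trans (le_max_left _ _) (le_max_left _ _)) hq')) hx.1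
      rw [hqV, measureReal_biUnion_finset
        (fun i hi j hj hij => (pairwise_disjoint_cell M F hi hj hij).mono Set.inter_subset_right
          Set.inter_subset_right)
        (fun j _ => (hopen q).measurableSet.inter measurableSet_Ico)
        (fun j _ => measure_ne_top_of_subset Set.inter_subset_right (by simp [cell]))]
      have hterm : ∀ j ∈ F, m q / M - ε / M * m q ≤ volume.real (G q ∩ cell M j) := by
        intro j hj
        have := (abs_le.1 (hn₀ q (le_trans (le_trans (le_max_right _ _) (le_max_left _ _)) hq') j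
          (Finset.mem_range.1 (Finset.mem_filter.1 hj).1))).1
        linarith
      refine le_trans ?_ (Finset.sum_le_sum hterm)
      rw [Finset.sum_const, nsmul_eq_mul]
      have hFM : (F.card : ℝ) ≤ M := by
        have : F.card ≤ (Finset.range M).card := Finset.card_filter_le _ _
        rw [Finset.card_range] at this
        exact_mod_cast this
      have h6 : (F.card : ℝ) * (ε / M * m q) ≤ ε * m q := by
        have : (F.card : ℝ) * (ε / M * m q) = (F.card / M) * (ε * m q) := by field_simp
        rw [this]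
        refine mul_le_of_le_one_left (mul_nonneg hε0.le (hm q)) ?_
        rwa [div_le_one hM']
      have e : ((F.card : ℝ) / M - ε) * m q = (F.card : ℝ) * (m q / M) - ε * m q := by ring
      rw [e, mul_sub]
      linarith
    have hup : ∑ q ∈ S, ∑ r ∈ S, l q * l r * volume.real (G q ∩ G r ∩ W) ≤ 3 * C * T ^ 2 := by
      refine le_trans ?_ (le_trans (hsq S fun q hq =>
        lt_of_lt_of_le Nat.zero_lt_one ((le_max_right _ _).trans (Finset.mem_Ico.1 hq).1)) ?_)
      · exact Finset.sum_le_sum fun q _ => Finset.sum_le_sum fun r _ =>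
          mul_le_mul_of_nonneg_left (measureReal_mono (Set.inter_subset_inter_right _ hWsub)
            (measure_ne_top_of_subset Set.inter_subset_right (by simp))) (mul_nonneg (hl q) (hl r))
      · rw [← hT]
        have hTT : T ≤ T ^ 2 := by nlinarith
        have h1 : 1 ≤ T ^ 2 := by nlinarith
        nlinarith
    have hsm := second_moment_ineq_weighted l G (fun q => (hopen q).measurableSet) W hWm hWfin S (T / s)
    have hT0 : 0 < T := by linarith
    have hmain : 2 * ((F.card : ℝ) / M - ε) ≤ 3 * C * s + s := by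
      have h1 : 2 * (T / s) * (((F.card : ℝ) / M - ε) * T) ≤ 3 * C * T ^ 2 + (T / s) ^ 2 * ε := by
        have a1 := mul_le_mul_of_nonneg_left hlow (by positivity : (0 : ℝ) ≤ 2 * (T / s))
        have a2 := mul_le_mul_of_nonneg_left hWvol (sq_nonneg (T / s))
        linarith
      have h2 : (T / s) ^ 2 * ε = T ^ 2 := by rw [hε]; field_simp
      have h3 : 2 * (T / s) * (((F.card : ℝ) / M - ε) * T)
          = (2 * ((F.card : ℝ) / M - ε)) * (T ^ 2 / s) := by ring
      have h4 : 3 * C * T ^ 2 + T ^ 2 = (3 * C * s + s) * (T ^ 2 / s) := by field_simp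
      rw [h2, h3, h4] at h1
      exact le_of_mul_le_mul_right h1 (by positivity)
    have hVF : volume.real (V n) ≤ (F.card : ℝ) / M := by
      refine (measureReal_mono hVU (measure_union_ne_top hUfin (by simp))).trans ?_
      refine (measureReal_union_le _ _).trans ?_
      rw [show volume.real ({1} : Set ℝ) = 0 by simp [measureReal_def], add_zero, hU,
        measureReal_biUnion_finset (pairwise_disjoint_cell M F) (fun j _ => measurableSet_Ico)
          (fun j _ => by simp [cell])]
      rw [Finset.sum_congr rfl fun j _ => cell_volume hM0 j, Finset.sum_const, nsmul_eq_mul,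
        mul_one_div]
    have hεs : ε ≤ s := by rw [hε]; nlinarith
    nlinarith
  -- conclusion on the line
  refine measure_mono_null (t := ⋃ z : ℤ, ⋃ n : ℕ, (fun x : ℝ => x + -(z : ℝ)) ⁻¹' V n) ?_ ?_
  · intro x hx
    simp only [Set.mem_ofPred_eq, Set.not_infinite] at hx
    obtain ⟨b, hb⟩ := hx.bddAbove
    refine Set.mem_iUnion.2 ⟨⌊x⌋, Set.mem_iUnion.2 ⟨b + 1, ?_, ?_⟩⟩
    · exact ⟨by linarith [Int.floor_le x], by linarith [Int.lt_floor_add_one x]⟩
    · refine Set.mem_iInter₂.2 fun q hq hmem => ?_
      have := (periodic_int (hper q) ⌊x⌋ (x + -(⌊x⌋ : ℝ))).2 hmem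
      rw [neg_add_cancel_right] at this
      have := hb (show q ∈ {q : ℕ | x ∈ G q} from this)
      omega
  · refine measure_iUnion_null fun z => measure_iUnion_null fun n => ?_
    rw [measure_preimage_add_right]
    exact hnull n

end Vale.Agent.P028.ExtraLog
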