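import Mathlib
import Vale.Agent.P028.ExtraLog.SecondMoment
import Vale.Agent.P028.ExtraLog.WeightedCriterion

/-!
# Full measure when the weighted sum diverges after division by a small power of the logarithm
-/

namespace Vale.Agent.P028.ExtraLog

open Finset MeasureTheory

/-- The restricted sets cover almost every point infinitely often. -/
theorem approxSet_full (γ : ℝ) (δ : ℕ → ℝ) (hδ : Radii δ) {ε : ℝ} (hε : 0 < ε) (hε1 : ε ≤ 1)
    (hdiv : ¬ Summable fun q => weight ε q * (2 * mass γ δ q)) :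
    volume {x : ℝ | ¬ {q : ℕ | x ∈ approxSet γ δ q}.Infinite} = 0 := by
  obtain ⟨C, hC, hsq⟩ := exists_second_moment ε hε hε1
  refine null_of_criterion_weighted (weight ε) (fun q => (weight_pos ε q).le) (approxSet γ δ)
    (fun q => 2 * mass γ δ q) (fun q => isOpen_approxSet γ δ q)
    (fun q x => approxSet_periodic γ hδ q x)
    (fun q => mul_nonneg zero_le_two (mass_nonneg (fun q => (hδ.2 q).1) γ q)) hdiv ?_ C hC
    (fun S _ => hsq γ δ hδ S)
  intro κ hκ M hM
  obtain ⟨C₁, hC₁, hτ⟩ := exists_card_divisors_pow_le 4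
  obtain ⟨n, hn⟩ := exists_nat_gt (9 * C₁ / κ ^ 2)
  refine ⟨n + 1, fun q hq j _ => ?_⟩
  have hq0 : 0 < q := by omega
  have hq' : (0 : ℝ) < q := by exact_mod_cast hq0
  have hM' : (0 : ℝ) < M := by exact_mod_cast hM
  have h := approxSet_equidist γ hδ hq0 (x := (j : ℝ) / M) (y := ((j : ℝ) + 1) / M)
    (div_le_div_of_nonneg_right (by linarith) hM'.le)
  have e : 2 * mass γ δ q * (((j : ℝ) + 1) / M - (j : ℝ) / M) = 2 * mass γ δ q / M := by ring
  rw [e] at h
  refine h.trans ?_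
  set τ : ℝ := (q.divisors.card : ℝ) with hτdef
  have hd := (hδ.2 q).1
  have hp := propKeep_pos γ δ q
  have hw : 1 ≤ propKeep γ δ q * τ := one_le_propKeep_mul_card γ δ q hq0
  have h4 : τ ^ 4 ≤ C₁ * q := hτ q hq0
  have hqn : 9 * C₁ / κ ^ 2 ≤ q := by
    have : (n : ℝ) + 1 ≤ q := by exact_mod_cast hq
    linarith
  rw [div_le_iff₀ (by positivity)] at hqn
  have h2 : 3 * τ ^ 2 ≤ κ * q := by
    refine (pow_le_pow_iff_left₀ (by positivity) (by positivity) two_ne_zero).1 ?_
    calc (3 * τ ^ 2) ^ 2 = 9 * τ ^ 4 := by ring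
      _ ≤ 9 * (C₁ * q) := by linarith
      _ ≤ (q * κ ^ 2) * q := by
          rw [← mul_assoc]
          exact mul_le_mul_of_nonneg_right hqn hq'.le
      _ = _ := by ring
  have h3 : 3 * τ ≤ κ * (q * propKeep γ δ q) := by
    calc 3 * τ = 3 * τ * 1 := (mul_one _).symm
      _ ≤ 3 * τ * (propKeep γ δ q * τ) := mul_le_mul_of_nonneg_left hw (by positivity)
      _ = propKeep γ δ q * (3 * τ ^ 2) := by ring
      _ ≤ propKeep γ δ q * (κ * q) := mul_le_mul_of_nonneg_left h2 hp.le
      _ = _ := by ring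
  have h5 := mul_le_mul_of_nonneg_left h3 (by positivity : 0 ≤ 2 * δ q)
  unfold mass
  linarith

lemma two_pow_bin_le {q : ℕ} (hq : 0 < q) :
    (2 : ℝ) ^ (bin q) ≤ 2 * (1 + Real.log q) := by
  have h1 : 2 ^ bin q ≤ Nat.log 2 q + 1 := Nat.pow_log_le_self 2 (Nat.succ_ne_zero _)
  have h1' : (2 : ℝ) ^ bin q ≤ (Nat.log 2 q : ℝ) + 1 := by exact_mod_cast h1
  have h2 : (Nat.log 2 q : ℝ) ≤ Real.log q / Real.log 2 := by
    have := Real.natLog_le_logb q 2
    simpa [Real.logb] using this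
  have h3 : Real.log q / Real.log 2 ≤ 2 * Real.log q := by
    have hlog : 0 ≤ Real.log q := Real.log_nonneg (by exact_mod_cast hq)
    have := Real.log_two_gt_d9
    rw [div_le_iff₀ (by linarith)]
    nlinarith
  linarith

lemma inv_rpow_log_le_weight {ε : ℝ} (hε : 0 ≤ ε) {q : ℕ} (hq : 0 < q) :
    (2 : ℝ) ^ (-ε) / (1 + Real.log q) ^ ε ≤ weight ε q := by
  have hlog : (0 : ℝ) < 1 + Real.log q := by
    linarith [Real.log_nonneg (show (1 : ℝ) ≤ q by exact_mod_cast hq)]
  calc (2 : ℝ) ^ (-ε) / (1 + Real.log q) ^ ε = (2 * (1 + Real.log q)) ^ (-ε) := by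
        rw [Real.mul_rpow zero_le_two hlog.le, Real.rpow_neg hlog.le, div_eq_mul_inv]
    _ ≤ ((2 : ℝ) ^ bin q) ^ (-ε) :=
        Real.rpow_le_rpow_of_nonpos (pow_pos two_pos _) (two_pow_bin_le hq) (neg_nonpos.2 hε)
    _ = weight ε q := by
        rw [weight, ← Real.rpow_natCast, ← Real.rpow_mul zero_le_two]
        ring_nf

/-- The main theorem. -/
theorem full_measure_extra_log (γ : ℝ) (ψ : ℕ → ℝ) (hψ : ∀ q, 0 ≤ ψ q) (ε : ℝ) (hε : 0 < ε)
    (hdiv : ¬ Summable (fun q : ℕ => (Nat.totient q : ℝ) / q * ψ q / (1 + Real.log q) ^ ε)) :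
    volume {x : ℝ | ¬ {q : ℕ | 0 < q ∧ ∃ a : ℤ, |(q : ℝ) * x - a - γ| < ψ q}.Infinite} = 0 := by
  by_cases hbig : {q : ℕ | 1 / 2 < ψ q}.Infinite
  · convert measure_empty (μ := volume)
    refine Set.eq_empty_iff_forall_notMem.2 fun x hx => hx ?_
    refine (hbig.diff (Set.finite_singleton 0)).mono fun q hq => ?_
    obtain ⟨h1, h2⟩ := hq
    refine ⟨Nat.pos_of_ne_zero h2, round ((q : ℝ) * x - γ), ?_⟩
    have := abs_sub_round ((q : ℝ) * x - γ)
    rw [sub_right_comm]
    exact this.trans_lt h1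
  obtain ⟨N, hN⟩ : ∃ N, ∀ q, 1 / 2 < ψ q → q ≤ N := by
    obtain ⟨N, hN⟩ := (Set.not_infinite.1 hbig).bddAbove
    exact ⟨N, fun q hq => hN hq⟩
  set ε' := min ε 1
  have hε' : 0 < ε' := lt_min hε one_pos
  set δ : ℕ → ℝ := fun q => min (ψ q) (1 / 2) / (2 * q) with hδdef
  have hδ : Radii δ := by
    refine ⟨by simp [hδdef], fun q => ⟨?_, ?_⟩⟩
    · simp only [hδdef]
      have := le_min (hψ q) (by norm_num : (0 : ℝ) ≤ 1 / 2)
      positivity
    · rcases Nat.eq_zero_or_pos q with rfl | hq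
      · norm_num
      have hq' : (0 : ℝ) < q := by exact_mod_cast hq
      simp only [hδdef]
      calc (q : ℝ) * (min (ψ q) (1 / 2) / (2 * q)) = min (ψ q) (1 / 2) / 2 := by field_simp
        _ ≤ (1 / 2) / 2 := by gcongr; exact min_le_right _ _
        _ = _ := by norm_num
  have hm : ¬ Summable fun q => weight ε' q * (2 * mass γ δ q) := by
    intro h
    refine hdiv (Summable.of_norm_bounded_eventually_nat (h.mul_left ((2 : ℝ) ^ ε')) ?_)
    filter_upwards [Filter.eventually_gt_atTop N] with q hqN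
    have hq : 0 < q := by omega
    have hq' : (0 : ℝ) < q := by exact_mod_cast hq
    have hψq : min (ψ q) (1 / 2) = ψ q :=
      min_eq_left (not_lt.1 fun hlt => absurd (hN q hlt) (by omega))
    have hlog : 1 ≤ 1 + Real.log q := by
      linarith [Real.log_nonneg (show (1 : ℝ) ≤ q by exact_mod_cast hq)]
    have hnum : 0 ≤ (Nat.totient q : ℝ) / q * ψ q := mul_nonneg (by positivity) (hψ q)
    rw [Real.norm_of_nonneg (div_nonneg hnum (Real.rpow_nonneg (by linarith) _))]
    calc (Nat.totient q : ℝ) / q * ψ q / (1 + Real.log q) ^ ε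
        ≤ (Nat.totient q : ℝ) / q * ψ q / (1 + Real.log q) ^ ε' := by
          refine div_le_div_of_nonneg_left hnum (Real.rpow_pos_of_pos (by linarith) _) ?_
          exact Real.rpow_le_rpow_of_exponent_le hlog (min_le_left _ _)
      _ ≤ (propKeep γ δ q * ψ q) / (1 + Real.log q) ^ ε' := by
          refine div_le_div_of_nonneg_right ?_ (Real.rpow_nonneg (by linarith) _)
          exact mul_le_mul_of_nonneg_right (totient_div_le_propKeep γ δ q) (hψ q)
      _ = (2 : ℝ) ^ ε' * ((2 : ℝ) ^ (-ε') / (1 + Real.log q) ^ ε') * (2 * mass γ δ q) := by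
          have hmass : 2 * mass γ δ q = propKeep γ δ q * ψ q := by
            unfold mass
            simp only [hδdef, hψq]
            field_simp
          rw [hmass, Real.rpow_neg zero_le_two]
          field_simp
      _ ≤ (2 : ℝ) ^ ε' * weight ε' q * (2 * mass γ δ q) := by
          refine mul_le_mul_of_nonneg_right (mul_le_mul_of_nonneg_left
            (inv_rpow_log_le_weight hε'.le hq) (Real.rpow_nonneg zero_le_two _)) ?_
          exact mul_nonneg zero_le_two (mass_nonneg (fun q => (hδ.2 q).1) γ q)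
      _ = _ := by ring
  refine measure_mono_null ?_ (approxSet_full γ δ hδ hε' (min_le_right _ _) hm)
  intro x hx hinf
  refine hx (hinf.mono fun q hq => ?_)
  obtain ⟨a, _, ha⟩ := hq
  have hq0 : 0 < q := Nat.pos_of_ne_zero fun h => by
    subst h
    rw [hδ.1] at ha
    exact (abs_nonneg _).not_gt ha
  have hq' : (0 : ℝ) < q := by exact_mod_cast hq0
  refine ⟨hq0, a, ?_⟩
  have e : (q : ℝ) * x - a - γ = q * (x - ((a : ℝ) + γ) / q) := by field_simp; ring
  rw [e, abs_mul, abs_of_pos hq']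
  calc (q : ℝ) * |x - ((a : ℝ) + γ) / q| < q * δ q := mul_lt_mul_of_pos_left ha hq'
    _ = min (ψ q) (1 / 2) / 2 := by simp only [hδdef]; field_simp
    _ ≤ ψ q := by
        have := min_le_left (ψ q) (1 / 2 : ℝ)
        have := hψ q
        linarith

end Vale.Agent.P028.ExtraLog
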